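import Vale.Agent.P146.H712.RowQ

/-!
Plan R2, rows F1 / F2: the Cauchy-Schwarz inequality for a scalar weight with a deep factor. The
functions `D b` do not depend on the coordinates in `R` (they are functions of the deep position);
the conditional mean over `R` is taken before the norm, and the two copies of `A` which appear have
a nonnegative scalar product. No bound of the flatness of `D` is used.
-/

open MeasureTheory ProbabilityTheory

namespace Vale.Agent.P146.H508.Deep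

open Vale.Agent.P157.Lv Vale.Agent.P146.H712

set_option linter.unusedSectionVars false

variable {ι : Type} [Fintype ι] [DecidableEq ι] {R : Finset ι} {α B : Type} [Fintype α] [Fintype B]

/-- **The pointwise inequality**: `Σ (E[A g])² ≤ Σ E[A] E[A g²]` for the conditional means over `R`
with the density `φ ≥ 0`, if `<A w, A w'> ≥ 0` for all `w, w'`. -/
theorem av_cs {φ g : (ι → ℝ) → ℝ} {A : α → (ι → ℝ) → ℝ} (hφ : EG φ) (h0 : ∀ w, 0 ≤ φ w)
    (hg : EG g) (hA : ∀ p, EG (A p)) (hK : ∀ w w', 0 ≤ ∑ p, A p w * A p w') (z : ι → ℝ) :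
    ∑ p, Av R (fun w => φ w * (A p w * g w)) z ^ 2 ≤
      ∑ p, Av R (fun w => φ w * A p w) z * Av R (fun w => φ w * (A p w * g w ^ 2)) z := by
  obtain ⟨a, ha⟩ : ∃ a : α → ℝ, ∀ p, a p = Av R (fun w => φ w * A p w) z := ⟨_, fun _ => rfl⟩
  obtain ⟨b, hb⟩ : ∃ b : α → ℝ, ∀ p, b p = Av R (fun w => φ w * (A p w * g w)) z :=
    ⟨_, fun _ => rfl⟩
  obtain ⟨c, hc⟩ : ∃ c : α → ℝ, ∀ p, c p = Av R (fun w => φ w * (A p w * g w ^ 2)) z :=
    ⟨_, fun _ => rfl⟩
  simp only [← ha, ← hb, ← hc]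
  have e0 : ∀ p, EG fun w => φ w * A p w := fun p => hφ.mul (hA p)
  have e1 : ∀ p, EG fun w => φ w * (A p w * g w) := fun p => hφ.mul ((hA p).mul hg)
  have e2 : ∀ p, EG fun w => φ w * (A p w * g w ^ 2) := fun p => hφ.mul ((hA p).mul (hg.pow 2))
  -- the inner mean
  have hJ : ∀ w, 0 ≤ ∑ p, A p w * (g w ^ 2 * a p - 2 * g w * b p + c p) := by
    intro w
    have e : ∑ p, A p w * (g w ^ 2 * a p - 2 * g w * b p + c p) =
        Av R (fun w' => φ w' * ((∑ p, A p w * A p w') * (g w - g w') ^ 2)) z := by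
      have e3 : ∀ w', φ w' * ((∑ p, A p w * A p w') * (g w - g w') ^ 2) =
          ∑ p, ((A p w * g w ^ 2) * (φ w' * A p w') -
            (2 * (A p w * g w)) * (φ w' * (A p w' * g w')) +
            A p w * (φ w' * (A p w' * g w' ^ 2))) := by
        intro w'
        rw [Finset.sum_mul, Finset.mul_sum]
        exact Finset.sum_congr rfl fun p _ => by ring
      rw [Av_congr e3, Av_sum _ fun p _ => (((e0 p).const_mul _).sub ((e1 p).const_mul _)).add
        ((e2 p).const_mul _)]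
      refine Finset.sum_congr rfl fun p _ => ?_
      rw [Av_add (((e0 p).const_mul _).sub ((e1 p).const_mul _)) ((e2 p).const_mul _),
        Av_sub ((e0 p).const_mul _) ((e1 p).const_mul _), Av_const_mul, Av_const_mul,
        Av_const_mul, ← ha, ← hb, ← hc]
      ring
    rw [e]
    exact Av_nonneg (fun w' => mul_nonneg (h0 w') (mul_nonneg (hK w w') (sq_nonneg _))) z
  -- the outer mean
  have hO : 0 ≤ Av R (fun w => φ w * ∑ p, A p w * (g w ^ 2 * a p - 2 * g w * b p + c p)) z :=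
    Av_nonneg (fun w => mul_nonneg (h0 w) (hJ w)) z
  have e4 : ∀ w, φ w * ∑ p, A p w * (g w ^ 2 * a p - 2 * g w * b p + c p) =
      ∑ p, (a p * (φ w * (A p w * g w ^ 2)) - (2 * b p) * (φ w * (A p w * g w)) +
        c p * (φ w * A p w)) := by
    intro w
    rw [Finset.mul_sum]
    exact Finset.sum_congr rfl fun p _ => by ring
  have e5 : Av R (fun w => φ w * ∑ p, A p w * (g w ^ 2 * a p - 2 * g w * b p + c p)) z =
      2 * (∑ p, a p * c p - ∑ p, b p ^ 2) := by
    rw [Av_congr e4, Av_sum _ fun p _ => (((e2 p).const_mul _).sub ((e1 p).const_mul _)).add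
      ((e0 p).const_mul _), ← Finset.sum_sub_distrib, Finset.mul_sum]
    refine Finset.sum_congr rfl fun p _ => ?_
    rw [Av_add (((e2 p).const_mul _).sub ((e1 p).const_mul _)) ((e0 p).const_mul _),
      Av_sub ((e2 p).const_mul _) ((e1 p).const_mul _), Av_const_mul, Av_const_mul,
      Av_const_mul, ← ha, ← hb, ← hc]
    ring
  rw [e5] at hO
  linarith

/-- Cauchy-Schwarz for sums of integrals. -/
lemma int_cs {f g : α → (ι → ℝ) → ℝ} (hf : ∀ p, EG (f p)) (hg : ∀ p, EG (g p)) :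
    |∫ w, ∑ p, f p w * g p w ∂(gI ι)| ≤
      √(∫ w, ∑ p, f p w ^ 2 ∂(gI ι)) * √(∫ w, ∑ p, g p w ^ 2 ∂(gI ι)) := by
  obtain ⟨a, ha⟩ : ∃ a, a = ∫ w, ∑ p, f p w ^ 2 ∂(gI ι) := ⟨_, rfl⟩
  obtain ⟨b, hb⟩ : ∃ b, b = ∫ w, ∑ p, f p w * g p w ∂(gI ι) := ⟨_, rfl⟩
  obtain ⟨c, hc⟩ : ∃ c, c = ∫ w, ∑ p, g p w ^ 2 ∂(gI ι) := ⟨_, rfl⟩
  rw [← ha, ← hb, ← hc]
  have e1 : EG fun w => ∑ p, f p w ^ 2 := EG.sum _ fun p _ => (hf p).pow 2
  have e2 : EG fun w => ∑ p, f p w * g p w := EG.sum _ fun p _ => (hf p).mul (hg p)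
  have e3 : EG fun w => ∑ p, g p w ^ 2 := EG.sum _ fun p _ => (hg p).pow 2
  have ha0 : 0 ≤ a := by
    rw [ha]
    exact integral_nonneg fun w => Finset.sum_nonneg fun p _ => sq_nonneg _
  have hc0 : 0 ≤ c := by
    rw [hc]
    exact integral_nonneg fun w => Finset.sum_nonneg fun p _ => sq_nonneg _
  have key : ∀ t : ℝ, 0 ≤ c * (t * t) + 2 * b * t + a := by
    intro t
    have h1 : ∫ w, ∑ p, (f p w + t * g p w) ^ 2 ∂(gI ι) = c * (t * t) + 2 * b * t + a := by
      have e4 : ∀ w, ∑ p, (f p w + t * g p w) ^ 2 =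
          (∑ p, f p w ^ 2) + (2 * t) * (∑ p, f p w * g p w) + (t * t) * ∑ p, g p w ^ 2 := by
        intro w
        rw [Finset.mul_sum, Finset.mul_sum, ← Finset.sum_add_distrib, ← Finset.sum_add_distrib]
        exact Finset.sum_congr rfl fun p _ => by ring
      simp only [e4]
      rw [integral_add (e1.add (e2.const_mul _)).integrable (e3.const_mul _).integrable,
        integral_add e1.integrable (e2.const_mul _).integrable, integral_const_mul,
        integral_const_mul, ← ha, ← hb, ← hc]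
      ring
    rw [← h1]
    exact integral_nonneg fun w => Finset.sum_nonneg fun p _ => sq_nonneg _
  have hd := discrim_le_zero key
  unfold discrim at hd
  refine abs_le_of_sq_le_sq ?_ (mul_nonneg (Real.sqrt_nonneg _) (Real.sqrt_nonneg _))
  rw [mul_pow, Real.sq_sqrt ha0, Real.sq_sqrt hc0]
  nlinarith

/-- **The Cauchy-Schwarz inequality with the conditional mean first.** `D b p` does not depend on
the coordinates in `R`. -/
theorem deep_cs {φ : (ι → ℝ) → ℝ} {A : α → (ι → ℝ) → ℝ} {D : B → α → (ι → ℝ) → ℝ}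
    {g : B → (ι → ℝ) → ℝ} (hφ : EG φ) (h0 : ∀ w, 0 ≤ φ w) (hA : ∀ p, EG (A p))
    (hK : ∀ w w', 0 ≤ ∑ p, A p w * A p w') (hg : ∀ b, EG (g b)) (hD : ∀ b p, EG (D b p))
    (hi : ∀ b p, Ind R (D b p)) :
    |∫ w, φ w * ∑ b, (∑ p, D b p w * A p w) * g b w ∂(gI ι)| ≤
      √(∫ w, ∑ b, ∑ p, D b p w ^ 2 ∂(gI ι)) *
      √(∫ w, φ w * ∑ b, g b w ^ 2 * ∑ p, A p w * Av R (fun w => φ w * A p w) w ∂(gI ι)) := by
  have eF : ∀ b p, EG fun w => φ w * (A p w * g b w) := fun b p => hφ.mul ((hA p).mul (hg b))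
  have eG : ∀ b p, EG fun w => φ w * (A p w * g b w ^ 2) := fun b p =>
    hφ.mul ((hA p).mul ((hg b).pow 2))
  have e0 : ∀ p, EG fun w => φ w * A p w := fun p => hφ.mul (hA p)
  -- the left side
  have h1 : ∫ w, φ w * ∑ b, (∑ p, D b p w * A p w) * g b w ∂(gI ι) =
      ∫ w, ∑ q : B × α, D q.1 q.2 w * Av R (fun w => φ w * (A q.2 w * g q.1 w)) w ∂(gI ι) := by
    have e : ∀ w, φ w * ∑ b, (∑ p, D b p w * A p w) * g b w =
        ∑ q : B × α, D q.1 q.2 w * (φ w * (A q.2 w * g q.1 w)) := by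
      intro w
      rw [Fintype.sum_prod_type, Finset.mul_sum]
      refine Finset.sum_congr rfl fun b _ => ?_
      rw [Finset.sum_mul, Finset.mul_sum]
      exact Finset.sum_congr rfl fun p _ => by ring
    simp only [e]
    rw [integral_finsetSum _ fun q _ => ((hD q.1 q.2).mul (eF q.1 q.2)).integrable,
      integral_finsetSum _ fun q _ => ((hD q.1 q.2).mul (eg_Av R (eF q.1 q.2))).integrable]
    exact Finset.sum_congr rfl fun q _ => integral_weight (hD q.1 q.2) (hi q.1 q.2) (eF q.1 q.2)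
  have h2 := int_cs (f := fun (q : B × α) w => D q.1 q.2 w)
    (g := fun (q : B × α) w => Av R (fun w => φ w * (A q.2 w * g q.1 w)) w)
    (fun q => hD q.1 q.2) fun q => eg_Av R (eF q.1 q.2)
  have h3 : ∫ w, ∑ q : B × α, D q.1 q.2 w ^ 2 ∂(gI ι) =
      ∫ w, ∑ b, ∑ p, D b p w ^ 2 ∂(gI ι) := by
    simp only [Fintype.sum_prod_type]
  -- the second factor
  have h4 : ∫ w, ∑ q : B × α, Av R (fun w => φ w * (A q.2 w * g q.1 w)) w ^ 2 ∂(gI ι) ≤
      ∫ w, φ w * ∑ b, g b w ^ 2 * ∑ p, A p w * Av R (fun w => φ w * A p w) w ∂(gI ι) := by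
    have h5 : ∫ w, ∑ q : B × α, Av R (fun w => φ w * (A q.2 w * g q.1 w)) w ^ 2 ∂(gI ι) ≤
        ∫ w, ∑ b, ∑ p, Av R (fun w => φ w * A p w) w *
          Av R (fun w => φ w * (A p w * g b w ^ 2)) w ∂(gI ι) := by
      refine integral_mono (EG.sum _ fun q _ => (eg_Av R (eF q.1 q.2)).pow 2).integrable
        (EG.sum _ fun b _ => EG.sum _ fun p _ =>
          (eg_Av R (e0 p)).mul (eg_Av R (eG b p))).integrable fun w => ?_
      simp only [Fintype.sum_prod_type]
      exact Finset.sum_le_sum fun b _ => av_cs hφ h0 (hg b) hA hK w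
    refine h5.trans (le_of_eq ?_)
    have e : ∀ w, φ w * ∑ b, g b w ^ 2 * ∑ p, A p w * Av R (fun w => φ w * A p w) w =
        ∑ b, ∑ p, Av R (fun w => φ w * A p w) w * (φ w * (A p w * g b w ^ 2)) := by
      intro w
      rw [Finset.mul_sum]
      refine Finset.sum_congr rfl fun b _ => ?_
      rw [Finset.mul_sum, Finset.mul_sum]
      exact Finset.sum_congr rfl fun p _ => by ring
    simp only [e]
    rw [integral_finsetSum _ fun b _ => (EG.sum _ fun p _ =>
        (eg_Av R (e0 p)).mul (eg_Av R (eG b p))).integrable,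
      integral_finsetSum _ fun b _ => (EG.sum _ fun p _ =>
        (eg_Av R (e0 p)).mul (eG b p)).integrable]
    refine Finset.sum_congr rfl fun b _ => ?_
    rw [integral_finsetSum _ fun p _ => ((eg_Av R (e0 p)).mul (eg_Av R (eG b p))).integrable,
      integral_finsetSum _ fun p _ => ((eg_Av R (e0 p)).mul (eG b p)).integrable]
    exact Finset.sum_congr rfl fun p _ =>
      (integral_weight (eg_Av R (e0 p)) (ind_Av R _) (eG b p)).symm
  rw [h1]
  refine h2.trans ?_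
  rw [h3]
  exact mul_le_mul_of_nonneg_left (Real.sqrt_le_sqrt h4) (Real.sqrt_nonneg _)

/-! ### squares of symmetric matrices -/

variable {n : ℕ}

/-- The entries of `C²`. -/
def sq (C : Fin n → Fin n → ℝ) (p : Fin n × Fin n) : ℝ := ∑ l, C p.1 l * C l p.2

/-- `<C², C'²> = |C C'|² ≥ 0` for symmetric matrices -/
lemma sq_pair {C C' : Fin n → Fin n → ℝ} (hC : ∀ i l, C i l = C l i)
    (hC' : ∀ i l, C' i l = C' l i) :
    ∑ p, sq C p * sq C' p = ∑ l, ∑ m, (∑ i, C l i * C' i m) ^ 2 := by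
  rw [Fintype.sum_prod_type]
  have e1 : ∀ i j, sq C (i, j) * sq C' (i, j) =
      ∑ l, ∑ m, (C l i * C' i m) * (C l j * C' j m) := by
    intro i j
    unfold sq
    rw [Finset.sum_mul_sum]
    refine Finset.sum_congr rfl fun l _ => Finset.sum_congr rfl fun m _ => ?_
    rw [hC i l, hC' m j]
    ring
  simp only [e1]
  calc ∑ i, ∑ j, ∑ l, ∑ m, (C l i * C' i m) * (C l j * C' j m)
      = ∑ i, ∑ l, ∑ j, ∑ m, (C l i * C' i m) * (C l j * C' j m) :=
        Finset.sum_congr rfl fun i _ => Finset.sum_comm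
    _ = ∑ l, ∑ i, ∑ j, ∑ m, (C l i * C' i m) * (C l j * C' j m) := Finset.sum_comm
    _ = ∑ l, ∑ i, ∑ m, ∑ j, (C l i * C' i m) * (C l j * C' j m) :=
        Finset.sum_congr rfl fun l _ => Finset.sum_congr rfl fun i _ => Finset.sum_comm
    _ = ∑ l, ∑ m, ∑ i, ∑ j, (C l i * C' i m) * (C l j * C' j m) :=
        Finset.sum_congr rfl fun l _ => Finset.sum_comm
    _ = ∑ l, ∑ m, (∑ i, C l i * C' i m) ^ 2 := by
        refine Finset.sum_congr rfl fun l _ => Finset.sum_congr rfl fun m _ => ?_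
        rw [pow_two, Finset.sum_mul_sum]

lemma sq_nn {C C' : Fin n → Fin n → ℝ} (hC : ∀ i l, C i l = C l i)
    (hC' : ∀ i l, C' i l = C' l i) : 0 ≤ ∑ p, sq C p * sq C' p := by
  rw [sq_pair hC hC']
  exact Finset.sum_nonneg fun l _ => Finset.sum_nonneg fun m _ => sq_nonneg _

/-- **The touch of the deep matrix of a scalar weight**: `C` symmetric, `D b` symmetric or not, not
depending on the coordinates in `R`; `Yh = E[C² | deep]`. -/
theorem deep_sq {φ : (ι → ℝ) → ℝ} {C : (ι → ℝ) → Fin n → Fin n → ℝ}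
    {D : B → (ι → ℝ) → Fin n → Fin n → ℝ} {g : B → (ι → ℝ) → ℝ} (hφ : EG φ) (h0 : ∀ w, 0 ≤ φ w)
    (hC : ∀ i l, EG fun w => C w i l) (hs : ∀ w i l, C w i l = C w l i) (hg : ∀ b, EG (g b))
    (hD : ∀ b i l, EG fun w => D b w i l) (hi : ∀ b i l, Ind R fun w => D b w i l) :
    |∫ w, φ w * ∑ b, (∑ i, ∑ j, D b w i j * ∑ l, C w i l * C w l j) * g b w ∂(gI ι)| ≤
      √(∫ w, ∑ b, ∑ i, ∑ j, D b w i j ^ 2 ∂(gI ι)) *
      √(∫ w, φ w * ∑ b, g b w ^ 2 * ∑ i, ∑ j, (∑ l, C w i l * C w l j) *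
        Av R (fun w => φ w * ∑ l, C w i l * C w l j) w ∂(gI ι)) := by
  have key := deep_cs (R := R) (φ := φ) (A := fun (p : Fin n × Fin n) w => sq (C w) p)
    (D := fun b p w => D b w p.1 p.2) (g := g) hφ h0
    (fun p => EG.sum _ fun l _ => (hC p.1 l).mul (hC l p.2))
    (fun w w' => sq_nn (hs w) (hs w')) hg (fun b p => hD b p.1 p.2) (fun b p => hi b p.1 p.2)
  simp only [Fintype.sum_prod_type, sq] at key
  exact key

end Vale.Agent.P146.H508.Deep
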