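import Vale.Agent.P146.H191.Fro

/-!
Plan R2, row F2: the seminorm of a positive semidefinite matrix `Y` and the difference of two
scalar weights `tr (Y M²) G'`, `tr (Y C²) G`.
-/

open Finset

namespace Vale.Agent.P146.H508.Rho

open Vale.Agent.P146.H191

variable {n : ℕ}

/-- `tr (Y A Bᵀ)` -/
def qf (Y A B : Fin n → Fin n → ℝ) : ℝ := ∑ i, ∑ j, Y i j * ∑ l, A i l * B j l

/-- Positive semidefinite as a form. -/
def Ps (Y : Fin n → Fin n → ℝ) : Prop := ∀ u : Fin n → ℝ, 0 ≤ ∑ i, ∑ j, Y i j * (u i * u j)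

lemma qf_swap (Y A B : Fin n → Fin n → ℝ) :
    qf Y A B = ∑ l, ∑ i, ∑ j, Y i j * (A i l * B j l) := by
  unfold qf
  simp only [Finset.mul_sum]
  calc ∑ i, ∑ j, ∑ l, Y i j * (A i l * B j l) = ∑ i, ∑ l, ∑ j, Y i j * (A i l * B j l) :=
        Finset.sum_congr rfl fun i _ => Finset.sum_comm
    _ = _ := Finset.sum_comm

lemma qf_nonneg {Y : Fin n → Fin n → ℝ} (hY : Ps Y) (A : Fin n → Fin n → ℝ) : 0 ≤ qf Y A A := by
  rw [qf_swap]
  exact Finset.sum_nonneg fun l _ => hY fun i => A i l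

lemma qf_comm {Y : Fin n → Fin n → ℝ} (hs : ∀ i j, Y i j = Y j i) (A B : Fin n → Fin n → ℝ) :
    qf Y A B = qf Y B A := by
  unfold qf
  rw [Finset.sum_comm]
  refine Finset.sum_congr rfl fun i _ => Finset.sum_congr rfl fun j _ => ?_
  rw [hs j i]
  congr 1
  exact Finset.sum_congr rfl fun l _ => mul_comm _ _

lemma qf_add_left (Y A A' B : Fin n → Fin n → ℝ) :
    qf Y (fun i l => A i l + A' i l) B = qf Y A B + qf Y A' B := by
  unfold qf
  rw [← Finset.sum_add_distrib]
  refine Finset.sum_congr rfl fun i _ => ?_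
  rw [← Finset.sum_add_distrib]
  refine Finset.sum_congr rfl fun j _ => ?_
  rw [← mul_add, ← Finset.sum_add_distrib]
  congr 1
  exact Finset.sum_congr rfl fun l _ => by ring

lemma qf_smul_left (Y A B : Fin n → Fin n → ℝ) (t : ℝ) :
    qf Y (fun i l => t * A i l) B = t * qf Y A B := by
  unfold qf
  simp only [Finset.mul_sum]
  exact Finset.sum_congr rfl fun i _ => Finset.sum_congr rfl fun j _ =>
    Finset.sum_congr rfl fun l _ => by ring

lemma qf_sub_left (Y A A' B : Fin n → Fin n → ℝ) :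
    qf Y (fun i l => A i l - A' i l) B = qf Y A B - qf Y A' B := by
  have h := qf_add_left Y (fun i l => A i l - A' i l) A' B
  simp only [sub_add_cancel] at h
  linarith

/-- **Cauchy-Schwarz in the seminorm of `Y`.** -/
theorem qf_cs {Y : Fin n → Fin n → ℝ} (hY : Ps Y) (hs : ∀ i j, Y i j = Y j i)
    (A B : Fin n → Fin n → ℝ) : |qf Y A B| ≤ √(qf Y A A) * √(qf Y B B) := by
  have key : ∀ t : ℝ, 0 ≤ qf Y B B * (t * t) + 2 * qf Y A B * t + qf Y A A := by
    intro t
    have h := qf_nonneg hY fun i l => A i l + t * B i l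
    have e : qf Y (fun i l => A i l + t * B i l) (fun i l => A i l + t * B i l) =
        qf Y B B * (t * t) + 2 * qf Y A B * t + qf Y A A := by
      rw [qf_add_left, qf_comm hs A, qf_add_left, qf_smul_left, qf_smul_left,
        qf_comm hs B (fun i l => A i l + t * B i l), qf_add_left, qf_smul_left, qf_comm hs B A]
      ring
    rw [← e]
    exact h
  have hd := discrim_le_zero key
  unfold discrim at hd
  refine abs_le_of_sq_le_sq ?_ (mul_nonneg (Real.sqrt_nonneg _) (Real.sqrt_nonneg _))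
  rw [mul_pow, Real.sq_sqrt (qf_nonneg hY A), Real.sq_sqrt (qf_nonneg hY B)]
  nlinarith

/-- the triangle inequality in the seminorm of `Y` -/
lemma qf_tri {Y : Fin n → Fin n → ℝ} (hY : Ps Y) (hs : ∀ i j, Y i j = Y j i)
    (A B : Fin n → Fin n → ℝ) :
    √(qf Y (fun i l => A i l + B i l) (fun i l => A i l + B i l)) ≤
      √(qf Y A A) + √(qf Y B B) := by
  refine Real.sqrt_le_iff.2 ⟨add_nonneg (Real.sqrt_nonneg _) (Real.sqrt_nonneg _), ?_⟩
  have e : qf Y (fun i l => A i l + B i l) (fun i l => A i l + B i l) =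
      qf Y A A + 2 * qf Y A B + qf Y B B := by
    rw [qf_add_left, qf_comm hs A, qf_add_left, qf_comm hs B (fun i l => A i l + B i l),
      qf_add_left, qf_comm hs B A]
    ring
  rw [e, add_sq, Real.sq_sqrt (qf_nonneg hY A), Real.sq_sqrt (qf_nonneg hY B)]
  have := (le_abs_self _).trans (qf_cs hY hs A B)
  linarith

/-- `tr (Y A Aᵀ) ≤ |Y|_F |A|_F²` -/
lemma qf_le (Y A B : Fin n → Fin n → ℝ) : |qf Y A B| ≤ fro Y * (fro A * fro B) := by
  have h1 := cs_fro Y fun i j => ∑ l, A i l * B j l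
  have h2 : fro (fun i j => ∑ l, A i l * B j l) ≤ fro A * fro fun l j => B j l :=
    fro_mul A fun l j => B j l
  have h3 : fro (fun l j => B j l) = fro B := by
    unfold fro
    rw [Finset.sum_comm]
  rw [h3] at h2
  exact h1.trans (mul_le_mul_of_nonneg_left h2 (fro_nonneg Y))

/-- the difference of two squares: `tr (Y (M² - C²))` -/
theorem qf_sq_sub {Y M C : Fin n → Fin n → ℝ} (hY : Ps Y) (hs : ∀ i j, Y i j = Y j i) :
    |qf Y M M - qf Y C C| ≤
      √(qf Y (fun i l => M i l - C i l) (fun i l => M i l - C i l)) *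
        (√(qf Y M M) + √(qf Y C C)) := by
  have e : qf Y M M - qf Y C C = qf Y (fun i l => M i l - C i l) M +
      qf Y (fun i l => M i l - C i l) C := by
    rw [qf_sub_left, qf_sub_left, qf_comm hs C M]
    ring
  rw [e, mul_add]
  exact (abs_add_le _ _).trans (add_le_add (qf_cs hY hs _ _) (qf_cs hY hs _ _))

/-- **(F2-ρ)** the difference of the weights with the same `Y`. -/
theorem rho_le {Y M C : Fin n → Fin n → ℝ} (hY : Ps Y) (hs : ∀ i j, Y i j = Y j i)
    (g' g : ℝ) :
    |qf Y M M * g' - qf Y C C * g| ≤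
      |g'| * (√(qf Y (fun i l => M i l - C i l) (fun i l => M i l - C i l)) *
        (√(qf Y M M) + √(qf Y C C))) + |g' - g| * qf Y C C := by
  have e : qf Y M M * g' - qf Y C C * g =
      g' * (qf Y M M - qf Y C C) + (g' - g) * qf Y C C := by ring
  rw [e]
  refine (abs_add_le _ _).trans (add_le_add ?_ (le_of_eq ?_))
  · rw [abs_mul]
    exact mul_le_mul_of_nonneg_left (qf_sq_sub hY hs) (abs_nonneg _)
  · rw [abs_mul, abs_of_nonneg (qf_nonneg hY C)]

/-- the form in which the weight appears in `f3_sumY`, `C` symmetric -/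
lemma qf_symm {Y C : Fin n → Fin n → ℝ} (hC : ∀ i l, C i l = C l i) :
    qf Y C C = ∑ i, ∑ j, Y i j * ∑ l, C i l * C l j := by
  unfold qf
  refine Finset.sum_congr rfl fun i _ => Finset.sum_congr rfl fun j _ => ?_
  congr 1
  exact Finset.sum_congr rfl fun l _ => by rw [hC j l]

/-- **The decomposition of the weights**: `χ_b - χ = <Y_b - Y, C²> g + ρ_b`. -/
lemma weight_dec {Yb Y M C : Fin n → Fin n → ℝ} (hC : ∀ i l, C i l = C l i) (g' g : ℝ) :
    qf Yb M M * g' - qf Y C C * g =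
      (∑ i, ∑ j, (Yb i j - Y i j) * ∑ l, C i l * C l j) * g +
        (qf Yb M M * g' - qf Yb C C * g) := by
  have e : ∑ i, ∑ j, (Yb i j - Y i j) * ∑ l, C i l * C l j = qf Yb C C - qf Y C C := by
    rw [qf_symm hC, qf_symm hC, ← Finset.sum_sub_distrib]
    refine Finset.sum_congr rfl fun i _ => ?_
    rw [← Finset.sum_sub_distrib]
    exact Finset.sum_congr rfl fun j _ => by ring
  rw [e]
  ring

/-! ### exponential growth -/

open Vale.Agent.P157.Lv in
lemma eg_qf {ι : Type} [Fintype ι] {Y A B : (ι → ℝ) → Fin n → Fin n → ℝ}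
    (hY : ∀ i j, EG fun w => Y w i j) (hA : ∀ i j, EG fun w => A w i j)
    (hB : ∀ i j, EG fun w => B w i j) : EG fun w => qf (Y w) (A w) (B w) :=
  EG.sum _ fun i _ => EG.sum _ fun j _ => (hY i j).mul
    (EG.sum _ fun l _ => (hA i l).mul (hB j l))

end Vale.Agent.P146.H508.Rho
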