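import Vale.Agent.P146.H712.BtFn
import Vale.Agent.P146.H508.Rho

/-!
Plan R2, row F2: **form bounds of the derivatives** `D_e C` in the couplings `e` of one row, for a
dominated position system: only the one-replica marginals of the kernel of the derivative are used.
-/

open MeasureTheory ProbabilityTheory Finset

namespace Vale.Agent.P146.H508

open Vale.Agent.P157.Lv Vale.Agent.P146.H425 Vale.Agent.P146.H325
  Vale.Agent.P146.H332 Vale.Agent.P146.R1 Vale.Agent.P146.R1C Vale.Agent.P146.H633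
  Vale.Agent.P146.R1S Vale.Agent.P146.Cum Vale.Agent.P146.H712
open Vale.Agent.P146.H508.Rho (qf Ps qf_nonneg qf_swap)

set_option linter.unusedSectionVars false

/-! ### two independent samples of a dominated kernel -/

section pair

variable {ι X : Type} [Fintype ι] [DecidableEq ι] [Fintype X] [DecidableEq X]

/-- the second moment of a function of two independent samples of the root law -/
noncomputable def m2f (μ : (ι → ℝ) → X → ℝ) (f : X → X → ℝ) (z : ι → ℝ) : ℝ :=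
  ∑ v, μ z v * ∑ v', μ z v' * f v v' ^ 2

lemma m2f_nonneg {μ : (ι → ℝ) → X → ℝ} (hμ : ∀ z v, 0 ≤ μ z v) (f : X → X → ℝ) (z : ι → ℝ) :
    0 ≤ m2f μ f z :=
  Finset.sum_nonneg fun v _ => mul_nonneg (hμ z v) (Finset.sum_nonneg fun v' _ =>
    mul_nonneg (hμ z v') (sq_nonneg _))

lemma pk_pair {α : Type} [Fintype α] [DecidableEq α] {μ : (ι → ℝ) → X → ℝ} {q : ℝ}
    {Q : (ι → ℝ) → (α → X) → ℝ} (hQ : Pk μ q Q) (z : ι → ℝ) (a : α) (f : X → X → ℝ) :
    ∑ x, ∑ x', Q z x * Q z x' * f (x a) (x' a) ^ 2 = q ^ 2 * m2f μ f z := by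
  have e1 : ∀ x, ∑ x', Q z x * Q z x' * f (x a) (x' a) ^ 2 =
      Q z x * (q * ∑ v', μ z v' * f (x a) v' ^ 2) := by
    intro x
    rw [← hQ.marg z a (fun v' => f (x a) v' ^ 2), Finset.mul_sum]
    exact Finset.sum_congr rfl fun x' _ => by ring
  simp_rw [e1]
  rw [hQ.marg z a (fun v => q * ∑ v', μ z v' * f v v' ^ 2)]
  unfold m2f
  rw [pow_two, mul_assoc]
  congr 1
  rw [Finset.mul_sum]
  exact Finset.sum_congr rfl fun v _ => by ring

/-- Cauchy-Schwarz with weights on a product -/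
lemma cs_pair {Y : Type} [Fintype Y] {Q : Y → ℝ} (hQ : ∀ x, 0 ≤ Q x) (f g : Y → Y → ℝ) :
    ∑ x, ∑ x', Q x * Q x' * (|f x x'| * |g x x'|) ≤
      √(∑ x, ∑ x', Q x * Q x' * f x x' ^ 2) * √(∑ x, ∑ x', Q x * Q x' * g x x' ^ 2) := by
  have h := Finset.sum_mul_sq_le_sq_mul_sq (Finset.univ : Finset (Y × Y))
    (fun p => √(Q p.1 * Q p.2) * |f p.1 p.2|) (fun p => √(Q p.1 * Q p.2) * |g p.1 p.2|)
  have e0 : ∀ p : Y × Y, √(Q p.1 * Q p.2) * √(Q p.1 * Q p.2) = Q p.1 * Q p.2 := fun p =>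
    Real.mul_self_sqrt (mul_nonneg (hQ _) (hQ _))
  have e1 : ∀ p : Y × Y, √(Q p.1 * Q p.2) * |f p.1 p.2| * (√(Q p.1 * Q p.2) * |g p.1 p.2|) =
      Q p.1 * Q p.2 * (|f p.1 p.2| * |g p.1 p.2|) := by
    intro p
    linear_combination (|f p.1 p.2| * |g p.1 p.2|) * e0 p
  have e2 : ∀ (u : Y → Y → ℝ) (p : Y × Y), (√(Q p.1 * Q p.2) * |u p.1 p.2|) ^ 2 =
      Q p.1 * Q p.2 * u p.1 p.2 ^ 2 := by
    intro u p
    rw [mul_pow, sq_abs, pow_two (√(Q p.1 * Q p.2)), e0]
  simp only [e1, e2 f, e2 g, Fintype.sum_prod_type] at h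
  have n1 : ∀ u : Y → Y → ℝ, 0 ≤ ∑ x, ∑ x', Q x * Q x' * u x x' ^ 2 := fun u =>
    Finset.sum_nonneg fun x _ => Finset.sum_nonneg fun x' _ =>
      mul_nonneg (mul_nonneg (hQ _) (hQ _)) (sq_nonneg _)
  rw [← Real.sqrt_mul (n1 f)]
  exact Real.le_sqrt_of_sq_le h

/-- **Two samples of a dominated kernel.** -/
theorem dm_pair {μ : (ι → ℝ) → X → ℝ} {c : ℝ} {T : (ι → ℝ) → (Option Unit → X) → ℝ}
    (h : Dm μ c T) (hμ : ∀ z v, 0 ≤ μ z v) (f g : X → X → ℝ) (z : ι → ℝ) :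
    ∑ x, ∑ x', T z x * T z x' * (f (x (some ())) (x' (some ())) * g (x none) (x' none)) ≤
      c ^ 2 * (√(m2f μ f z) * √(m2f μ g z)) := by
  obtain ⟨P, M, p, m, hP, hM, hT, hpm⟩ := h
  have hQ := hP.add hM
  set Q : (ι → ℝ) → (Option Unit → X) → ℝ := fun z x => P z x + M z x with hQd
  have a1 : ∀ x, |T z x| ≤ Q z x := by
    intro x
    rw [hT, abs_le]
    have := hP.nn z x
    have := hM.nn z x
    constructor <;> simp only [hQd] <;> linarith
  have h1 : ∀ x x', T z x * T z x' * (f (x (some ())) (x' (some ())) * g (x none) (x' none)) ≤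
      Q z x * Q z x' * (|f (x (some ())) (x' (some ()))| * |g (x none) (x' none)|) := by
    intro x x'
    refine (le_abs_self _).trans ?_
    rw [abs_mul, abs_mul, abs_mul]
    exact mul_le_mul_of_nonneg_right (mul_le_mul (a1 x) (a1 x') (abs_nonneg _) (hQ.nn z x))
      (mul_nonneg (abs_nonneg _) (abs_nonneg _))
  refine (Finset.sum_le_sum fun x _ => Finset.sum_le_sum fun x' _ => h1 x x').trans ?_
  refine (cs_pair (hQ.nn z) (fun x x' => f (x (some ())) (x' (some ())))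
    (fun x x' => g (x none) (x' none))).trans ?_
  rw [pk_pair hQ z (some ()) f, pk_pair hQ z none g]
  have hq0 : 0 ≤ p + m := hQ.p0
  have e : ∀ t : ℝ, 0 ≤ t → √((p + m) ^ 2 * t) = (p + m) * √t := by
    intro t ht
    rw [Real.sqrt_mul (sq_nonneg _), Real.sqrt_sq hq0]
  rw [e _ (m2f_nonneg hμ f z), e _ (m2f_nonneg hμ g z)]
  have h3 : (p + m) ^ 2 ≤ c ^ 2 := pow_le_pow_left₀ hq0 hpm 2
  calc (p + m) * √(m2f μ f z) * ((p + m) * √(m2f μ g z)) =
      (p + m) ^ 2 * (√(m2f μ f z) * √(m2f μ g z)) := by ring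
    _ ≤ _ := mul_le_mul_of_nonneg_right h3 (mul_nonneg (Real.sqrt_nonneg _) (Real.sqrt_nonneg _))

end pair

/-! ### moments of overlaps -/

section ov

variable {n : ℕ} {k x s Γ : ℝ} (S : CS n k x)

/-- the product `σ P τ` -/
def sPs (P : Fin n → Fin n → ℝ) (σ τ : Fin n → ℤˣ) : ℝ := ∑ i, ∑ j, P i j * (sp σ i * sp τ j)

lemma mean_sPs (P : Fin n → Fin n → ℝ) (z : Pair n → ℝ) :
    ∑ σ, S.mu s z σ * sPs P σ σ = ∑ i, ∑ j, P i j * S.A s z i j := by
  simp only [S.A_mu, sPs, Finset.mul_sum]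
  rw [Finset.sum_comm]
  refine Finset.sum_congr rfl fun i _ => ?_
  rw [Finset.sum_comm]
  refine Finset.sum_congr rfl fun j _ => Finset.sum_congr rfl fun σ _ => ?_
  unfold pr
  ring

/-- Cauchy-Schwarz for a form -/
lemma sPs_cs {P : Fin n → Fin n → ℝ} (hP : Ps P) (hs : ∀ i j, P i j = P j i)
    (σ τ : Fin n → ℤˣ) : sPs P σ τ ^ 2 ≤ sPs P σ σ * sPs P τ τ := by
  have key : ∀ t : ℝ, 0 ≤ sPs P τ τ * (t * t) + 2 * sPs P σ τ * t + sPs P σ σ := by
    intro t
    have h := hP fun i => sp σ i + t * sp τ i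
    have e : ∑ i, ∑ j, P i j * ((sp σ i + t * sp τ i) * (sp σ j + t * sp τ j)) =
        sPs P τ τ * (t * t) + (sPs P σ τ + sPs P τ σ) * t + sPs P σ σ := by
      unfold sPs
      simp only [Finset.sum_mul, add_mul, ← Finset.sum_add_distrib]
      exact Finset.sum_congr rfl fun i _ => Finset.sum_congr rfl fun j _ => by ring
    have e2 : sPs P τ σ = sPs P σ τ := by
      unfold sPs
      rw [Finset.sum_comm]
      exact Finset.sum_congr rfl fun i _ => Finset.sum_congr rfl fun j _ => by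
        rw [hs j i]; ring
    rw [e, e2] at h
    linarith
  have hd := discrim_le_zero key
  unfold discrim at hd
  nlinarith

lemma sPs_nonneg {P : Fin n → Fin n → ℝ} (hP : Ps P) (σ : Fin n → ℤˣ) : 0 ≤ sPs P σ σ :=
  hP fun i => sp σ i

/-- the overlap -/
def ov (σ τ : Fin n → ℤˣ) : ℝ := ∑ l, sp σ l * sp τ l

lemma abs_ov (σ τ : Fin n → ℤˣ) : |ov σ τ| ≤ n := by
  unfold ov
  refine (Finset.abs_sum_le_sum_abs _ _).trans (le_of_eq ?_)
  have e : ∀ l, |sp σ l * sp τ l| = 1 := fun l => by rw [abs_mul, abs_sp, abs_sp, one_mul]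
  simp only [e, Finset.sum_const, Finset.card_univ, Fintype.card_fin, nsmul_eq_mul, mul_one]

lemma ov_sq_le (σ τ : Fin n → ℤˣ) : ov σ τ ^ 2 ≤ (n : ℝ) ^ 2 := by
  rw [← sq_abs]
  exact pow_le_pow_left₀ (abs_nonneg _) (abs_ov σ τ) 2

/-- the second moment of a bilinear form in the spins -/
lemma m2_bil (w : Fin n → ℝ) (z : Pair n → ℝ) :
    m2f (S.mu s) (fun σ τ => ∑ l, w l * (sp σ l * sp τ l)) z =
      ∑ i, ∑ j, w i * w j * S.A s z i j ^ 2 := by
  unfold m2f
  have e1 : ∀ σ τ : Fin n → ℤˣ, (∑ l, w l * (sp σ l * sp τ l)) ^ 2 =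
      ∑ i, ∑ j, w i * w j * (pr i j σ * pr i j τ) := by
    intro σ τ
    rw [pow_two, Finset.sum_mul_sum]
    refine Finset.sum_congr rfl fun i _ => Finset.sum_congr rfl fun j _ => ?_
    unfold pr
    ring
  simp_rw [e1]
  have e2 : ∀ σ : Fin n → ℤˣ, ∑ τ, S.mu s z τ * ∑ i, ∑ j, w i * w j * (pr i j σ * pr i j τ) =
      ∑ i, ∑ j, w i * w j * (pr i j σ * S.A s z i j) := by
    intro σ
    simp only [S.A_mu, Finset.mul_sum]
    rw [Finset.sum_comm]
    refine Finset.sum_congr rfl fun i _ => ?_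
    rw [Finset.sum_comm]
    exact Finset.sum_congr rfl fun j _ => Finset.sum_congr rfl fun τ _ => by ring
  simp_rw [e2]
  simp only [Finset.mul_sum]
  rw [Finset.sum_comm]
  refine Finset.sum_congr rfl fun i _ => ?_
  rw [Finset.sum_comm]
  refine Finset.sum_congr rfl fun j _ => ?_
  calc ∑ σ, S.mu s z σ * (w i * w j * (pr i j σ * S.A s z i j)) =
      w i * w j * S.A s z i j * ∑ σ, S.mu s z σ * pr i j σ := by
        rw [Finset.mul_sum]
        exact Finset.sum_congr rfl fun σ _ => by ring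
    _ = w i * w j * S.A s z i j ^ 2 := by rw [← S.A_mu]; ring

lemma m2_ov (z : Pair n → ℝ) : m2f (S.mu s) ov z = fr (S.A s z) := by
  have h := m2_bil (s := s) S (fun _ => 1) z
  simp only [one_mul] at h
  exact h

lemma m2f_mono {μ : (Pair n → ℝ) → (Fin n → ℤˣ) → ℝ} (hμ : ∀ z v, 0 ≤ μ z v)
    {f g : (Fin n → ℤˣ) → (Fin n → ℤˣ) → ℝ} (h : ∀ v v', f v v' ^ 2 ≤ g v v' ^ 2)
    (z : Pair n → ℝ) : m2f μ f z ≤ m2f μ g z :=
  Finset.sum_le_sum fun v _ => mul_le_mul_of_nonneg_left (Finset.sum_le_sum fun v' _ =>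
    mul_le_mul_of_nonneg_left (h v v') (hμ z v')) (hμ z v)

/-- the overlap on the couplings of one site -/
def ovb (b : Fin n) (σ τ : Fin n → ℤˣ) : ℝ := ∑ e ∈ row b, SkS e σ * SkS e τ

lemma ovb_eq (b : Fin n) (σ τ : Fin n → ℤˣ) : ovb b σ τ =
    sp σ b * sp τ b * ∑ l, (if l = b then 0 else 1) * (sp σ l * sp τ l) := by
  unfold ovb
  have e1 : ∀ e ∈ row b, SkS e σ * SkS e τ =
      (fun l => sp σ b * sp τ b * ((if l = b then 0 else 1) * (sp σ l * sp τ l))) (oth b e) := by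
    intro e he
    simp only
    rw [SkS_oth he, if_neg (oth_ne he)]
    unfold pr
    ring
  rw [Finset.sum_congr rfl e1,
    sum_row_all b (G := fun l => sp σ b * sp τ b * ((if l = b then 0 else 1) *
      (sp σ l * sp τ l))) (by simp), Finset.mul_sum]

lemma m2_ovb (hμ : ∀ z v, 0 ≤ S.mu s z v) (b : Fin n) (z : Pair n → ℝ) :
    m2f (S.mu s) (ovb b) z ≤ fr (S.A s z) := by
  have h1 : m2f (S.mu s) (ovb b) z = m2f (S.mu s)
      (fun σ τ => ∑ l, (if l = b then 0 else 1) * (sp σ l * sp τ l)) z := by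
    unfold m2f
    refine Finset.sum_congr rfl fun σ _ => ?_
    congr 1
    refine Finset.sum_congr rfl fun τ _ => ?_
    rw [ovb_eq, mul_pow, mul_pow, sp_sq, sp_sq, one_mul, one_mul]
  rw [h1, m2_bil (s := s) S (fun l => if l = b then 0 else 1) z]
  refine Finset.sum_le_sum fun i _ => Finset.sum_le_sum fun j _ => ?_
  refine mul_le_of_le_one_left (sq_nonneg _) ?_
  split_ifs <;> norm_num

/-! ### the form bounds -/

lemma sw3 {A B C : Type} [Fintype B] [Fintype C] (t : Finset A) (f : A → B → C → ℝ) :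
    ∑ a ∈ t, ∑ b, ∑ c, f a b c = ∑ b, ∑ c, ∑ a ∈ t, f a b c := by
  rw [Finset.sum_comm]
  exact Finset.sum_congr rfl fun b _ => Finset.sum_comm

/-- the kernel of the derivatives -/
lemma DA_ev (hFn : Fn k SkS (uu x s S.F) (S.mu s) Γ) :
    ∃ T' : (Pair n → ℝ) → (Option Unit → Fin n → ℤˣ) → ℝ, Dm (S.mu s) Γ T' ∧
      ∀ (e : Pair n) (z : Pair n → ℝ) (i j : Fin n),
        S.DA s e z i j = k * ∑ x, T' z x * (SkS e (x none) * pr i j (x (some ()))) := by
  obtain ⟨-, T', h1, h2⟩ := hFn.good 1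
  refine ⟨T', Dm.mono (show Dm (S.mu s) _ T' from h2) (by simp), fun e z i j => ?_⟩
  have eA : (fun z => S.A s z i j) =
      ev (fun z (x : Unit → Fin n → ℤˣ) => S.mu s z (x ())) (fun _ => pr i j) := by
    funext z
    rw [S.A_mu]
    unfold ev
    rw [← sum_unit (fun v => S.mu s z v * pr i j v)]
    exact Finset.sum_congr rfl fun x _ => by simp
  have p1 := pd_ev h1 (fun _ => pr i j) e
  have p2 := tpd S s e i j
  rw [eA] at p2
  have h3 : S.DA s e z i j = k * ev T' (exg (fun _ => pr i j) (SkS e)) z := by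
    have h3 := (p2 z (z e)).unique (p1 z (z e))
    rwa [Function.update_eq_self] at h3
  rw [h3]
  unfold ev
  congr 1
  refine Finset.sum_congr rfl fun x _ => ?_
  rw [Fintype.prod_option]
  simp [exg]

/-- the form of the derivatives of one row, as a double sum over the kernel -/
lemma row_ev {T' : (Pair n → ℝ) → (Option Unit → Fin n → ℤˣ) → ℝ}
    (h : ∀ (e : Pair n) (z : Pair n → ℝ) (i j : Fin n),
      S.DA s e z i j = k * ∑ x, T' z x * (SkS e (x none) * pr i j (x (some ()))))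
    (P : Fin n → Fin n → ℝ) (b : Fin n) (z : Pair n → ℝ) :
    ∑ e ∈ row b, qf P (S.DA s e z) (S.DA s e z) =
      k ^ 2 * ∑ x, ∑ x', T' z x * T' z x' *
        ((sPs P (x (some ())) (x' (some ())) * ov (x (some ())) (x' (some ()))) *
          ovb b (x none) (x' none)) := by
  have e1 : ∀ (e : Pair n) (i j l : Fin n), S.DA s e z i l * S.DA s e z j l =
      ∑ x, ∑ x', k ^ 2 * (T' z x * T' z x' * (SkS e (x none) * SkS e (x' none) *
        ((sp (x (some ())) i * sp (x' (some ())) j) *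
          (sp (x (some ())) l * sp (x' (some ())) l)))) := by
    intro e i j l
    rw [h, h, mul_mul_mul_comm, Finset.sum_mul_sum, Finset.mul_sum]
    refine Finset.sum_congr rfl fun x _ => ?_
    rw [Finset.mul_sum]
    refine Finset.sum_congr rfl fun x' _ => ?_
    unfold pr
    ring
  have e2 : ∀ (e : Pair n) (i j : Fin n), P i j * ∑ l, S.DA s e z i l * S.DA s e z j l =
      ∑ x, ∑ x', k ^ 2 * (T' z x * T' z x' * (SkS e (x none) * SkS e (x' none) *
        ((P i j * (sp (x (some ())) i * sp (x' (some ())) j)) *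
          ov (x (some ())) (x' (some ()))))) := by
    intro e i j
    simp only [e1]
    rw [sw3, Finset.mul_sum]
    refine Finset.sum_congr rfl fun x _ => ?_
    rw [Finset.mul_sum]
    refine Finset.sum_congr rfl fun x' _ => ?_
    unfold ov
    simp only [Finset.mul_sum]
    exact Finset.sum_congr rfl fun l _ => by ring
  have e3 : ∀ e : Pair n, qf P (S.DA s e z) (S.DA s e z) =
      ∑ x, ∑ x', k ^ 2 * (T' z x * T' z x' * (SkS e (x none) * SkS e (x' none) *
        (sPs P (x (some ())) (x' (some ())) * ov (x (some ())) (x' (some ()))))) := by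
    intro e
    unfold Rho.qf
    simp only [e2]
    have e4 : ∀ i, ∑ j, ∑ x : Option Unit → Fin n → ℤˣ, ∑ x' : Option Unit → Fin n → ℤˣ,
        k ^ 2 * (T' z x * T' z x' * (SkS e (x none) * SkS e (x' none) *
        ((P i j * (sp (x (some ())) i * sp (x' (some ())) j)) *
          ov (x (some ())) (x' (some ()))))) =
        ∑ x : Option Unit → Fin n → ℤˣ, ∑ x' : Option Unit → Fin n → ℤˣ, ∑ j,
        k ^ 2 * (T' z x * T' z x' * (SkS e (x none) * SkS e (x' none) *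
        ((P i j * (sp (x (some ())) i * sp (x' (some ())) j)) *
          ov (x (some ())) (x' (some ()))))) := fun i => sw3 _ _
    simp only [e4]
    rw [sw3]
    refine Finset.sum_congr rfl fun x _ => Finset.sum_congr rfl fun x' _ => ?_
    unfold sPs
    simp only [Finset.mul_sum, Finset.sum_mul]
  simp only [e3]
  rw [sw3, Finset.mul_sum]
  refine Finset.sum_congr rfl fun x _ => ?_
  rw [Finset.mul_sum]
  refine Finset.sum_congr rfl fun x' _ => ?_
  unfold ovb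
  simp only [Finset.mul_sum]
  exact Finset.sum_congr rfl fun e _ => by ring

/-- **The form bound of the derivatives in one row.** -/
theorem row_form (hFn : Fn k SkS (uu x s S.F) (S.mu s) Γ) {P : Fin n → Fin n → ℝ} (hP : Ps P)
    (hs : ∀ i j, P i j = P j i) (b : Fin n) (z : Pair n → ℝ) :
    ∑ e ∈ row b, qf P (S.DA s e z) (S.DA s e z) ≤
      k ^ 2 * Γ ^ 2 * (n * (∑ i, ∑ j, P i j * S.A s z i j) * √(fr (S.A s z))) := by
  have hμ : ∀ z v, 0 ≤ S.mu s z v := fun z v => hFn.nn z v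
  obtain ⟨T', hD, hT⟩ := DA_ev S hFn
  rw [row_ev S hT, mul_assoc (k ^ 2)]
  refine mul_le_mul_of_nonneg_left ?_ (sq_nonneg k)
  refine (dm_pair hD hμ (fun σ τ => sPs P σ τ * ov σ τ) (ovb b) z).trans ?_
  refine mul_le_mul_of_nonneg_left ?_ (sq_nonneg Γ)
  have hm : 0 ≤ ∑ i, ∑ j, P i j * S.A s z i j := by
    rw [← mean_sPs]
    exact Finset.sum_nonneg fun σ _ => mul_nonneg (hμ z σ) (sPs_nonneg hP σ)
  refine mul_le_mul ?_ (Real.sqrt_le_sqrt (m2_ovb S hμ b z)) (Real.sqrt_nonneg _)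
    (mul_nonneg (Nat.cast_nonneg n) hm)
  refine Real.sqrt_le_iff.2 ⟨mul_nonneg (Nat.cast_nonneg n) hm, ?_⟩
  have h1 : m2f (S.mu s) (fun σ τ => sPs P σ τ * ov σ τ) z ≤
      ∑ σ, S.mu s z σ * ∑ τ, S.mu s z τ * (n ^ 2 * (sPs P σ σ * sPs P τ τ)) := by
    refine Finset.sum_le_sum fun σ _ => mul_le_mul_of_nonneg_left (Finset.sum_le_sum fun τ _ =>
      mul_le_mul_of_nonneg_left ?_ (hμ z τ)) (hμ z σ)
    rw [mul_pow, mul_comm]
    exact mul_le_mul (ov_sq_le σ τ) (sPs_cs hP hs σ τ) (sq_nonneg _) (by positivity)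
  refine h1.trans (le_of_eq ?_)
  rw [← mean_sPs]
  have e1 : ∀ σ, ∑ τ, S.mu s z τ * ((n : ℝ) ^ 2 * (sPs P σ σ * sPs P τ τ)) =
      n ^ 2 * (sPs P σ σ * ∑ τ, S.mu s z τ * sPs P τ τ) := by
    intro σ
    rw [Finset.mul_sum, Finset.mul_sum]
    exact Finset.sum_congr rfl fun τ _ => by ring
  simp only [e1]
  set m : ℝ := ∑ τ, S.mu s z τ * sPs P τ τ with hmd
  calc ∑ σ, S.mu s z σ * ((n : ℝ) ^ 2 * (sPs P σ σ * m)) =
      n ^ 2 * (m * ∑ σ, S.mu s z σ * sPs P σ σ) := by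
        rw [Finset.mul_sum, Finset.mul_sum]
        exact Finset.sum_congr rfl fun σ _ => by ring
    _ = (n * m) ^ 2 := by rw [← hmd]; ring

/-- **The sum of the squares of the derivatives in one row.** -/
theorem row_fr (hFn : Fn k SkS (uu x s S.F) (S.mu s) Γ) (b : Fin n) (z : Pair n → ℝ) :
    ∑ e ∈ row b, fr (S.DA s e z) ≤ k ^ 2 * Γ ^ 2 * (n * fr (S.A s z)) := by
  have hμ : ∀ z v, 0 ≤ S.mu s z v := fun z v => hFn.nn z v
  obtain ⟨T', hD, hT⟩ := DA_ev S hFn
  have hq : ∀ e, fr (S.DA s e z) = qf (fun i j => if i = j then 1 else 0)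
      (S.DA s e z) (S.DA s e z) := by
    intro e
    unfold H332.fr Rho.qf
    refine Finset.sum_congr rfl fun i _ => ?_
    simp only [ite_mul, one_mul, zero_mul, Finset.sum_ite_eq, Finset.mem_univ, if_true]
    exact Finset.sum_congr rfl fun l _ => by ring
  simp only [hq]
  rw [row_ev S hT, mul_assoc (k ^ 2)]
  refine mul_le_mul_of_nonneg_left ?_ (sq_nonneg k)
  refine (dm_pair hD hμ (fun σ τ => sPs (fun i j => if i = j then 1 else 0) σ τ * ov σ τ)
    (ovb b) z).trans ?_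
  refine mul_le_mul_of_nonneg_left ?_ (sq_nonneg Γ)
  have hf := H332.fr_nonneg (S.A s z)
  have h1 : m2f (S.mu s) (fun σ τ => sPs (fun i j => if i = j then 1 else 0) σ τ * ov σ τ) z ≤
      n ^ 2 * fr (S.A s z) := by
    rw [← m2_ov]
    unfold m2f
    simp only [Finset.mul_sum]
    refine Finset.sum_le_sum fun σ _ => Finset.sum_le_sum fun τ _ => ?_
    have e2 : sPs (fun i j : Fin n => if i = j then (1 : ℝ) else 0) σ τ = ov σ τ := by
      unfold sPs ov
      simp only [ite_mul, one_mul, zero_mul, Finset.sum_ite_eq, Finset.mem_univ, if_true]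
    rw [e2]
    have h2 : S.mu s z τ * (ov σ τ * ov σ τ) ^ 2 ≤ n ^ 2 * (S.mu s z τ * ov σ τ ^ 2) := by
      have h3 : (ov σ τ * ov σ τ) ^ 2 ≤ n ^ 2 * ov σ τ ^ 2 := by
        rw [mul_pow]
        exact mul_le_mul_of_nonneg_right (ov_sq_le σ τ) (sq_nonneg _)
      calc S.mu s z τ * (ov σ τ * ov σ τ) ^ 2 ≤ S.mu s z τ * (n ^ 2 * ov σ τ ^ 2) :=
            mul_le_mul_of_nonneg_left h3 (hμ z τ)
        _ = _ := by ring
    calc S.mu s z σ * (S.mu s z τ * (ov σ τ * ov σ τ) ^ 2) ≤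
        S.mu s z σ * (n ^ 2 * (S.mu s z τ * ov σ τ ^ 2)) := mul_le_mul_of_nonneg_left h2 (hμ z σ)
      _ = _ := by ring
  refine (mul_le_mul (Real.sqrt_le_sqrt h1) (Real.sqrt_le_sqrt (m2_ovb S hμ b z))
    (Real.sqrt_nonneg _) (Real.sqrt_nonneg _)).trans (le_of_eq ?_)
  rw [Real.sqrt_mul (sq_nonneg _), Real.sqrt_sq (Nat.cast_nonneg n), mul_assoc,
    Real.mul_self_sqrt hf]

end ov

end Vale.Agent.P146.H508
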