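import Vale.Agent.P146.H508.F2Sum
import Vale.Agent.P146.H508.DeepCS

/-!
Plan R2, row F2: the sum over the rows of (F2*) with the frozen weights kept (`f3_sumS`), and the
change of the frozen weights to the weight itself with the SIGNED error of the deep matrix
(`f3_sumY`): no bound of the flatness of the deep matrix is used.
-/

open MeasureTheory ProbabilityTheory Finset

namespace Vale.Agent.P146.H508

open Vale.Agent.P157.Lv Vale.Agent.P146.H425 Vale.Agent.P146.H325 Vale.Agent.P146.H332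
  Vale.Agent.P146.H712 Vale.Agent.P146.R1 Vale.Agent.P146.R1C Vale.Agent.P146.H706
  Vale.Agent.P146.R1S Vale.Agent.P146.H191
open Vale.Agent.P146.H350 (mv dt cv)
open Vale.Agent.P146.H561 (n3row m3row f2_krow)

set_option linter.unusedSectionVars false

variable {n : ℕ} {k x : ℝ} {S : CS n k x} {s1 s2 β : ℝ} {a1 a2 : Fin 4 → ℝ}
  {φ χ : (K4 (Pair n) → ℝ) → ℝ} {ψ' : K4 (Pair n) → (K4 (Pair n) → ℝ) → ℝ}

lemma ratio_le {v1 v2 : ℝ} (h1 : 0 ≤ v1) (hv : 0 < v2) (h : v1 ≤ v2) : |v1 / v2| ≤ 1 := by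
  rw [abs_of_nonneg (div_nonneg h1 hv.le)]
  exact (div_le_one hv).2 h

/-- **The sum over the rows of (F2*), the frozen weights kept.** -/
theorem f3_sumS (hs1 : 0 < s1) (hs2 : 0 < s2) (hv : 0 < vr a2) (hv1 : vr a1 ≤ vr a2)
    (hc : cv a1 a2 = vr a1) (h : Den φ ψ') (hφ : ∀ w, 0 ≤ φ w)
    {C1 C2 : MF n} {M1 M2 : Fin n → MF n} {χb : Fin n → (K4 (Pair n) → ℝ) → ℝ}
    (hC1 : ∀ i l, EG fun w => C1 w i l) (hC2 : ∀ i l, EG fun w => C2 w i l)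
    (hM1 : ∀ b, Frz b (M1 b)) (hM2 : ∀ b, Frz b (M2 b))
    (h1b : ∀ b w i, M1 b w i b = 0) (h2b : ∀ b w i, M2 b w i b = 0)
    (hχb : ∀ b, EG (χb b)) (hχf : ∀ b, Fr b (χb b)) :
    |∑ b, Im φ (n3row S s1 s2 β (vr a1 / vr a2) a1 a2 ψ' b (χb b) (M1 b) (M2 b)) -
      Im φ (fun w => ∑ b, χb b w * m3 S s1 s2 β (vr a1 / vr a2) a1 a2 ψ' b C1 C2 w)| ≤
      Im φ (fun w => ∑ b, |χb b w| * e3 S s1 s2 β a1 a2 ψ' b C1 C2 (M1 b) (M2 b) w) := by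
  have hr : |vr a1 / vr a2| ≤ 1 := ratio_le (vr_nonneg a1) hv hv1
  have e1 : ∀ b, EG fun w => χb b w * m3 S s1 s2 β (vr a1 / vr a2) a1 a2 ψ' b (M1 b) (M2 b) w :=
    fun b => (hχb b).mul (eg_m3 h (hM1 b).eg (hM2 b).eg)
  have e2 : ∀ b, EG fun w => χb b w * m3 S s1 s2 β (vr a1 / vr a2) a1 a2 ψ' b C1 C2 w := fun b =>
    (hχb b).mul (eg_m3 h hC1 hC2)
  have e3' : ∀ b, EG fun w => |χb b w| * e3 S s1 s2 β a1 a2 ψ' b C1 C2 (M1 b) (M2 b) w := fun b =>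
    (eg_abs (hχb b)).mul (eg_e3 h hC1 hC2 (hM1 b).eg (hM2 b).eg)
  have h1 : ∑ b, Im φ (n3row S s1 s2 β (vr a1 / vr a2) a1 a2 ψ' b (χb b) (M1 b) (M2 b)) =
      Im φ (fun w => ∑ b, χb b w *
        m3 S s1 s2 β (vr a1 / vr a2) a1 a2 ψ' b (M1 b) (M2 b) w) := by
    rw [Im_sum h.eg _ fun b _ => e1 b]
    exact Finset.sum_congr rfl fun b _ =>
      f2_krow hs1 hs2 hv hc h (hχb b) (hχf b) (hM1 b) (hM2 b) (h1b b) (h2b b)
  rw [h1, ← Im_sub h.eg (EG.sum _ fun b _ => e1 b) (EG.sum _ fun b _ => e2 b)]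
  refine Im_abs_le hφ h.eg ((EG.sum _ fun b _ => e1 b).sub (EG.sum _ fun b _ => e2 b))
    (EG.sum _ fun b _ => e3' b) fun w => ?_
  rw [← Finset.sum_sub_distrib]
  refine (Finset.abs_sum_le_sum_abs _ _).trans (Finset.sum_le_sum fun b _ => ?_)
  rw [← mul_sub, abs_mul, abs_sub_comm]
  exact mul_le_mul_of_nonneg_left (m3_sub hr b C1 C2 (M1 b) (M2 b) w) (abs_nonneg _)

/-- **The sum over the rows of (F2*), the weight unfrozen with a signed deep part.** The weights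
satisfy `χ_b - χ = <D_b, C1²> h + ρ_b`, `D_b` not depending on the coordinates in `R`. -/
theorem f3_sumY (hs1 : 0 < s1) (hs2 : 0 < s2) (hv : 0 < vr a2) (hv1 : vr a1 ≤ vr a2)
    (hc : cv a1 a2 = vr a1) (hd : Den φ ψ') (hφ : ∀ w, 0 ≤ φ w)
    {C1 C2 : MF n} {M1 M2 : Fin n → MF n} {χb : Fin n → (K4 (Pair n) → ℝ) → ℝ}
    (hC1 : ∀ i l, EG fun w => C1 w i l) (hC2 : ∀ i l, EG fun w => C2 w i l)
    (hM1 : ∀ b, Frz b (M1 b)) (hM2 : ∀ b, Frz b (M2 b))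
    (h1b : ∀ b w i, M1 b w i b = 0) (h2b : ∀ b w i, M2 b w i b = 0)
    (hχ : EG χ) (hχb : ∀ b, EG (χb b)) (hχf : ∀ b, Fr b (χb b))
    {R : Finset (K4 (Pair n))} {D : Fin n → MF n} {hw : (K4 (Pair n) → ℝ) → ℝ}
    {ρ : Fin n → (K4 (Pair n) → ℝ) → ℝ} (hs : ∀ w i l, C1 w i l = C1 w l i)
    (hD : ∀ b i l, EG fun w => D b w i l) (hi : ∀ b i l, Ind R fun w => D b w i l)
    (hhw : EG hw) (hρ : ∀ b, EG (ρ b))
    (hdec : ∀ b w, χb b w - χ w =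
      (∑ i, ∑ j, D b w i j * ∑ l, C1 w i l * C1 w l j) * hw w + ρ b w) :
    |∑ b, Im φ (n3row S s1 s2 β (vr a1 / vr a2) a1 a2 ψ' b (χb b) (M1 b) (M2 b)) -
      Im φ (fun w => χ w * ∑ b, m3 S s1 s2 β (vr a1 / vr a2) a1 a2 ψ' b C1 C2 w)| ≤
      Im φ (fun w => ∑ b, (|χb b w| * e3 S s1 s2 β a1 a2 ψ' b C1 C2 (M1 b) (M2 b) w +
        |ρ b w| * z3 S s1 s2 β a1 a2 ψ' b C1 C2 w)) +
      √(∫ w, ∑ b, ∑ i, ∑ j, D b w i j ^ 2 ∂(gI (K4 (Pair n)))) *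
      √(Im φ fun w => ∑ b, (hw w * m3 S s1 s2 β (vr a1 / vr a2) a1 a2 ψ' b C1 C2 w) ^ 2 *
        ∑ i, ∑ j, (∑ l, C1 w i l * C1 w l j) *
          Av R (fun w => φ w * ∑ l, C1 w i l * C1 w l j) w) := by
  have hr : |vr a1 / vr a2| ≤ 1 := ratio_le (vr_nonneg a1) hv hv1
  have key := f3_sumS (S := S) (β := β) hs1 hs2 hv hv1 hc hd hφ hC1 hC2 hM1 hM2 h1b h2b hχb hχf
  have em : ∀ b, EG fun w => m3 S s1 s2 β (vr a1 / vr a2) a1 a2 ψ' b C1 C2 w := fun b =>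
    eg_m3 hd hC1 hC2
  have ydeep := Deep.deep_sq (R := R) (φ := φ) (C := C1) (D := D)
    (g := fun b w => hw w * m3 S s1 s2 β (vr a1 / vr a2) a1 a2 ψ' b C1 C2 w) hd.eg hφ hC1 hs
    (fun b => hhw.mul (em b)) hD hi
  have eD : EG fun w => ∑ b, (∑ i, ∑ j, D b w i j * ∑ l, C1 w i l * C1 w l j) *
      (hw w * m3 S s1 s2 β (vr a1 / vr a2) a1 a2 ψ' b C1 C2 w) :=
    EG.sum _ fun b _ => (EG.sum _ fun i _ => EG.sum _ fun j _ => (hD b i j).mul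
      (EG.sum _ fun l _ => (hC1 i l).mul (hC1 l j))).mul (hhw.mul (em b))
  have eR : EG fun w => ∑ b, ρ b w * m3 S s1 s2 β (vr a1 / vr a2) a1 a2 ψ' b C1 C2 w :=
    EG.sum _ fun b _ => (hρ b).mul (em b)
  have eX : EG fun w => ∑ b, χb b w * m3 S s1 s2 β (vr a1 / vr a2) a1 a2 ψ' b C1 C2 w :=
    EG.sum _ fun b _ => (hχb b).mul (em b)
  have eZ : EG fun w => χ w * ∑ b, m3 S s1 s2 β (vr a1 / vr a2) a1 a2 ψ' b C1 C2 w :=
    hχ.mul (EG.sum _ fun b _ => em b)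
  -- the difference of the weights
  have h2 : Im φ (fun w => ∑ b, χb b w * m3 S s1 s2 β (vr a1 / vr a2) a1 a2 ψ' b C1 C2 w) -
      Im φ (fun w => χ w * ∑ b, m3 S s1 s2 β (vr a1 / vr a2) a1 a2 ψ' b C1 C2 w) =
      Im φ (fun w => ∑ b, (∑ i, ∑ j, D b w i j * ∑ l, C1 w i l * C1 w l j) *
        (hw w * m3 S s1 s2 β (vr a1 / vr a2) a1 a2 ψ' b C1 C2 w)) +
      Im φ (fun w => ∑ b, ρ b w * m3 S s1 s2 β (vr a1 / vr a2) a1 a2 ψ' b C1 C2 w) := by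
    rw [← Im_sub hd.eg eX eZ, ← Im_add hd.eg eD eR]
    refine Im_congr fun w => ?_
    rw [Finset.mul_sum, ← Finset.sum_sub_distrib, ← Finset.sum_add_distrib]
    refine Finset.sum_congr rfl fun b _ => ?_
    rw [← sub_mul, hdec b w]
    ring
  have h3 : |Im φ (fun w => ∑ b, ρ b w * m3 S s1 s2 β (vr a1 / vr a2) a1 a2 ψ' b C1 C2 w)| ≤
      Im φ (fun w => ∑ b, |ρ b w| * z3 S s1 s2 β a1 a2 ψ' b C1 C2 w) := by
    refine Im_abs_le hφ hd.eg eR (EG.sum _ fun b _ => (eg_abs (hρ b)).mul (eg_z3 hd hC1 hC2))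
      fun w => ?_
    refine (Finset.abs_sum_le_sum_abs _ _).trans (Finset.sum_le_sum fun b _ => ?_)
    rw [abs_mul]
    exact mul_le_mul_of_nonneg_left (m3_le hr b C1 C2 w) (abs_nonneg _)
  have h4 : Im φ (fun w => ∑ b, (|χb b w| * e3 S s1 s2 β a1 a2 ψ' b C1 C2 (M1 b) (M2 b) w +
        |ρ b w| * z3 S s1 s2 β a1 a2 ψ' b C1 C2 w)) =
      Im φ (fun w => ∑ b, |χb b w| * e3 S s1 s2 β a1 a2 ψ' b C1 C2 (M1 b) (M2 b) w) +
      Im φ (fun w => ∑ b, |ρ b w| * z3 S s1 s2 β a1 a2 ψ' b C1 C2 w) := by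
    rw [← Im_add hd.eg (EG.sum _ fun b _ => (eg_abs (hχb b)).mul
      (eg_e3 hd hC1 hC2 (hM1 b).eg (hM2 b).eg))
      (EG.sum _ fun b _ => (eg_abs (hρ b)).mul (eg_z3 hd hC1 hC2))]
    exact Im_congr fun w => Finset.sum_add_distrib
  have h5 : |Im φ (fun w => ∑ b, (∑ i, ∑ j, D b w i j * ∑ l, C1 w i l * C1 w l j) *
        (hw w * m3 S s1 s2 β (vr a1 / vr a2) a1 a2 ψ' b C1 C2 w))| ≤
      √(∫ w, ∑ b, ∑ i, ∑ j, D b w i j ^ 2 ∂(gI (K4 (Pair n)))) *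
      √(Im φ fun w => ∑ b, (hw w * m3 S s1 s2 β (vr a1 / vr a2) a1 a2 ψ' b C1 C2 w) ^ 2 *
        ∑ i, ∑ j, (∑ l, C1 w i l * C1 w l j) *
          Av R (fun w => φ w * ∑ l, C1 w i l * C1 w l j) w) := ydeep
  rw [h4]
  have h6 := abs_sub_le
    (∑ b, Im φ (n3row S s1 s2 β (vr a1 / vr a2) a1 a2 ψ' b (χb b) (M1 b) (M2 b)))
    (Im φ (fun w => ∑ b, χb b w * m3 S s1 s2 β (vr a1 / vr a2) a1 a2 ψ' b C1 C2 w))
    (Im φ (fun w => χ w * ∑ b, m3 S s1 s2 β (vr a1 / vr a2) a1 a2 ψ' b C1 C2 w))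
  have h7 := (abs_add_le
    (Im φ (fun w => ∑ b, (∑ i, ∑ j, D b w i j * ∑ l, C1 w i l * C1 w l j) *
        (hw w * m3 S s1 s2 β (vr a1 / vr a2) a1 a2 ψ' b C1 C2 w)))
    (Im φ (fun w => ∑ b, ρ b w * m3 S s1 s2 β (vr a1 / vr a2) a1 a2 ψ' b C1 C2 w)))
  rw [h2] at h6
  linarith

end Vale.Agent.P146.H508
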