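import Vale.Agent.P146.H581.ChiH
import Vale.Agent.P146.H508.F2SumS

/-!
Plan R2, row F2: **the unfreezing errors of one row at one point**, in terms of one number `m` (a
bound of the sum of the four norms), the normalised columns `q_i` and a bound `V0` of the squares of
the drifts. No lower bound of the norms of the matrices is used.
-/

open MeasureTheory ProbabilityTheory Finset

namespace Vale.Agent.P146.H508.E1A

open Vale.Agent.P146.H350 Vale.Agent.P146.H581.CH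
open Vale.Agent.P146.H508 (e3v z3v)

set_option linter.unusedSectionVars false

/-- a product of a column and a drift -/
lemma uv_le {c m u v q V0 : ℝ} (hm : 0 < m) (hu : u ^ 2 ≤ q * m)
    (hv : v ^ 2 ≤ V0) : |c| * (u * v) ≤ (q + c ^ 2 * m * V0) / 2 := by
  have h1 : 2 * (u * (|c| * m * v)) ≤ u ^ 2 + (|c| * m * v) ^ 2 := by
    nlinarith [sq_nonneg (u - |c| * m * v)]
  have h2 : (|c| * m * v) ^ 2 = c ^ 2 * m * v ^ 2 * m := by
    rw [mul_pow, mul_pow, sq_abs]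
    ring
  have h3 : c ^ 2 * m * v ^ 2 * m ≤ c ^ 2 * m * V0 * m := by
    have := mul_le_mul_of_nonneg_left hv (by positivity : 0 ≤ c ^ 2 * m * m)
    linarith
  have h4 : 2 * (|c| * (u * v)) * m ≤ (q + c ^ 2 * m * V0) * m := by
    rw [h2] at h1
    nlinarith
  have h5 := le_of_mul_le_mul_right h4 hm
  linarith

/-- the three products of columns and drifts -/
lemma uv3_le {c m f1 f2 u1 u2 v1 v2 q1 q2 V0 : ℝ} (hm : 0 < m) (hf1 : f1 ≤ m) (hf2 : f2 ≤ m)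
    (hq1 : 0 ≤ q1) (hq2 : 0 ≤ q2) (h1 : u1 ^ 2 ≤ q1 * f1) (h2 : u2 ^ 2 ≤ q2 * f2)
    (hv1 : v1 ^ 2 ≤ V0) (hv2 : v2 ^ 2 ≤ V0) (hV : 0 ≤ V0) :
    |c| * (u1 * v1) + |c| * (u2 * v2) + 2 * (|c| * (v1 * u2)) ≤
      2 * (q1 + q2 + c ^ 2 * V0 * m) := by
  have a1 : u1 ^ 2 ≤ q1 * m := h1.trans (mul_le_mul_of_nonneg_left hf1 hq1)
  have a2 : u2 ^ 2 ≤ q2 * m := h2.trans (mul_le_mul_of_nonneg_left hf2 hq2)
  have b1 := uv_le (c := c) hm a1 hv1
  have b2 := uv_le (c := c) hm a2 hv2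
  have b3 := uv_le (c := c) hm a2 hv1
  rw [mul_comm u2 v1] at b3
  have : 0 ≤ c ^ 2 * V0 * m := by positivity
  nlinarith

/-- **the error of the matrices** -/
lemma e3v_le {c m f1 f2 F1 F2 α β u1 u2 v1 v2 q1 q2 V0 : ℝ} (hm : 0 < m) (hf1 : 0 ≤ f1)
    (hf2 : 0 ≤ f2) (hF1 : 0 ≤ F1) (hF2 : 0 ≤ F2) (hmm : f1 + F1 + (f2 + F2) ≤ m)
    (hα : 0 ≤ α) (hβ : 0 ≤ β) (hu1 : 0 ≤ u1) (hu2 : 0 ≤ u2) (hv1' : 0 ≤ v1) (hv2' : 0 ≤ v2)
    (hq1 : 0 ≤ q1) (hq2 : 0 ≤ q2) (h1 : u1 ^ 2 ≤ q1 * f1) (h2 : u2 ^ 2 ≤ q2 * f2)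
    (hv1 : v1 ^ 2 ≤ V0) (hv2 : v2 ^ 2 ≤ V0) (hV : 0 ≤ V0) :
    e3v c (F1 + f1) (F2 + f2) α β u1 u2 v1 v2 ≤
      4 * (α + β) * m ^ 2 * (q1 + q2 + c ^ 2 * V0 * m) := by
  have g1 : F1 + f1 ≤ m := by linarith
  have g2 : F2 + f2 ≤ m := by linarith
  have g12 : α * (F2 + f2) + (F1 + f1) * β ≤ (α + β) * m := by
    have := mul_le_mul_of_nonneg_left g2 hα
    have := mul_le_mul_of_nonneg_right g1 hβ
    nlinarith
  have a1 : u1 ^ 2 ≤ q1 * m := h1.trans (mul_le_mul_of_nonneg_left (by linarith) hq1)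
  have a2 : u2 ^ 2 ≤ q2 * m := h2.trans (mul_le_mul_of_nonneg_left (by linarith) hq2)
  have b := uv3_le (c := c) hm (by linarith : f1 ≤ m) (by linarith : f2 ≤ m) hq1 hq2 h1 h2 hv1
    hv2 hV
  have c1 : β * (F2 + f2) * u1 ^ 2 ≤ β * m * (q1 * m) :=
    mul_le_mul (mul_le_mul_of_nonneg_left g2 hβ) a1 (sq_nonneg _) (by positivity)
  have c2 : α * (F1 + f1) * u2 ^ 2 ≤ α * m * (q2 * m) :=
    mul_le_mul (mul_le_mul_of_nonneg_left g1 hα) a2 (sq_nonneg _) (by positivity)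
  have c3 : 2 * (α * (F2 + f2) + (F1 + f1) * β) * (u1 * u2) ≤ (α + β) * m * (q1 * m + q2 * m) := by
    have d1 : 2 * (u1 * u2) ≤ q1 * m + q2 * m := by nlinarith [sq_nonneg (u1 - u2)]
    have d2 : 0 ≤ (α + β) * m := by positivity
    calc 2 * (α * (F2 + f2) + (F1 + f1) * β) * (u1 * u2) =
        (α * (F2 + f2) + (F1 + f1) * β) * (2 * (u1 * u2)) := by ring
      _ ≤ (α + β) * m * (2 * (u1 * u2)) := mul_le_mul_of_nonneg_right g12 (by positivity)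
      _ ≤ _ := mul_le_mul_of_nonneg_left d1 d2
  have c4 : |c| * ((α * (F2 + f2) + (F1 + f1) * β) * ((F2 + f2) * (u1 * v1) +
      (F1 + f1) * (u2 * v2) + 2 * (F1 + f1) * (v1 * u2))) ≤
      (α + β) * m * (m * (2 * (q1 + q2 + c ^ 2 * V0 * m))) := by
    have d1 : |c| * ((F2 + f2) * (u1 * v1) + (F1 + f1) * (u2 * v2) +
        2 * (F1 + f1) * (v1 * u2)) ≤ m * (2 * (q1 + q2 + c ^ 2 * V0 * m)) := by
      have e1 : (F2 + f2) * (u1 * v1) ≤ m * (u1 * v1) :=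
        mul_le_mul_of_nonneg_right g2 (by positivity)
      have e2 : (F1 + f1) * (u2 * v2) ≤ m * (u2 * v2) :=
        mul_le_mul_of_nonneg_right g1 (by positivity)
      have e3 : (F1 + f1) * (v1 * u2) ≤ m * (v1 * u2) :=
        mul_le_mul_of_nonneg_right g1 (by positivity)
      have e4 := mul_le_mul_of_nonneg_left (add_le_add (add_le_add e1 e2)
        (mul_le_mul_of_nonneg_left e3 (by norm_num : (0:ℝ) ≤ 2))) (abs_nonneg c)
      have e5 := mul_le_mul_of_nonneg_left b hm.le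
      calc |c| * ((F2 + f2) * (u1 * v1) + (F1 + f1) * (u2 * v2) +
          2 * (F1 + f1) * (v1 * u2)) = |c| * ((F2 + f2) * (u1 * v1) + (F1 + f1) * (u2 * v2) +
          2 * ((F1 + f1) * (v1 * u2))) := by ring
        _ ≤ _ := e4
        _ = m * (|c| * (u1 * v1) + |c| * (u2 * v2) + 2 * (|c| * (v1 * u2))) := by ring
        _ ≤ _ := e5
    have d2 : 0 ≤ |c| * ((F2 + f2) * (u1 * v1) + (F1 + f1) * (u2 * v2) +
        2 * (F1 + f1) * (v1 * u2)) := by positivity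
    calc |c| * ((α * (F2 + f2) + (F1 + f1) * β) * ((F2 + f2) * (u1 * v1) +
        (F1 + f1) * (u2 * v2) + 2 * (F1 + f1) * (v1 * u2))) =
        (α * (F2 + f2) + (F1 + f1) * β) * (|c| * ((F2 + f2) * (u1 * v1) +
        (F1 + f1) * (u2 * v2) + 2 * (F1 + f1) * (v1 * u2))) := by ring
      _ ≤ (α + β) * m * (|c| * ((F2 + f2) * (u1 * v1) +
        (F1 + f1) * (u2 * v2) + 2 * (F1 + f1) * (v1 * u2))) :=
          mul_le_mul_of_nonneg_right g12 d2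
      _ ≤ _ := mul_le_mul_of_nonneg_left d1 (by positivity)
  unfold e3v
  have hαm : 0 ≤ α * m * (q1 * m) := by positivity
  have hβm : 0 ≤ β * m * (q2 * m) := by positivity
  have hc : 0 ≤ (α + β) * m * (m * (2 * (c ^ 2 * V0 * m))) := by positivity
  nlinarith

/-- **the size** -/
lemma z3v_le {c m f1 f2 u1 u2 v1 v2 q1 q2 V0 : ℝ} (hm : 0 < m) (hf1 : 0 ≤ f1)
    (hf2 : 0 ≤ f2) (hmm : f1 + f2 ≤ m)
    (hu1 : 0 ≤ u1) (hu2 : 0 ≤ u2) (hv1' : 0 ≤ v1) (hv2' : 0 ≤ v2)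
    (hq1 : 0 ≤ q1) (hq2 : 0 ≤ q2) (h1 : u1 ^ 2 ≤ q1 * f1) (h2 : u2 ^ 2 ≤ q2 * f2)
    (hv1 : v1 ^ 2 ≤ V0) (hv2 : v2 ^ 2 ≤ V0) (hV : 0 ≤ V0) :
    z3v c f1 f2 u1 u2 v1 v2 ≤ f1 * f2 * (3 * m * (q1 + q2 + c ^ 2 * V0 * m)) := by
  have b := uv3_le (c := c) hm (by linarith : f1 ≤ m) (by linarith : f2 ≤ m) hq1 hq2 h1 h2 hv1
    hv2 hV
  have p12 : 0 ≤ f1 * f2 := mul_nonneg hf1 hf2
  have c1 : f2 ^ 2 * u1 ^ 2 ≤ f1 * f2 * (f2 * q1) := by
    have := mul_le_mul_of_nonneg_left h1 (sq_nonneg f2)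
    nlinarith
  have c2 : f1 ^ 2 * u2 ^ 2 ≤ f1 * f2 * (f1 * q2) := by
    have := mul_le_mul_of_nonneg_left h2 (sq_nonneg f1)
    nlinarith
  have c3 : 2 * (f1 * f2) * (u1 * u2) ≤ f1 * f2 * (q1 * f1 + q2 * f2) := by
    have d1 : 2 * (u1 * u2) ≤ q1 * f1 + q2 * f2 := by nlinarith [sq_nonneg (u1 - u2)]
    calc 2 * (f1 * f2) * (u1 * u2) = f1 * f2 * (2 * (u1 * u2)) := by ring
      _ ≤ _ := mul_le_mul_of_nonneg_left d1 p12
  have c4 : |c| * (f1 * f2 ^ 2 * (u1 * v1) + f1 ^ 2 * f2 * (u2 * v2) +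
      2 * (f1 ^ 2 * f2) * (v1 * u2)) ≤ f1 * f2 * (m * (2 * (q1 + q2 + c ^ 2 * V0 * m))) := by
    have e1 : f2 * (u1 * v1) ≤ m * (u1 * v1) :=
      mul_le_mul_of_nonneg_right (by linarith) (by positivity)
    have e2 : f1 * (u2 * v2) ≤ m * (u2 * v2) :=
      mul_le_mul_of_nonneg_right (by linarith) (by positivity)
    have e3 : f1 * (v1 * u2) ≤ m * (v1 * u2) :=
      mul_le_mul_of_nonneg_right (by linarith) (by positivity)
    have e4 := mul_le_mul_of_nonneg_left (add_le_add (add_le_add e1 e2)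
      (mul_le_mul_of_nonneg_left e3 (by norm_num : (0:ℝ) ≤ 2))) (abs_nonneg c)
    have e5 := mul_le_mul_of_nonneg_left b hm.le
    have e6 : |c| * (f2 * (u1 * v1) + f1 * (u2 * v2) + 2 * (f1 * (v1 * u2))) ≤
        m * (2 * (q1 + q2 + c ^ 2 * V0 * m)) := e4.trans (le_trans (le_of_eq (by ring)) e5)
    calc |c| * (f1 * f2 ^ 2 * (u1 * v1) + f1 ^ 2 * f2 * (u2 * v2) +
        2 * (f1 ^ 2 * f2) * (v1 * u2)) =
        f1 * f2 * (|c| * (f2 * (u1 * v1) + f1 * (u2 * v2) + 2 * (f1 * (v1 * u2)))) := by ring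
      _ ≤ _ := mul_le_mul_of_nonneg_left e6 p12
  have c5 : f2 * q1 + f1 * q2 + (q1 * f1 + q2 * f2) ≤ m * (q1 + q2) := by
    have d1 := mul_le_mul_of_nonneg_right hmm hq1
    have d2 := mul_le_mul_of_nonneg_right hmm hq2
    nlinarith
  have c6 := mul_le_mul_of_nonneg_left c5 p12
  have c7 : 0 ≤ f1 * f2 * (m * (c ^ 2 * V0 * m)) := by positivity
  unfold z3v
  nlinarith

/-! ### one row, one point -/

section pt

variable {n : ℕ} {κ e c m V0 q1 q2 u1 u2 v1 v2 : ℝ} {Y M1 M2 C1 C2 : Fin n → Fin n → ℝ}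

/-- the weighted polynomial `m² (1/κ + m/√e)` -/
noncomputable def mu (κ e m : ℝ) : ℝ := m ^ 2 * (1 / κ + m / √e)

lemma mu_nonneg (hκ : 0 < κ) (hm : 0 ≤ m) : 0 ≤ mu κ e m := by
  unfold mu
  have := Real.sqrt_nonneg e
  positivity

lemma m3_le_mu (hκ : 0 < κ) (he : 0 < e) (hm : 0 ≤ m) : m ^ 3 ≤ √e * mu κ e m := by
  have h := Real.sqrt_pos.2 he
  have e1 : √e * mu κ e m = m ^ 3 + √e * (m ^ 2 * (1 / κ)) := by
    unfold mu
    field_simp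
    ring
  rw [e1]
  have : 0 ≤ √e * (m ^ 2 * (1 / κ)) := by positivity
  linarith

lemma m2_le_mu (hκ : 0 < κ) (hκ1 : κ ≤ 1) (hm : 0 ≤ m) : m ^ 2 ≤ mu κ e m := by
  unfold mu
  have h1 : 1 ≤ 1 / κ := (one_le_div hκ).2 hκ1
  have h2 : 0 ≤ m / √e := div_nonneg hm (Real.sqrt_nonneg e)
  have := mul_le_mul_of_nonneg_left (by linarith : (1:ℝ) ≤ 1 / κ + m / √e) (sq_nonneg m)
  linarith

/-- **(E1-pt) the two errors of one row at one point.** -/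
theorem row_pt (hκ : 0 < κ) (hκ1 : κ ≤ 1) (he : 0 < e) (hs : ∀ i j, Y i j = Y j i)
    (hY : ∀ v : Fin n → ℝ, 0 ≤ ∑ i, ∑ j, Y i j * (v i * v j))
    (hM : ∀ i l, M1 i l = M1 l i) (hC : ∀ i l, C1 i l = C1 l i)
    (hf1 : 1 ≤ H191.fro C1) (hf2 : 1 ≤ H191.fro C2) (hm : 0 < m)
    (hmm : H191.fro C1 + H191.fro M1 + (H191.fro C2 + H191.fro M2) ≤ m)
    (hu1 : 0 ≤ u1) (hu2 : 0 ≤ u2) (hv1' : 0 ≤ v1) (hv2' : 0 ≤ v2)
    (hq1 : 0 ≤ q1) (hq2 : 0 ≤ q2) (h1 : u1 ^ 2 ≤ q1 * H191.fro C1)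
    (h2 : u2 ^ 2 ≤ q2 * H191.fro C2)
    (hv1 : v1 ^ 2 ≤ V0) (hv2 : v2 ^ 2 ≤ V0) (hV : 0 ≤ V0) :
    |wq Y M1 * gh κ e M1 M2| * e3v c (H191.fro M1 + H191.fro C1) (H191.fro M2 + H191.fro C2)
        (H191.fro fun i l => C1 i l - M1 i l) (H191.fro fun i l => C2 i l - M2 i l) u1 u2 v1 v2 +
      |rhoh κ e Y M1 M2 C1 C2| * z3v c (H191.fro C1) (H191.fro C2) u1 u2 v1 v2 ≤
      6 / (κ * e ^ 2) * (mu κ e m * (q1 + q2 + c ^ 2 * V0 * m) *
        (((H191.fro fun i l => C1 i l - M1 i l) + (H191.fro fun i l => C2 i l - M2 i l)) *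
            (wq Y M1 + wq Y C1) +
          √e * (√(wq Y fun i l => M1 i l - C1 i l) * √(wq Y M1 + wq Y C1)))) := by
  obtain ⟨f1, hf1d⟩ : ∃ f, f = H191.fro C1 := ⟨_, rfl⟩
  obtain ⟨f2, hf2d⟩ : ∃ f, f = H191.fro C2 := ⟨_, rfl⟩
  obtain ⟨F1, hF1d⟩ : ∃ f, f = H191.fro M1 := ⟨_, rfl⟩
  obtain ⟨F2, hF2d⟩ : ∃ f, f = H191.fro M2 := ⟨_, rfl⟩
  obtain ⟨α, hαd⟩ : ∃ f, f = H191.fro fun i l => C1 i l - M1 i l := ⟨_, rfl⟩
  obtain ⟨β, hβd⟩ : ∃ f, f = H191.fro fun i l => C2 i l - M2 i l := ⟨_, rfl⟩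
  obtain ⟨w1, hw1d⟩ : ∃ f, f = wq Y M1 := ⟨_, rfl⟩
  obtain ⟨w2, hw2d⟩ : ∃ f, f = wq Y C1 := ⟨_, rfl⟩
  obtain ⟨d, hdd⟩ : ∃ f, f = wq Y fun i l => M1 i l - C1 i l := ⟨_, rfl⟩
  obtain ⟨σ, hσ⟩ : ∃ f, f = q1 + q2 + c ^ 2 * V0 * m := ⟨_, rfl⟩
  have pF1 : 0 ≤ F1 := hF1d ▸ H191.fro_nonneg _
  have pF2 : 0 ≤ F2 := hF2d ▸ H191.fro_nonneg _
  have pα : 0 ≤ α := hαd ▸ H191.fro_nonneg _
  have pβ : 0 ≤ β := hβd ▸ H191.fro_nonneg _
  have pw1 : 0 ≤ w1 := hw1d ▸ wq_nonneg hY hM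
  have pw2 : 0 ≤ w2 := hw2d ▸ wq_nonneg hY hC
  have pσ : 0 ≤ σ := by rw [hσ]; positivity
  have hse := Real.sqrt_pos.2 he
  -- the weight
  have g0 := gh_le' hκ he M1 M2
  have gp := gh_pos hκ he M1 M2
  have H0 : 1 / κ * (1 / e ^ 2) = 1 / (κ * e ^ 2) := by
    rw [one_div_mul_one_div]
  rw [H0] at g0
  have hE := e3v_le (c := c) (m := m) (f1 := f1) (f2 := f2) (F1 := F1) (F2 := F2) (α := α)
    (β := β) (u1 := u1) (u2 := u2) (v1 := v1) (v2 := v2) (q1 := q1) (q2 := q2) (V0 := V0) hm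
    (by linarith) (by linarith) pF1 pF2 (by linarith) pα pβ hu1 hu2 hv1' hv2' hq1 hq2
    (by rw [hf1d]; exact h1) (by rw [hf2d]; exact h2) hv1 hv2 hV
  have hZ := z3v_le (c := c) (m := m) (f1 := f1) (f2 := f2) (u1 := u1) (u2 := u2) (v1 := v1)
    (v2 := v2) (q1 := q1) (q2 := q2) (V0 := V0) hm (by linarith) (by linarith) (by linarith)
    hu1 hu2 hv1' hv2' hq1 hq2 (by rw [hf1d]; exact h1) (by rw [hf2d]; exact h2) hv1 hv2 hV
  rw [← hσ] at hE hZ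
  have hZ0 : 0 ≤ z3v c f1 f2 u1 u2 v1 v2 := by
    refine H508.z3v_nonneg ?_ ?_ hu1 hu2 hv1' hv2' <;> linarith
  have hE0 : 0 ≤ e3v c (F1 + f1) (F2 + f2) α β u1 u2 v1 v2 := by
    refine H508.e3v_nonneg ?_ ?_ pα pβ hu1 hu2 hv1' hv2' <;> linarith
  -- the rest of the weight
  have hR := rhoh_le hκ he hs hY hM hC (M2 := M2) (C2 := C2) (e := e)
  have eα : (H191.fro fun i j => M1 i j - C1 i j) = α := by
    rw [hαd, ← H191.fro_neg]
    exact H191.fro_congr fun i j => by ring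
  have eβ : (H191.fro fun i j => M2 i j - C2 i j) = β := by
    rw [hβd, ← H191.fro_neg]
    exact H191.fro_congr fun i j => by ring
  rw [eα, eβ, mq_eq hf1, mq_eq hf2, ← hf1d, ← hf2d, ← hdd, ← hw1d, ← hw2d] at hR
  rw [← hf1d, ← hf2d, ← hF1d, ← hF2d, ← hαd, ← hβd, ← hw1d, ← hw2d, ← hdd, ← hσ]
  have q1' := hq_le he M1
  have q2' := hq_le he C1
  have p1 := (hq_pos he M1).le
  have p2 := (hq_pos he C1).le
  have gk := gq_le hκ C1 C2
  have gk0 := (gq_pos hκ C1 C2).le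
  set h1q := hq e M1 with hh1
  set h2q := hq e C1 with hh2
  set gg := gq κ C1 C2 with hgg
  set gm := gh κ e M1 M2 with hgm
  set E := e3v c (F1 + f1) (F2 + f2) α β u1 u2 v1 v2 with hEd
  set Z := z3v c f1 f2 u1 u2 v1 v2 with hZd
  have pf1 : 0 < f1 := by linarith
  have pf2 : 0 < f2 := by linarith
  have lf1 : f1 ≤ m := by linarith
  have lf2 : f2 ≤ m := by linarith
  have pm := hm.le
  have K0 : 0 < 1 / (κ * e ^ 2) := by positivity
  have m2 := m2_le_mu (e := e) hκ hκ1 pm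
  have m3 := m3_le_mu hκ he pm
  have pmu := mu_nonneg (e := e) hκ pm
  set μ := mu κ e m with hμ
  -- term A
  have tA : |w1 * gm| * E ≤ 4 / (κ * e ^ 2) * (μ * σ * ((α + β) * w1)) := by
    rw [abs_of_nonneg (mul_nonneg pw1 gp.le)]
    calc w1 * gm * E ≤ w1 * (1 / (κ * e ^ 2)) * (4 * (α + β) * m ^ 2 * σ) :=
          mul_le_mul (mul_le_mul_of_nonneg_left g0 pw1) hE hE0 (by positivity)
      _ = 4 / (κ * e ^ 2) * (m ^ 2 * (σ * ((α + β) * w1))) := by ring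
      _ ≤ 4 / (κ * e ^ 2) * (μ * (σ * ((α + β) * w1))) :=
          mul_le_mul_of_nonneg_left (mul_le_mul_of_nonneg_right m2 (by positivity))
            (by positivity)
      _ = _ := by ring
  -- term B1
  have sW : √w1 + √w2 ≤ 2 * √(w1 + w2) := by
    have a1 := Real.sqrt_le_sqrt (by linarith : w1 ≤ w1 + w2)
    have a2 := Real.sqrt_le_sqrt (by linarith : w2 ≤ w1 + w2)
    linarith
  have Zm : Z ≤ 3 * m ^ 3 * σ := by
    refine hZ.trans ?_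
    have a1 : f1 * f2 ≤ m * m := mul_le_mul lf1 lf2 pf2.le pm
    calc f1 * f2 * (3 * m * σ) ≤ m * m * (3 * m * σ) :=
          mul_le_mul_of_nonneg_right a1 (by positivity)
      _ = _ := by ring
  have tB1 : gm * (√d * (√w1 + √w2)) * Z ≤
      6 / (κ * e ^ 2) * (μ * σ * (√e * (√d * √(w1 + w2)))) := by
    have b1 : gm * (√d * (√w1 + √w2)) ≤ 1 / (κ * e ^ 2) * (√d * (2 * √(w1 + w2))) :=
      mul_le_mul g0 (mul_le_mul_of_nonneg_left sW (Real.sqrt_nonneg _)) (by positivity)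
        (by positivity)
    have b2 : Z ≤ 3 * (√e * μ) * σ := Zm.trans (mul_le_mul_of_nonneg_right
      (mul_le_mul_of_nonneg_left m3 (by norm_num)) pσ)
    calc gm * (√d * (√w1 + √w2)) * Z ≤
        1 / (κ * e ^ 2) * (√d * (2 * √(w1 + w2))) * (3 * (√e * μ) * σ) :=
          mul_le_mul b1 b2 hZ0 (by positivity)
      _ = _ := by ring
  -- term B2
  have tB2 : w2 * (h1q * (2 / κ * gg * (α / f1 + β / f2)) + gg * (1 / √e * α * (h1q + h2q))) * Z ≤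
      6 / (κ * e ^ 2) * (μ * σ * ((α + β) * w2)) := by
    have c1 : h1q * (2 / κ * gg * (α / f1 + β / f2)) * Z ≤
        6 / (κ * e ^ 2) * (m ^ 2 * (1 / κ) * σ * (α + β)) := by
      have d1 : (α / f1 + β / f2) * Z ≤ 3 * m ^ 2 * σ * (α + β) := by
        calc (α / f1 + β / f2) * Z ≤ (α / f1 + β / f2) * (f1 * f2 * (3 * m * σ)) :=
              mul_le_mul_of_nonneg_left hZ (by positivity)
          _ = (α * f2 + β * f1) * (3 * m * σ) := by field_simp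
          _ ≤ (α * m + β * m) * (3 * m * σ) := mul_le_mul_of_nonneg_right
              (add_le_add (mul_le_mul_of_nonneg_left lf2 pα)
                (mul_le_mul_of_nonneg_left lf1 pβ)) (by positivity)
          _ = _ := by ring
      have d2 : h1q * (2 / κ * gg) ≤ 1 / e ^ 2 * (2 / κ * (1 / κ)) :=
        mul_le_mul q1' (mul_le_mul_of_nonneg_left gk (by positivity)) (by positivity)
          (by positivity)
      calc h1q * (2 / κ * gg * (α / f1 + β / f2)) * Z =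
          h1q * (2 / κ * gg) * ((α / f1 + β / f2) * Z) := by ring
        _ ≤ 1 / e ^ 2 * (2 / κ * (1 / κ)) * (3 * m ^ 2 * σ * (α + β)) :=
            mul_le_mul d2 d1 (mul_nonneg (by positivity) hZ0) (by positivity)
        _ = _ := by
            field_simp
            ring
    have c2 : gg * (1 / √e * α * (h1q + h2q)) * Z ≤
        6 / (κ * e ^ 2) * (m ^ 2 * (m / √e) * σ * (α + β)) := by
      have d2 : gg * (h1q + h2q) ≤ 1 / κ * (1 / e ^ 2 + 1 / e ^ 2) :=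
        mul_le_mul gk (add_le_add q1' q2') (by positivity) (by positivity)
      calc gg * (1 / √e * α * (h1q + h2q)) * Z =
          gg * (h1q + h2q) * ((1 / √e * α) * Z) := by ring
        _ ≤ 1 / κ * (1 / e ^ 2 + 1 / e ^ 2) * ((1 / √e * α) * (3 * m ^ 3 * σ)) :=
            mul_le_mul d2 (mul_le_mul_of_nonneg_left Zm (by positivity))
              (mul_nonneg (by positivity) hZ0) (by positivity)
        _ = 6 / (κ * e ^ 2) * (m ^ 2 * (m / √e) * σ * α) := by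
            field_simp
            ring
        _ ≤ _ := by
            refine mul_le_mul_of_nonneg_left ?_ (by positivity)
            exact mul_le_mul_of_nonneg_left (by linarith) (by positivity)
    have c3 := mul_le_mul_of_nonneg_left (add_le_add c1 c2) pw2
    calc w2 * (h1q * (2 / κ * gg * (α / f1 + β / f2)) + gg * (1 / √e * α * (h1q + h2q))) * Z =
        w2 * (h1q * (2 / κ * gg * (α / f1 + β / f2)) * Z +
          gg * (1 / √e * α * (h1q + h2q)) * Z) := by ring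
      _ ≤ _ := c3
      _ = _ := by
          rw [hμ]
          unfold mu
          ring
  have tR : |rhoh κ e Y M1 M2 C1 C2| * Z ≤
      6 / (κ * e ^ 2) * (μ * σ * (√e * (√d * √(w1 + w2)))) +
      6 / (κ * e ^ 2) * (μ * σ * ((α + β) * w2)) := by
    refine (mul_le_mul_of_nonneg_right hR hZ0).trans ?_
    rw [add_mul]
    exact add_le_add tB1 tB2
  have tA' : |w1 * gm| * E ≤ 6 / (κ * e ^ 2) * (μ * σ * ((α + β) * w1)) := by
    refine tA.trans (mul_le_mul_of_nonneg_right ?_ (by positivity))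
    exact div_le_div_of_nonneg_right (by norm_num) (by positivity)
  calc |w1 * gm| * E + |rhoh κ e Y M1 M2 C1 C2| * Z ≤ _ := add_le_add tA' tR
    _ = _ := by ring

/-- **the size of the deep product** -/
theorem deep_pt (hκ : 0 < κ) (he : 0 < e) (hm : 0 < m) {z σ : ℝ}
    (hz : |z| ≤ 3 * m ^ 3 * σ) (hσ : 0 ≤ σ) :
    (gh κ e C1 C2 * z) ^ 2 ≤ 9 / (κ * e ^ 2) ^ 2 * e * (mu κ e m * σ) ^ 2 := by
  have g0 := gh_le' hκ he C1 C2
  have gp := gh_pos hκ he C1 C2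
  have H0 : 1 / κ * (1 / e ^ 2) = 1 / (κ * e ^ 2) := by
    rw [one_div_mul_one_div]
  rw [H0] at g0
  have m3 := m3_le_mu hκ he hm.le
  have pmu := mu_nonneg (e := e) hκ hm.le
  have h1 : |gh κ e C1 C2 * z| ≤ 1 / (κ * e ^ 2) * (3 * (√e * mu κ e m) * σ) := by
    rw [abs_mul, abs_of_pos gp]
    refine mul_le_mul g0 (hz.trans (mul_le_mul_of_nonneg_right
      (mul_le_mul_of_nonneg_left m3 (by norm_num)) hσ)) (abs_nonneg _) (by positivity)
  have h2 := pow_le_pow_left₀ (abs_nonneg _) h1 2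
  rw [sq_abs] at h2
  refine h2.trans (le_of_eq ?_)
  have h3 : √e ^ 2 = e := Real.sq_sqrt he.le
  calc (1 / (κ * e ^ 2) * (3 * (√e * mu κ e m) * σ)) ^ 2 =
      9 / (κ * e ^ 2) ^ 2 * √e ^ 2 * (mu κ e m * σ) ^ 2 := by ring
    _ = _ := by rw [h3]

end pt

end Vale.Agent.P146.H508.E1A
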