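import Vale.Agent.P146.H508.E1Num

/-!
Plan R2, row F2: **the error of unfreezing in numbers** (`e1_num`), end.
-/

open MeasureTheory ProbabilityTheory Finset

namespace Vale.Agent.P146.H508.SN

open Vale.Agent.P157.Lv Vale.Agent.P146.H425 Vale.Agent.P146.H325 Vale.Agent.P146.H332
  Vale.Agent.P146.H712 Vale.Agent.P146.R1 Vale.Agent.P146.R1C Vale.Agent.P146.H706
  Vale.Agent.P146.R1S Vale.Agent.P146.H191 Vale.Agent.P146.H633 Vale.Agent.P146.Cum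
open Vale.Agent.P146.H350 (tq wq mq mv dt cv)
open Vale.Agent.P146.H508.Rho (Ps)
open Vale.Agent.P146.H508.Deep
open Vale.Agent.P146.H508.K4F
open Vale.Agent.P146.H508.E1 (Cf dn qn qn_nonneg qn_le sum_qn fro_ge eg_dn eg_qn dn_nonneg e1_sum)
open Vale.Agent.P146.H508.E1A
open Vale.Agent.P146.H561 (n3row)
open Vale.Agent.P146.H581.CH

set_option linter.unusedSectionVars false

variable {n : ℕ} {k x : ℝ} {S : CS n k x} {s1 s2 β : ℝ} {a1 a2 : Fin 4 → ℝ}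
  {φ : (K4 (Pair n) → ℝ) → ℝ} {R : Finset (K4 (Pair n))} {Y : MF n} {Yb : Fin n → MF n}
  {κ e V0 Lm : ℝ} {t : Fin n → (K4 (Pair n) → ℝ) → ℝ}

/-- The constant of the rare part of the size. -/
noncomputable def KN (n : ℕ) (κ e V0 Lm : ℝ) : ℝ :=
  (2 + 8 * V0) ^ 2 * mu κ e (8 * n) ^ 2 *
    (106 * (n : ℝ) ^ 4 + 6 * (n : ℝ) ^ 5 * (9 + mu κ e (8 * n) ^ 2 / mu κ e Lm ^ 2))

/-- both weights against the frozen one -/
lemma wp_le (D : TD S s1 a1 φ R Y Yb) (b : Fin n) (w : K4 (Pair n) → ℝ) :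
    wq (Yb b w) (H364.Cb S s1 a1 b w) + wq (Yb b w) (Cf S s1 a1 w) ≤
      3 * Wb S s1 a1 Yb b w + 2 * Zb S s1 a1 Yb b w := by
  rw [wq_tq (H364.Cb_comm w), wq_tq (fun i l => S.A_comm s1 _ i l)]
  have h := qf_two (Y := Yb b w) (M := fun i l => S.A s1 (H712.lp a1 w) i l)
    (C := H364.Cb S s1 a1 b w) (D.pYb b w) (D.sYb b w)
  have e1 : Rho.qf (Yb b w) (fun i l => H364.Cb S s1 a1 b w i l - S.A s1 (H712.lp a1 w) i l)
      (fun i l => H364.Cb S s1 a1 b w i l - S.A s1 (H712.lp a1 w) i l) =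
      Zb S s1 a1 Yb b w := by
    unfold Zb H350.tq Rho.qf
    refine Finset.sum_congr rfl fun i _ => Finset.sum_congr rfl fun j _ => ?_
    congr 1
    exact Finset.sum_congr rfl fun l _ => by ring
  rw [e1] at h
  have h2 : tq (Yb b w) (Cf S s1 a1 w) ≤ 2 * Wb S s1 a1 Yb b w + 2 * Zb S s1 a1 Yb b w := h
  have h3 : tq (Yb b w) (H364.Cb S s1 a1 b w) = Wb S s1 a1 Yb b w := rfl
  linarith

lemma wp_nonneg (D : TD S s1 a1 φ R Y Yb) (b : Fin n) (w : K4 (Pair n) → ℝ) :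
    0 ≤ wq (Yb b w) (H364.Cb S s1 a1 b w) + wq (Yb b w) (Cf S s1 a1 w) :=
  add_nonneg (H350.wq_nonneg (D.pYb b w) (H364.Cb_comm w))
    (H350.wq_nonneg (D.pYb b w) fun i l => S.A_comm s1 _ i l)

lemma eg_wp (D : TD S s1 a1 φ R Y Yb) (b : Fin n) :
    EG fun w => wq (Yb b w) (H364.Cb S s1 a1 b w) + wq (Yb b w) (Cf S s1 a1 w) :=
  (H350.eg_wq (D.eYb b) fun i l => H364.eg_Cb i l).add (H350.eg_wq (D.eYb b) eg_Cl)

lemma eg_mb (hL : LV S s1 s2 a1 a2 β V0 Lm t) (b : Fin n) : EG (mb n Lm t b) :=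
  (EG.const Lm).add ((hL.et b).const_mul (4 * n))

lemma eg_sb (hL : LV S s1 s2 a1 a2 β V0 Lm t) (b : Fin n) :
    EG (sb S s1 s2 a1 a2 β V0 Lm t b) :=
  ((eg_qn b).add (eg_qn b)).add ((eg_mb hL b).const_mul _)

lemma eg_gb (hL : LV S s1 s2 a1 a2 β V0 Lm t) (b : Fin n) :
    EG (gb S s1 s2 a1 a2 β κ e V0 Lm t b) :=
  ((((eg_mb hL b).pow 2).mul ((EG.const (1 / κ)).add
    ((eg_mb hL b).mul (EG.const (√e)⁻¹)))).mul (eg_sb hL b)).pow 2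

lemma gb_nonneg (b : Fin n) (w : K4 (Pair n) → ℝ) :
    0 ≤ gb S s1 s2 a1 a2 β κ e V0 Lm t b w := sq_nonneg _

/-- the weight and the rows -/
lemma Eg_le (D : TD S s1 a1 φ R Y Yb) (hL : LV S s1 s2 a1 a2 β V0 Lm t) (hκ : 0 < κ) :
    Im φ (fun w => Ww S s1 a1 Y w * ∑ b, gb S s1 s2 a1 a2 β κ e V0 Lm t b w) ≤
      2 * (2 + 8 * V0) ^ 2 * mu κ e Lm ^ 2 * Lm * Im φ (Ww S s1 a1 Y) +
      10 * (2 + 8 * V0) ^ 2 * mu κ e (8 * n) ^ 2 * (n : ℝ) ^ 4 *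
        Im φ (fun w => ∑ b, t b w) := by
  have hV := hL.V0
  rw [← Im_const_mul, ← Im_const_mul, ← Im_add D.eφ (D.eWw.const_mul _)
    ((EG.sum _ fun b _ => hL.et b).const_mul _)]
  refine Im_mono D.φ0 D.eφ (D.eWw.mul (EG.sum _ fun b _ => eg_gb hL b))
    ((D.eWw.const_mul _).add ((EG.sum _ fun b _ => hL.et b).const_mul _)) fun w => ?_
  have h1 := mul_le_mul_of_nonneg_left (sum_gb (e := e) D hL hκ w) (D.Ww_nonneg w)
  have ht : 0 ≤ ∑ b, t b w := Finset.sum_nonneg fun b _ => hL.t0 b w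
  have h2 := mul_le_mul_of_nonneg_right (D.Ww_le w)
    (by positivity : 0 ≤ 10 * (2 + 8 * V0) ^ 2 * mu κ e (8 * n) ^ 2 * ∑ b, t b w)
  rw [mul_add] at h1
  linarith

/-- **(N)** the size -/
theorem N_le (D : TD S s1 a1 φ R Y Yb) (hL : LV S s1 s2 a1 a2 β V0 Lm t) (hκ : 0 < κ) :
    Im φ (fun w => ∑ b, gb S s1 s2 a1 a2 β κ e V0 Lm t b w *
        (wq (Yb b w) (H364.Cb S s1 a1 b w) + wq (Yb b w) (Cf S s1 a1 w))) ≤
      (2 + 8 * V0) ^ 2 * mu κ e Lm ^ 2 * (18 * (Lm * Im φ (Ww S s1 a1 Y)) + 6 * DDn Y Yb +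
        16 * Im φ (fun w => ∑ b, Zb S s1 a1 Yb b w)) +
      KN n κ e V0 Lm * Im φ (fun w => ∑ b, t b w) := by
  have hV := hL.V0
  have hn : (0 : ℝ) < n := by exact_mod_cast D.n0
  set σ8 : ℝ := 2 + 8 * V0 with hσ8
  have hσ0 : 0 < σ8 := by positivity
  have hLm : 0 < Lm := by have := hL.L0; linarith
  have hμpos : 0 < mu κ e Lm := by
    unfold mu
    have := Real.sqrt_nonneg e
    have : 0 ≤ Lm / √e := by positivity
    positivity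
  have Eg := Eg_le (e := e) D hL hκ
  have GB := fun b w => gb_le (e := e) D hL hκ b w
  rw [← hσ8] at Eg
  simp only [← hσ8] at GB
  set μ0 := mu κ e Lm with hμ0
  set μ1 := mu κ e (8 * n) with hμ1
  set g := gb S s1 s2 a1 a2 β κ e V0 Lm t with hg
  have eg : ∀ b, EG (g b) := fun b => eg_gb hL b
  have g0 : ∀ b w, 0 ≤ g b w := fun b w => gb_nonneg b w
  have et : EG fun w => ∑ b, t b w := EG.sum _ fun b _ => hL.et b
  have ht : ∀ w, 0 ≤ ∑ b, t b w := fun w => Finset.sum_nonneg fun b _ => hL.t0 b w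
  have hG : 0 < 2 * σ8 ^ 2 * μ0 ^ 2 := by positivity
  have lin := D.lin (g := g) (T := fun w => 2 * σ8 ^ 2 * μ1 ^ 2 * ∑ b, t b w)
    (G := 2 * σ8 ^ 2 * μ0 ^ 2) (g8 := n * (2 * σ8 ^ 2 * μ0 ^ 2 + 2 * σ8 ^ 2 * μ1 ^ 2)) hG eg g0
    (et.const_mul _) (fun w => mul_nonneg (by positivity) (ht w))
    (fun b w => by
      refine (GB b w).trans (add_le_add le_rfl (mul_le_mul_of_nonneg_left ?_ (by positivity)))
      exact Finset.single_le_sum (f := fun b => t b w) (fun b _ => hL.t0 b w)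
        (Finset.mem_univ b))
    (fun w => by
      have h1 : ∀ b, g b w ≤ 2 * σ8 ^ 2 * μ0 ^ 2 + 2 * σ8 ^ 2 * μ1 ^ 2 := fun b => by
        have h2 := mul_le_mul_of_nonneg_left (hL.t1 b w)
          (by positivity : 0 ≤ 2 * σ8 ^ 2 * μ1 ^ 2)
        have := GB b w
        linarith
      refine (Finset.sum_le_sum fun b _ => h1 b).trans (le_of_eq ?_)
      rw [Finset.sum_const, Finset.card_univ, Fintype.card_fin, nsmul_eq_mul])
  have e1 : Im φ (fun w => 2 * σ8 ^ 2 * μ1 ^ 2 * ∑ b, t b w) =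
      2 * σ8 ^ 2 * μ1 ^ 2 * Im φ (fun w => ∑ b, t b w) := Im_const_mul _ _
  rw [e1] at lin
  -- the form
  have hZ : Im φ (fun w => ∑ b, g b w * Zb S s1 a1 Yb b w) ≤
      2 * σ8 ^ 2 * μ0 ^ 2 * Im φ (fun w => ∑ b, Zb S s1 a1 Yb b w) +
        8 * σ8 ^ 2 * μ1 ^ 2 * (n : ℝ) ^ 4 * Im φ (fun w => ∑ b, t b w) := by
    rw [← Im_const_mul, ← Im_const_mul, ← Im_add D.eφ
      ((EG.sum _ fun b _ => D.eZb b).const_mul _) (et.const_mul _)]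
    refine Im_mono D.φ0 D.eφ (EG.sum _ fun b _ => (eg b).mul (D.eZb b))
      (((EG.sum _ fun b _ => D.eZb b).const_mul _).add (et.const_mul _)) fun w => ?_
    rw [Finset.mul_sum, Finset.mul_sum, ← Finset.sum_add_distrib]
    refine Finset.sum_le_sum fun b _ => ?_
    have h1 := mul_le_mul_of_nonneg_right (GB b w) (D.Zb_nonneg b w)
    have h2 := mul_le_mul_of_nonneg_left (D.Zb_le b w)
      (mul_nonneg (by positivity : 0 ≤ 2 * σ8 ^ 2 * μ1 ^ 2) (hL.t0 b w))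
    rw [add_mul] at h1
    linarith
  -- together
  have eWg : EG fun w => ∑ b, Wb S s1 a1 Yb b w * g b w :=
    EG.sum _ fun b _ => (D.eWb b).mul (eg b)
  have eZg : EG fun w => ∑ b, g b w * Zb S s1 a1 Yb b w :=
    EG.sum _ fun b _ => (eg b).mul (D.eZb b)
  have hA : Im φ (fun w => ∑ b, g b w *
        (wq (Yb b w) (H364.Cb S s1 a1 b w) + wq (Yb b w) (Cf S s1 a1 w))) ≤
      3 * Im φ (fun w => ∑ b, Wb S s1 a1 Yb b w * g b w) +
        2 * Im φ (fun w => ∑ b, g b w * Zb S s1 a1 Yb b w) := by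
    rw [← Im_const_mul, ← Im_const_mul, ← Im_add D.eφ (eWg.const_mul _) (eZg.const_mul _)]
    refine Im_mono D.φ0 D.eφ (EG.sum _ fun b _ => (eg b).mul (eg_wp D b))
      ((eWg.const_mul _).add (eZg.const_mul _)) fun w => ?_
    rw [Finset.mul_sum, Finset.mul_sum, ← Finset.sum_add_distrib]
    refine Finset.sum_le_sum fun b _ => ?_
    have := mul_le_mul_of_nonneg_left (wp_le D b w) (g0 b w)
    linarith
  refine hA.trans ?_
  set η := Im φ (fun w => ∑ b, t b w) with hη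
  have pη : 0 ≤ η := D.Im_nonneg ht
  have e2 : (n : ℝ) ^ 4 * (n * (2 * σ8 ^ 2 * μ0 ^ 2 + 2 * σ8 ^ 2 * μ1 ^ 2)) /
      (2 * σ8 ^ 2 * μ0 ^ 2) = (n : ℝ) ^ 5 * (1 + μ1 ^ 2 / μ0 ^ 2) := by
    field_simp
  rw [e2] at lin
  have eK : KN n κ e V0 Lm = σ8 ^ 2 * μ1 ^ 2 *
    (106 * (n : ℝ) ^ 4 + 6 * (n : ℝ) ^ 5 * (9 + μ1 ^ 2 / μ0 ^ 2)) := rfl
  rw [eK]
  set A0 := Im φ (Ww S s1 a1 Y) with hA0
  set DD := DDn Y Yb with hDD
  set TY := Im φ (fun w => ∑ b, Zb S s1 a1 Yb b w) with hTY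
  set X1 := Im φ (fun w => ∑ b, Wb S s1 a1 Yb b w * g b w) with hX1
  set X2 := Im φ (fun w => ∑ b, g b w * Zb S s1 a1 Yb b w) with hX2
  set X3 := Im φ (fun w => Ww S s1 a1 Y w * ∑ b, g b w) with hX3
  have f1 : 3 * X1 + 2 * X2 ≤ 3 * (3 * (2 * σ8 ^ 2 * μ0 ^ 2 * Lm * A0 +
      10 * σ8 ^ 2 * μ1 ^ 2 * (n : ℝ) ^ 4 * η) + 2 * σ8 ^ 2 * μ0 ^ 2 * (DD + 2 * TY) +
      ((n : ℝ) ^ 5 * (1 + μ1 ^ 2 / μ0 ^ 2) + 8 * (n : ℝ) ^ 5) *
        (2 * σ8 ^ 2 * μ1 ^ 2 * η)) +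
      2 * (2 * σ8 ^ 2 * μ0 ^ 2 * TY + 8 * σ8 ^ 2 * μ1 ^ 2 * (n : ℝ) ^ 4 * η) := by linarith
  refine f1.trans (le_of_eq ?_)
  ring

/-- **(TX)** the touches with both weights -/
theorem TX_le (D : TD S s1 a1 φ R Y Yb) (hL : LV S s1 s2 a1 a2 β V0 Lm t) :
    Im φ (fun w => ∑ b, (dn S s1 a1 b w + dn S s2 a2 b w) ^ 2 *
        (wq (Yb b w) (H364.Cb S s1 a1 b w) + wq (Yb b w) (Cf S s1 a1 w))) ≤
      6 * (SA φ S s1 a1 Yb s1 a1 + SA φ S s1 a1 Yb s2 a2) +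
      4 * Lm ^ 2 * Im φ (fun w => ∑ b, Zb S s1 a1 Yb b w) +
      256 * (n : ℝ) ^ 6 * Im φ (fun w => ∑ b, t b w) := by
  have et : EG fun w => ∑ b, t b w := EG.sum _ fun b _ => hL.et b
  have eS : ∀ {s : ℝ} {a : Fin 4 → ℝ}, EG fun w => ∑ b, Wb S s1 a1 Yb b w * dn S s a b w ^ 2 :=
    EG.sum _ fun b _ => (D.eWb b).mul ((eg_dn b).pow 2)
  have eZ : EG fun w => ∑ b, Zb S s1 a1 Yb b w := EG.sum _ fun b _ => D.eZb b
  unfold SA
  rw [← Im_add D.eφ eS eS, ← Im_const_mul, ← Im_const_mul, ← Im_const_mul,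
    ← Im_add D.eφ ((eS.add eS).const_mul _) (eZ.const_mul _),
    ← Im_add D.eφ (((eS.add eS).const_mul _).add (eZ.const_mul _)) (et.const_mul _)]
  refine Im_mono D.φ0 D.eφ (EG.sum _ fun b _ => (((eg_dn b).add (eg_dn b)).pow 2).mul (eg_wp D b))
    ((((eS.add eS).const_mul _).add (eZ.const_mul _)).add (et.const_mul _)) fun w => ?_
  rw [← Finset.sum_add_distrib, Finset.mul_sum, Finset.mul_sum, Finset.mul_sum,
    ← Finset.sum_add_distrib, ← Finset.sum_add_distrib]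
  refine Finset.sum_le_sum fun b _ => ?_
  have hn : (0 : ℝ) < n := by exact_mod_cast D.n0
  have d1 := dn_nonneg (S := S) (s := s1) (a := a1) b w
  have d2 := dn_nonneg (S := S) (s := s2) (a := a2) b w
  have tri : ∀ {s : ℝ} {a : Fin 4 → ℝ}, dn S s a b w ≤
      fro (Cf S s a w) + fro (H364.Cb S s a b w) := by
    intro s a
    have h1 := fro_add (Cf S s a w) (fun i j => -H364.Cb S s a b w i j)
    rw [fro_neg] at h1
    refine le_trans (le_of_eq ?_) h1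
    exact fro_congr fun i j => by ring
  have h1 := tri (s := s1) (a := a1)
  have h2 := tri (s := s2) (a := a2)
  have h3 := hL.mm b w
  have h4 : dn S s1 a1 b w + dn S s2 a2 b w ≤ Lm + 4 * n * t b w := by linarith
  have h5 := pow_le_pow_left₀ (add_nonneg d1 d2) h4 2
  have h6 := hL.t0 b w
  have h7 := hL.t1 b w
  have h8 : t b w ^ 2 ≤ t b w := by nlinarith
  have h9 : (Lm + 4 * n * t b w) ^ 2 ≤ 2 * Lm ^ 2 + 32 * (n : ℝ) ^ 2 * t b w := by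
    have := mul_le_mul_of_nonneg_left h8 (by positivity : 0 ≤ 32 * (n : ℝ) ^ 2)
    nlinarith [sq_nonneg (Lm - 4 * n * t b w)]
  have pW := D.Wb_nonneg b w
  have pZ := D.Zb_nonneg b w
  have bZ := D.Zb_le b w
  have hp := wp_le D b w
  set d := dn S s1 a1 b w + dn S s2 a2 b w with hd
  set W := Wb S s1 a1 Yb b w with hW
  set Z := Zb S s1 a1 Yb b w with hZ
  have k1 : d ^ 2 * (wq (Yb b w) (H364.Cb S s1 a1 b w) + wq (Yb b w) (Cf S s1 a1 w)) ≤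
      d ^ 2 * (3 * W + 2 * Z) := mul_le_mul_of_nonneg_left hp (sq_nonneg _)
  have k2 : d ^ 2 * (3 * W) ≤ 6 * (W * dn S s1 a1 b w ^ 2 + W * dn S s2 a2 b w ^ 2) := by
    have : d ^ 2 ≤ 2 * (dn S s1 a1 b w ^ 2 + dn S s2 a2 b w ^ 2) := by
      rw [hd]
      nlinarith [sq_nonneg (dn S s1 a1 b w - dn S s2 a2 b w)]
    have := mul_le_mul_of_nonneg_right this (by positivity : 0 ≤ 3 * W)
    linarith
  have k3 : d ^ 2 * (2 * Z) ≤ 4 * Lm ^ 2 * Z + 256 * (n : ℝ) ^ 6 * t b w := by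
    have m1 := mul_le_mul_of_nonneg_right (h5.trans h9) (by positivity : 0 ≤ 2 * Z)
    have m2 := mul_le_mul_of_nonneg_left bZ
      (mul_nonneg (by positivity : 0 ≤ 64 * (n : ℝ) ^ 2) h6)
    calc d ^ 2 * (2 * Z) ≤ (2 * Lm ^ 2 + 32 * (n : ℝ) ^ 2 * t b w) * (2 * Z) := m1
      _ = 4 * Lm ^ 2 * Z + 64 * (n : ℝ) ^ 2 * t b w * Z := by ring
      _ ≤ 4 * Lm ^ 2 * Z + 64 * (n : ℝ) ^ 2 * t b w * (4 * (n : ℝ) ^ 4) := by linarith
      _ = _ := by ring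
  calc _ ≤ d ^ 2 * (3 * W + 2 * Z) := k1
    _ = d ^ 2 * (3 * W) + d ^ 2 * (2 * Z) := by ring
    _ ≤ _ := by linarith

/-- **(E1) the error of unfreezing in numbers.** -/
theorem e1_num (D : TD S s1 a1 φ R Y Yb) (hL : LV S s1 s2 a1 a2 β V0 Lm t)
    {ψ' : K4 (Pair n) → (K4 (Pair n) → ℝ) → ℝ} (hd : Den φ ψ')
    (hs1 : 0 < s1) (hs2 : 0 < s2) (hv : 0 < vr a2) (hv1 : vr a1 ≤ vr a2)
    (hc : cv a1 a2 = vr a1) (hκ : 0 < κ) (hκ1 : κ ≤ 1) (he : 0 < e)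
    (hYi : ∀ b, Ifz b (Yb b))
    (hV1 : ∀ b w, ven (dv a1 ψ' b w) ^ 2 ≤ V0)
    (hV2 : ∀ b w, ven (dv a2 ψ' b w) ^ 2 ≤ V0)
    {Nn Tn : ℝ}
    (hN : (2 + 8 * V0) ^ 2 * mu κ e Lm ^ 2 * (18 * (Lm * Im φ (Ww S s1 a1 Y)) + 6 * DDn Y Yb +
        16 * Im φ (fun w => ∑ b, Zb S s1 a1 Yb b w)) +
      KN n κ e V0 Lm * Im φ (fun w => ∑ b, t b w) ≤ Nn)
    (hT : 6 * (SA φ S s1 a1 Yb s1 a1 + SA φ S s1 a1 Yb s2 a2) +
      4 * Lm ^ 2 * Im φ (fun w => ∑ b, Zb S s1 a1 Yb b w) +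
      256 * (n : ℝ) ^ 6 * Im φ (fun w => ∑ b, t b w) ≤ Tn) :
    |∑ b, Im φ (n3row S s1 s2 β (vr a1 / vr a2) a1 a2 ψ' b
        (chh κ e (Yb b) (H364.Cb S s1 a1 b) (H364.Cb S s2 a2 b))
        (H364.Cb S s1 a1 b) (H364.Cb S s2 a2 b)) -
      Im φ (fun w => chh κ e Y (Cf S s1 a1) (Cf S s2 a2) w *
        ∑ b, m3 S s1 s2 β (vr a1 / vr a2) a1 a2 ψ' b (Cf S s1 a1) (Cf S s2 a2) w)| ≤
      6 / (κ * e ^ 2) * (√Nn * (√(2 * Tn +
          2 * (e * Im φ (fun w => ∑ b, Zb S s1 a1 Yb b w))) + √(e * DDn Y Yb))) := by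
  have key := e1_sum (S := S) (β := β) (R := R) (Y := Y) (Yb := Yb) (κ := κ) (e := e)
    (V0 := V0) (m := mb n Lm t) (σ := sb S s1 s2 a1 a2 β V0 Lm t) D.n0 hs1 hs2 hv hv1 hc hd
    D.φ0 hκ hκ1 he D.eY D.eYb D.ind hYi D.sYb D.pYb (fun b => eg_mb hL b) (mb_pos D hL) hL.mm
    hL.V0 hV1 hV2 (fun b w => rfl)
  refine key.trans (mul_le_mul_of_nonneg_left ?_ (by positivity))
  have n1 := (N_le (e := e) D hL hκ).trans hN
  have t1 := (TX_le D hL).trans hT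
  have e1 : Im φ (fun w => ∑ b, wq (Yb b w) fun i l =>
      H364.Cb S s1 a1 b w i l - Cf S s1 a1 w i l) =
      Im φ (fun w => ∑ b, Zb S s1 a1 Yb b w) := by
    refine Im_congr fun w => Finset.sum_congr rfl fun b _ => ?_
    have hsy : ∀ i l, H364.Cb S s1 a1 b w i l - Cf S s1 a1 w i l =
        H364.Cb S s1 a1 b w l i - Cf S s1 a1 w l i := fun i l => by
      have q1 : Cf S s1 a1 w i l = Cf S s1 a1 w l i := S.A_comm s1 (H712.lp a1 w) i l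
      rw [H364.Cb_comm w i l, q1]
    rw [wq_tq hsy]
    unfold Zb H350.tq
    refine Finset.sum_congr rfl fun i _ => Finset.sum_congr rfl fun j _ => ?_
    congr 1
    exact Finset.sum_congr rfl fun l _ => by ring
  rw [e1]
  have hW : ∀ w, ∑ i, ∑ j, (∑ l, Cf S s1 a1 w i l * Cf S s1 a1 w l j) *
      Av R (fun w => φ w * ∑ l, Cf S s1 a1 w i l * Cf S s1 a1 w l j) w = Ww S s1 a1 Y w := by
    intro w
    unfold Ww H350.tq
    refine Finset.sum_congr rfl fun i _ => Finset.sum_congr rfl fun j _ => ?_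
    have h1 : Av R (fun w => φ w * ∑ l, Cf S s1 a1 w i l * Cf S s1 a1 w l j) w = Y w i j :=
      D.Yc w i j
    rw [h1, mul_comm]
    congr 1
    refine Finset.sum_congr rfl fun l _ => ?_
    show S.A s1 (H712.lp a1 w) i l * S.A s1 (H712.lp a1 w) l j = _
    rw [S.A_comm s1 (H712.lp a1 w) l j]
  have n0 : Im φ (fun w => ∑ b, (mu κ e (mb n Lm t b w) *
        sb S s1 s2 a1 a2 β V0 Lm t b w) ^ 2 *
      ∑ i, ∑ j, (∑ l, Cf S s1 a1 w i l * Cf S s1 a1 w l j) *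
        Av R (fun w => φ w * ∑ l, Cf S s1 a1 w i l * Cf S s1 a1 w l j) w) ≤ Nn := by
    have e2 : Im φ (fun w => ∑ b, (mu κ e (mb n Lm t b w) *
          sb S s1 s2 a1 a2 β V0 Lm t b w) ^ 2 *
        ∑ i, ∑ j, (∑ l, Cf S s1 a1 w i l * Cf S s1 a1 w l j) *
          Av R (fun w => φ w * ∑ l, Cf S s1 a1 w i l * Cf S s1 a1 w l j) w) =
        Im φ (fun w => Ww S s1 a1 Y w * ∑ b, gb S s1 s2 a1 a2 β κ e V0 Lm t b w) :=
      Im_congr fun w => by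
        rw [Finset.mul_sum]
        refine Finset.sum_congr rfl fun b _ => ?_
        rw [hW w]
        exact mul_comm _ _
    rw [e2]
    refine (Eg_le (e := e) D hL hκ).trans (le_trans ?_ hN)
    have hV := hL.V0
    have hLm : 0 ≤ Lm := by have := hL.L0; linarith
    have pA : 0 ≤ Im φ (Ww S s1 a1 Y) := D.Im_nonneg D.Ww_nonneg
    have pD : 0 ≤ DDn Y Yb := DDn_nonneg
    have pZ : 0 ≤ Im φ (fun w => ∑ b, Zb S s1 a1 Yb b w) :=
      D.Im_nonneg fun w => Finset.sum_nonneg fun b _ => D.Zb_nonneg b w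
    have pt : 0 ≤ Im φ (fun w => ∑ b, t b w) :=
      D.Im_nonneg fun w => Finset.sum_nonneg fun b _ => hL.t0 b w
    have f1 : 2 * (2 + 8 * V0) ^ 2 * mu κ e Lm ^ 2 * Lm * Im φ (Ww S s1 a1 Y) ≤
        (2 + 8 * V0) ^ 2 * mu κ e Lm ^ 2 * (18 * (Lm * Im φ (Ww S s1 a1 Y)) + 6 * DDn Y Yb +
        16 * Im φ (fun w => ∑ b, Zb S s1 a1 Yb b w)) := by
      have f2 : 2 * (Lm * Im φ (Ww S s1 a1 Y)) ≤ 18 * (Lm * Im φ (Ww S s1 a1 Y)) +
          6 * DDn Y Yb + 16 * Im φ (fun w => ∑ b, Zb S s1 a1 Yb b w) := by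
        have := mul_nonneg hLm pA
        linarith
      have f3 := mul_le_mul_of_nonneg_left f2
        (by positivity : 0 ≤ (2 + 8 * V0) ^ 2 * mu κ e Lm ^ 2)
      linarith
    have f4 : 10 * (2 + 8 * V0) ^ 2 * mu κ e (8 * n) ^ 2 * (n : ℝ) ^ 4 *
        Im φ (fun w => ∑ b, t b w) ≤ KN n κ e V0 Lm * Im φ (fun w => ∑ b, t b w) := by
      refine mul_le_mul_of_nonneg_right ?_ pt
      unfold KN
      have f5 : 0 ≤ 6 * (n : ℝ) ^ 5 * (9 + mu κ e (8 * n) ^ 2 / mu κ e Lm ^ 2) := by positivity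
      have f6 : 0 ≤ (2 + 8 * V0) ^ 2 * mu κ e (8 * n) ^ 2 := by positivity
      have f7 := mul_le_mul_of_nonneg_left (by
        have : (0:ℝ) ≤ (n : ℝ) ^ 4 := by positivity
        linarith : 10 * (n : ℝ) ^ 4 ≤ 106 * (n : ℝ) ^ 4 +
          6 * (n : ℝ) ^ 5 * (9 + mu κ e (8 * n) ^ 2 / mu κ e Lm ^ 2)) f6
      linarith
    linarith
  have q1 := Real.sqrt_le_sqrt n1
  have q2 := Real.sqrt_le_sqrt n0
  have q3 : √(2 * (Im φ fun w => ∑ b, (dn S s1 a1 b w + dn S s2 a2 b w) ^ 2 *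
        (wq (Yb b w) (H364.Cb S s1 a1 b w) + wq (Yb b w) (Cf S s1 a1 w))) +
      2 * (e * Im φ fun w => ∑ b, Zb S s1 a1 Yb b w)) ≤
      √(2 * Tn + 2 * (e * Im φ (fun w => ∑ b, Zb S s1 a1 Yb b w))) :=
    Real.sqrt_le_sqrt (by linarith)
  rw [mul_add]
  refine add_le_add (mul_le_mul q1 q3 (Real.sqrt_nonneg _) (Real.sqrt_nonneg _)) ?_
  rw [mul_comm]
  exact mul_le_mul q2 le_rfl (Real.sqrt_nonneg _) (Real.sqrt_nonneg _)

end Vale.Agent.P146.H508.SN
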