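import Vale.Agent.P146.H508.SNum

/-!
Plan R2, row F2: **the error of unfreezing in numbers** (`e1_num`): only the mean of the weight, the
distance of the deep matrices, the touches with the frozen form and the frozen weight, and the mean
of a rare function appear.
-/

open MeasureTheory ProbabilityTheory Finset

namespace Vale.Agent.P146.H508.SN

open Vale.Agent.P157.Lv Vale.Agent.P146.H425 Vale.Agent.P146.H325 Vale.Agent.P146.H332
  Vale.Agent.P146.H712 Vale.Agent.P146.R1 Vale.Agent.P146.R1C Vale.Agent.P146.H706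
  Vale.Agent.P146.R1S Vale.Agent.P146.H191 Vale.Agent.P146.H633 Vale.Agent.P146.Cum
open Vale.Agent.P146.H350 (tq wq mq mv dt cv)
open Vale.Agent.P146.H508.Rho (Ps)
open Vale.Agent.P146.H508.Deep
open Vale.Agent.P146.H508.K4F
open Vale.Agent.P146.H508.E1 (Cf dn qn qn_nonneg qn_le sum_qn fro_ge)
open Vale.Agent.P146.H508.E1A
open Vale.Agent.P146.H561 (n3row)
open Vale.Agent.P146.H581.CH

set_option linter.unusedSectionVars false

/-! ### real numbers -/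

lemma mu_mono {κ e m m' : ℝ} (hκ : 0 < κ) (hm : 0 ≤ m) (h : m ≤ m') :
    mu κ e m ≤ mu κ e m' := by
  unfold mu
  have h1 : m ^ 2 ≤ m' ^ 2 := pow_le_pow_left₀ hm h 2
  have h2 : m / √e ≤ m' / √e := div_le_div_of_nonneg_right h (Real.sqrt_nonneg e)
  have h3 : 0 ≤ m / √e := div_nonneg hm (Real.sqrt_nonneg e)
  exact mul_le_mul h1 (by linarith) (by positivity) (sq_nonneg _)

/-- the level form of the polynomial -/
lemma mu_lvl {κ e L N t : ℝ} (hκ : 0 < κ) (hL : 0 ≤ L) (hLN : L ≤ 4 * N) (ht : 0 ≤ t)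
    (ht1 : t ≤ 1) : mu κ e (L + 4 * N * t) ≤ mu κ e L + mu κ e (8 * N) * t := by
  have hN : 0 ≤ N := by linarith
  have t2 : t ^ 2 ≤ t := by nlinarith
  have t3 : t ^ 3 ≤ t := by nlinarith [sq_nonneg t]
  have h2 : (L + 4 * N * t) ^ 2 ≤ L ^ 2 + (8 * N) ^ 2 * t := by
    have a1 : 8 * N * L * t ≤ 32 * N ^ 2 * t := by
      have : 8 * N * L ≤ 32 * N ^ 2 := by nlinarith
      exact mul_le_mul_of_nonneg_right this ht
    have a2 : 16 * N ^ 2 * t ^ 2 ≤ 16 * N ^ 2 * t := mul_le_mul_of_nonneg_left t2 (by positivity)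
    have a3 : 0 ≤ N ^ 2 * t := by positivity
    nlinarith
  have h3 : (L + 4 * N * t) ^ 3 ≤ L ^ 3 + (8 * N) ^ 3 * t := by
    have a0 : L ^ 2 ≤ (4 * N) ^ 2 := pow_le_pow_left₀ hL hLN 2
    have a1 : 12 * N * L ^ 2 * t ≤ 192 * N ^ 3 * t := by
      have : 12 * N * L ^ 2 ≤ 192 * N ^ 3 := by
        have := mul_le_mul_of_nonneg_left a0 (by positivity : 0 ≤ 12 * N)
        nlinarith
      exact mul_le_mul_of_nonneg_right this ht
    have a2 : 48 * N ^ 2 * L * t ^ 2 ≤ 192 * N ^ 3 * t := by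
      have b1 : 48 * N ^ 2 * L ≤ 192 * N ^ 3 := by
        have := mul_le_mul_of_nonneg_left hLN (by positivity : 0 ≤ 48 * N ^ 2)
        nlinarith
      calc 48 * N ^ 2 * L * t ^ 2 ≤ 192 * N ^ 3 * t ^ 2 :=
            mul_le_mul_of_nonneg_right b1 (sq_nonneg t)
        _ ≤ _ := mul_le_mul_of_nonneg_left t2 (by positivity)
    have a3 : 64 * N ^ 3 * t ^ 3 ≤ 64 * N ^ 3 * t := mul_le_mul_of_nonneg_left t3 (by positivity)
    have a4 : 0 ≤ N ^ 3 * t := by positivity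
    have e1 : (L + 4 * N * t) ^ 3 = L ^ 3 + 12 * N * L ^ 2 * t + 48 * N ^ 2 * L * t ^ 2 +
        64 * N ^ 3 * t ^ 3 := by ring
    rw [e1]
    nlinarith
  have hs := Real.sqrt_nonneg e
  have e2 : ∀ m : ℝ, mu κ e m = m ^ 2 * (1 / κ) + m ^ 3 * (√e)⁻¹ := fun m => by
    unfold mu
    rw [div_eq_mul_inv m]
    ring
  rw [e2, e2, e2]
  have b1 := mul_le_mul_of_nonneg_right h2 (by positivity : 0 ≤ 1 / κ)
  have b2 := mul_le_mul_of_nonneg_right h3 (inv_nonneg.2 hs)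
  nlinarith

variable {n : ℕ} {k x : ℝ} {S : CS n k x} {s1 s2 β : ℝ} {a1 a2 : Fin 4 → ℝ}
  {φ : (K4 (Pair n) → ℝ) → ℝ} {R : Finset (K4 (Pair n))} {Y : MF n} {Yb : Fin n → MF n}
  {κ e V0 Lm : ℝ} {t : Fin n → (K4 (Pair n) → ℝ) → ℝ}

/-- the touches with the frozen weight -/
noncomputable def SA (φ : (K4 (Pair n) → ℝ) → ℝ) (S : CS n k x) (s1 : ℝ) (a1 : Fin 4 → ℝ)
    (Yb : Fin n → MF n) (s : ℝ) (a : Fin 4 → ℝ) : ℝ :=
  Im φ fun w => ∑ b, Wb S s1 a1 Yb b w * dn S s a b w ^ 2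

/-- **The levels**: the sizes of the four matrices. -/
structure LV (S : CS n k x) (s1 s2 : ℝ) (a1 a2 : Fin 4 → ℝ) (β V0 Lm : ℝ)
    (t : Fin n → (K4 (Pair n) → ℝ) → ℝ) : Prop where
  et : ∀ b, EG (t b)
  t0 : ∀ b w, 0 ≤ t b w
  t1 : ∀ b w, t b w ≤ 1
  L0 : 1 ≤ Lm
  Ln : Lm ≤ 4 * n
  kb : (k / β) ^ 2 * n ≤ 1
  V0 : 0 ≤ V0
  mm : ∀ b w, fro (Cf S s1 a1 w) + fro (H364.Cb S s1 a1 b w) +
      (fro (Cf S s2 a2 w) + fro (H364.Cb S s2 a2 b w)) ≤ Lm + 4 * n * t b w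

/-- the level of a row -/
noncomputable def mb (n : ℕ) (Lm : ℝ) (t : Fin n → (K4 (Pair n) → ℝ) → ℝ) (b : Fin n)
    (w : K4 (Pair n) → ℝ) : ℝ := Lm + 4 * n * t b w

/-- the columns and the drift of a row -/
noncomputable def sb (S : CS n k x) (s1 s2 : ℝ) (a1 a2 : Fin 4 → ℝ) (β V0 Lm : ℝ)
    (t : Fin n → (K4 (Pair n) → ℝ) → ℝ) (b : Fin n) (w : K4 (Pair n) → ℝ) : ℝ :=
  qn S s1 a1 b w + qn S s2 a2 b w + (k / β) ^ 2 * V0 * mb n Lm t b w

/-- the square of the size of a row -/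
noncomputable def gb (S : CS n k x) (s1 s2 : ℝ) (a1 a2 : Fin 4 → ℝ) (β κ e V0 Lm : ℝ)
    (t : Fin n → (K4 (Pair n) → ℝ) → ℝ) (b : Fin n) (w : K4 (Pair n) → ℝ) : ℝ :=
  (mu κ e (mb n Lm t b w) * sb S s1 s2 a1 a2 β V0 Lm t b w) ^ 2

lemma wq_tq {Y M : Fin n → Fin n → ℝ} (hM : ∀ i l, M i l = M l i) : wq Y M = tq Y M := by
  unfold H350.wq H350.tq
  refine Finset.sum_congr rfl fun i _ => Finset.sum_congr rfl fun j _ => ?_
  congr 1
  exact Finset.sum_congr rfl fun l _ => by rw [hM l j]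

section rows

variable (D : TD S s1 a1 φ R Y Yb) (hL : LV S s1 s2 a1 a2 β V0 Lm t) (hκ : 0 < κ)

include D hL

lemma mb_pos (b : Fin n) (w : K4 (Pair n) → ℝ) : 0 < mb n Lm t b w := by
  unfold mb
  have := hL.L0
  have := mul_nonneg (by positivity : (0:ℝ) ≤ 4 * n) (hL.t0 b w)
  linarith

lemma mb_le (b : Fin n) (w : K4 (Pair n) → ℝ) : mb n Lm t b w ≤ 8 * n := by
  unfold mb
  have := hL.Ln
  have := mul_le_mul_of_nonneg_left (hL.t1 b w) (by positivity : (0:ℝ) ≤ 4 * n)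
  linarith

lemma sb_nonneg (b : Fin n) (w : K4 (Pair n) → ℝ) : 0 ≤ sb S s1 s2 a1 a2 β V0 Lm t b w := by
  unfold sb
  have := qn_nonneg (S := S) (s := s1) (a := a1) b w
  have := qn_nonneg (S := S) (s := s2) (a := a2) b w
  have := (mb_pos D hL b w).le
  have := hL.V0
  positivity

lemma sb_le (b : Fin n) (w : K4 (Pair n) → ℝ) :
    sb S s1 s2 a1 a2 β V0 Lm t b w ≤ 2 + 8 * V0 := by
  unfold sb
  have h1 := qn_le (S := S) (s := s1) (a := a1) b w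
  have h2 := qn_le (S := S) (s := s2) (a := a2) b w
  have h3 := mb_le D hL b w
  have h4 := hL.V0
  have h5 := mul_le_mul_of_nonneg_left h3 (by positivity : 0 ≤ (k / β) ^ 2 * V0)
  have h6 := mul_le_mul_of_nonneg_right hL.kb (by positivity : 0 ≤ 8 * V0)
  nlinarith

/-- the sum of the columns and the drifts -/
lemma sum_sb (w : K4 (Pair n) → ℝ) : ∑ b, sb S s1 s2 a1 a2 β V0 Lm t b w ≤
    (1 + V0) * (Lm + 4 * ∑ b, t b w) := by
  have hn : (0 : ℝ) < n := by exact_mod_cast D.n0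
  have h0 : 0 ≤ ∑ b, t b w := Finset.sum_nonneg fun b _ => hL.t0 b w
  have hV := hL.V0
  have e1 : ∑ b, mb n Lm t b w = n * (Lm + 4 * ∑ b, t b w) := by
    unfold mb
    rw [Finset.sum_add_distrib, ← Finset.mul_sum, Finset.sum_const, Finset.card_univ,
      Fintype.card_fin, nsmul_eq_mul]
    ring
  have h1 : fro (Cf S s1 a1 w) + fro (Cf S s2 a2 w) ≤ Lm + 4 * ∑ b, t b w := by
    have a1' : ∀ b : Fin n, fro (Cf S s1 a1 w) + fro (Cf S s2 a2 w) ≤ mb n Lm t b w := by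
      intro b
      have := hL.mm b w
      have := fro_nonneg (H364.Cb S s1 a1 b w)
      have := fro_nonneg (H364.Cb S s2 a2 b w)
      unfold mb
      linarith
    have a2' := Finset.sum_le_sum fun (b : Fin n) (_ : b ∈ Finset.univ) => a1' b
    rw [e1, Finset.sum_const, Finset.card_univ, Fintype.card_fin, nsmul_eq_mul] at a2'
    exact le_of_mul_le_mul_left a2' hn
  have h2 := sum_qn (S := S) (s := s1) (a := a1) w
  have h3 := sum_qn (S := S) (s := s2) (a := a2) w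
  rw [H350.mq_eq (fro_ge D.n0 w)] at h2 h3
  unfold sb
  rw [Finset.sum_add_distrib, Finset.sum_add_distrib, ← Finset.mul_sum, e1]
  have h4 : (k / β) ^ 2 * V0 * (n * (Lm + 4 * ∑ b, t b w)) ≤ V0 * (Lm + 4 * ∑ b, t b w) := by
    have hp : 0 ≤ V0 * (Lm + 4 * ∑ b, t b w) :=
      mul_nonneg hV (by have := hL.L0; linarith)
    have := mul_le_mul_of_nonneg_right hL.kb hp
    calc (k / β) ^ 2 * V0 * (n * (Lm + 4 * ∑ b, t b w)) =
        (k / β) ^ 2 * n * (V0 * (Lm + 4 * ∑ b, t b w)) := by ring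
      _ ≤ _ := this
      _ = _ := one_mul _
  linarith

include hκ

lemma mub_le (b : Fin n) (w : K4 (Pair n) → ℝ) :
    mu κ e (mb n Lm t b w) ≤ mu κ e Lm + mu κ e (8 * n) * t b w :=
  mu_lvl hκ (by have := hL.L0; linarith) hL.Ln (hL.t0 b w) (hL.t1 b w)

lemma mub_sq (b : Fin n) (w : K4 (Pair n) → ℝ) :
    mu κ e (mb n Lm t b w) ^ 2 ≤
      2 * mu κ e Lm ^ 2 + 2 * mu κ e (8 * n) ^ 2 * t b w := by
  have h1 := mub_le (e := e) D hL hκ b w
  have h0 := mu_nonneg (e := e) hκ (mb_pos D hL b w).le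
  have h2 := pow_le_pow_left₀ h0 h1 2
  have h3 := hL.t0 b w
  have h4 := hL.t1 b w
  have h5 : t b w ^ 2 ≤ t b w := by nlinarith
  have h6 := mul_le_mul_of_nonneg_left h5 (by positivity : 0 ≤ 2 * mu κ e (8 * n) ^ 2)
  nlinarith [sq_nonneg (mu κ e Lm - mu κ e (8 * n) * t b w)]

/-- a row -/
lemma gb_le (b : Fin n) (w : K4 (Pair n) → ℝ) :
    gb S s1 s2 a1 a2 β κ e V0 Lm t b w ≤ 2 * (2 + 8 * V0) ^ 2 * mu κ e Lm ^ 2 +
      2 * (2 + 8 * V0) ^ 2 * mu κ e (8 * n) ^ 2 * t b w := by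
  have h1 := mub_sq (e := e) D hL hκ b w
  have h2 := pow_le_pow_left₀ (sb_nonneg D hL b w) (sb_le D hL b w) 2
  have h3 := mul_le_mul h1 h2 (sq_nonneg _) (by
    have := hL.t0 b w
    positivity)
  unfold gb
  rw [mul_pow]
  refine h3.trans (le_of_eq ?_)
  ring

/-- the rows -/
lemma sum_gb (w : K4 (Pair n) → ℝ) :
    ∑ b, gb S s1 s2 a1 a2 β κ e V0 Lm t b w ≤
      2 * (2 + 8 * V0) ^ 2 * mu κ e Lm ^ 2 * Lm +
        10 * (2 + 8 * V0) ^ 2 * mu κ e (8 * n) ^ 2 * ∑ b, t b w := by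
  have hV := hL.V0
  set σ8 : ℝ := 2 + 8 * V0 with hσ8
  have hσ0 : 0 ≤ σ8 := by positivity
  set μ0 := mu κ e Lm with hμ0
  set μ1 := mu κ e (8 * n) with hμ1
  have hLm : 0 ≤ Lm := by have := hL.L0; linarith
  have p0 : 0 ≤ μ0 := mu_nonneg hκ hLm
  have p1 : 0 ≤ μ1 := mu_nonneg hκ (by positivity)
  have p01 : μ0 ≤ μ1 := mu_mono hκ hLm (by have := hL.Ln; linarith)
  have ht : 0 ≤ ∑ b, t b w := Finset.sum_nonneg fun b _ => hL.t0 b w
  have h1 : ∀ b, gb S s1 s2 a1 a2 β κ e V0 Lm t b w ≤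
      2 * μ0 ^ 2 * σ8 * sb S s1 s2 a1 a2 β V0 Lm t b w + 2 * μ1 ^ 2 * σ8 ^ 2 * t b w := by
    intro b
    have a1' := mub_sq (e := e) D hL hκ b w
    have a2' := sb_le D hL b w
    have a3' := sb_nonneg D hL b w
    have a4' := hL.t0 b w
    have a5' : sb S s1 s2 a1 a2 β V0 Lm t b w ^ 2 ≤ σ8 * sb S s1 s2 a1 a2 β V0 Lm t b w := by
      rw [pow_two]
      exact mul_le_mul_of_nonneg_right a2' a3'
    have a6' : sb S s1 s2 a1 a2 β V0 Lm t b w ^ 2 ≤ σ8 ^ 2 := pow_le_pow_left₀ a3' a2' 2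
    unfold gb
    rw [mul_pow]
    calc mu κ e (mb n Lm t b w) ^ 2 * sb S s1 s2 a1 a2 β V0 Lm t b w ^ 2 ≤
        (2 * μ0 ^ 2 + 2 * μ1 ^ 2 * t b w) * sb S s1 s2 a1 a2 β V0 Lm t b w ^ 2 :=
          mul_le_mul_of_nonneg_right a1' (sq_nonneg _)
      _ = 2 * μ0 ^ 2 * sb S s1 s2 a1 a2 β V0 Lm t b w ^ 2 +
          2 * μ1 ^ 2 * t b w * sb S s1 s2 a1 a2 β V0 Lm t b w ^ 2 := by ring
      _ ≤ 2 * μ0 ^ 2 * (σ8 * sb S s1 s2 a1 a2 β V0 Lm t b w) +
          2 * μ1 ^ 2 * t b w * σ8 ^ 2 :=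
          add_le_add (mul_le_mul_of_nonneg_left a5' (by positivity))
            (mul_le_mul_of_nonneg_left a6' (by positivity))
      _ = _ := by ring
  refine (Finset.sum_le_sum fun b _ => h1 b).trans ?_
  rw [Finset.sum_add_distrib, ← Finset.mul_sum, ← Finset.mul_sum]
  have h2 := mul_le_mul_of_nonneg_left (sum_sb D hL w) (by positivity : 0 ≤ 2 * μ0 ^ 2 * σ8)
  have h3 : (1 + V0) * (Lm + 4 * ∑ b, t b w) ≤ σ8 * (Lm + 4 * ∑ b, t b w) :=
    mul_le_mul_of_nonneg_right (by linarith) (by positivity)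
  have h4 := mul_le_mul_of_nonneg_left h3 (by positivity : 0 ≤ 2 * μ0 ^ 2 * σ8)
  have h5 : μ0 ^ 2 ≤ μ1 ^ 2 := pow_le_pow_left₀ p0 p01 2
  have h6 := mul_le_mul_of_nonneg_right h5 (by positivity : 0 ≤ 8 * σ8 ^ 2 * ∑ b, t b w)
  nlinarith

end rows

end Vale.Agent.P146.H508.SN
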