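import Vale.Agent.P146.H508.DeepCS
import Vale.Agent.P146.H508.Rho

/-!
Plan R2, rows F1 / F2: **means with a frozen weight or a frozen form** compared with the means with
the weight or the form itself. The difference of the deep matrices is paired with its conditional
mean (no bound of its flatness is used); the quadratic forms which appear are bounded by a level and
a rare function.
-/

open MeasureTheory ProbabilityTheory

namespace Vale.Agent.P146.H508.Deep

open Vale.Agent.P157.Lv Vale.Agent.P146.H712 Vale.Agent.P146.H191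
open Vale.Agent.P146.H508.Rho

set_option linter.unusedSectionVars false

section form

variable {ι : Type} [Fintype ι] [DecidableEq ι] {R : Finset ι} {α B : Type} [Fintype α] [Fintype B]
  {φ : (ι → ℝ) → ℝ}

/-- **The pairing with a deep matrix.** -/
theorem deep_form {Q D : B → α → (ι → ℝ) → ℝ} (hφ : EG φ)
    (hQ : ∀ b p, EG (Q b p)) (hD : ∀ b p, EG (D b p)) (hi : ∀ b p, Ind R (D b p)) :
    |∫ w, φ w * ∑ b, ∑ p, D b p w * Q b p w ∂(gI ι)| ≤
      √(∫ w, ∑ b, ∑ p, D b p w ^ 2 ∂(gI ι)) *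
      √(∫ w, φ w * ∑ b, ∑ p, Q b p w * Av R (fun w => φ w * Q b p w) w ∂(gI ι)) := by
  have eF : ∀ b p, EG fun w => φ w * Q b p w := fun b p => hφ.mul (hQ b p)
  have h1 : ∫ w, φ w * ∑ b, ∑ p, D b p w * Q b p w ∂(gI ι) =
      ∫ w, ∑ q : B × α, D q.1 q.2 w * Av R (fun w => φ w * Q q.1 q.2 w) w ∂(gI ι) := by
    have e : ∀ w, φ w * ∑ b, ∑ p, D b p w * Q b p w =
        ∑ q : B × α, D q.1 q.2 w * (φ w * Q q.1 q.2 w) := by
      intro w
      rw [Fintype.sum_prod_type, Finset.mul_sum]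
      refine Finset.sum_congr rfl fun b _ => ?_
      rw [Finset.mul_sum]
      exact Finset.sum_congr rfl fun p _ => by ring
    simp only [e]
    rw [integral_finsetSum _ fun q _ => ((hD q.1 q.2).mul (eF q.1 q.2)).integrable,
      integral_finsetSum _ fun q _ => ((hD q.1 q.2).mul (eg_Av R (eF q.1 q.2))).integrable]
    exact Finset.sum_congr rfl fun q _ => integral_weight (hD q.1 q.2) (hi q.1 q.2) (eF q.1 q.2)
  have h2 := int_cs (f := fun (q : B × α) w => D q.1 q.2 w)
    (g := fun (q : B × α) w => Av R (fun w => φ w * Q q.1 q.2 w) w)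
    (fun q => hD q.1 q.2) fun q => eg_Av R (eF q.1 q.2)
  have h3 : ∫ w, ∑ q : B × α, D q.1 q.2 w ^ 2 ∂(gI ι) =
      ∫ w, ∑ b, ∑ p, D b p w ^ 2 ∂(gI ι) := by
    simp only [Fintype.sum_prod_type]
  have h4 : ∫ w, ∑ q : B × α, Av R (fun w => φ w * Q q.1 q.2 w) w ^ 2 ∂(gI ι) =
      ∫ w, φ w * ∑ b, ∑ p, Q b p w * Av R (fun w => φ w * Q b p w) w ∂(gI ι) := by
    have e : ∀ w, φ w * ∑ b, ∑ p, Q b p w * Av R (fun w => φ w * Q b p w) w =
        ∑ q : B × α, Av R (fun w => φ w * Q q.1 q.2 w) w * (φ w * Q q.1 q.2 w) := by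
      intro w
      rw [Fintype.sum_prod_type, Finset.mul_sum]
      refine Finset.sum_congr rfl fun b _ => ?_
      rw [Finset.mul_sum]
      exact Finset.sum_congr rfl fun p _ => by ring
    simp only [e]
    rw [integral_finsetSum _ fun q _ => ((eg_Av R (eF q.1 q.2)).pow 2).integrable,
      integral_finsetSum _ fun q _ => ((eg_Av R (eF q.1 q.2)).mul (eF q.1 q.2)).integrable]
    refine Finset.sum_congr rfl fun q _ => ?_
    rw [integral_weight (eg_Av R (eF q.1 q.2)) (ind_Av R _) (eF q.1 q.2)]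
    simp only [pow_two]
  rw [h1]
  refine h2.trans (le_of_eq ?_)
  rw [h3, h4]

/-- a form with constant coefficients under the conditional mean -/
lemma Av_form (hφ : EG φ) (h0 : ∀ w, 0 ≤ φ w) {q : α → ℝ} {A P : α → (ι → ℝ) → ℝ}
    (hA : ∀ p, EG (A p)) (hP : ∀ p, EG (P p))
    (h : ∀ w', ∑ p, q p * A p w' ≤ ∑ p, q p * P p w') (z : ι → ℝ) :
    ∑ p, q p * Av R (fun w => φ w * A p w) z ≤ ∑ p, q p * Av R (fun w => φ w * P p w) z := by
  have e : ∀ {A : α → (ι → ℝ) → ℝ}, (∀ p, EG (A p)) →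
      ∑ p, q p * Av R (fun w => φ w * A p w) z =
        Av R (fun w => φ w * ∑ p, q p * A p w) z := by
    intro A hA
    have e1 : ∀ w, φ w * ∑ p, q p * A p w = ∑ p, q p * (φ w * A p w) := by
      intro w
      rw [Finset.mul_sum]
      exact Finset.sum_congr rfl fun p _ => by ring
    rw [Av_congr e1, Av_sum _ fun p _ => (hφ.mul (hA p)).const_mul _]
    exact Finset.sum_congr rfl fun p _ => (Av_const_mul _ _ _).symm
  rw [e hA, e hP]
  exact Av_mono (hφ.mul (EG.sum _ fun p _ => (hA p).const_mul _))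
    (hφ.mul (EG.sum _ fun p _ => (hP p).const_mul _))
    (fun w => mul_le_mul_of_nonneg_left (h w) (h0 w)) z

/-- **The conditional pairing of the forms, level by level.** `C` is a positive family, `τ` is rare,
`K` a crude bound. -/
theorem deep_lvl {Q : B → α → (ι → ℝ) → ℝ} {C : α → (ι → ℝ) → ℝ} {τ : (ι → ℝ) → ℝ}
    {c L K : ℝ} (hφ : EG φ) (h0 : ∀ w, 0 ≤ φ w) (h1 : ∀ w, Av R φ w ≤ 1)
    (hQ : ∀ b p, EG (Q b p)) (hC : ∀ p, EG (C p)) (hτ : EG τ) (hτ0 : ∀ w, 0 ≤ τ w)
    (hc : 0 ≤ c) (hK : 0 ≤ K)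
    (hle : ∀ b w w', ∑ p, Q b p w * Q b p w' ≤ c * ((L + τ w') * ∑ p, Q b p w * C p w'))
    (hcr : ∀ w w', ∑ b, ∑ p, Q b p w * C p w' ≤ K) :
    ∫ w, φ w * ∑ b, ∑ p, Q b p w * Av R (fun w => φ w * Q b p w) w ∂(gI ι) ≤
      c * (L * (∫ w, φ w * ∑ b, ∑ p, Q b p w * Av R (fun w => φ w * C p w) w ∂(gI ι)) +
        K * ∫ w, φ w * τ w ∂(gI ι)) := by
  have eP : ∀ p, EG fun w => c * ((L + τ w) * C p w) := fun p =>
    (((EG.const L).add hτ).mul (hC p)).const_mul c
  have e1 : ∀ b p, EG fun w => Q b p w * Av R (fun w => φ w * Q b p w) w := fun b p =>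
    (hQ b p).mul (eg_Av R (hφ.mul (hQ b p)))
  have e2 : ∀ b p, EG fun w => Q b p w * Av R (fun w => φ w * C p w) w := fun b p =>
    (hQ b p).mul (eg_Av R (hφ.mul (hC p)))
  have eA : EG fun w => Av R (fun w => φ w * τ w) w := eg_Av R (hφ.mul hτ)
  -- pointwise
  have hp : ∀ w, ∑ b, ∑ p, Q b p w * Av R (fun w => φ w * Q b p w) w ≤
      c * (L * (∑ b, ∑ p, Q b p w * Av R (fun w => φ w * C p w) w) +
        K * Av R (fun w => φ w * τ w) w) := by
    intro w
    have a1 : ∀ b, ∑ p, Q b p w * Av R (fun w => φ w * Q b p w) w ≤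
        ∑ p, Q b p w * Av R (fun w => φ w * (c * ((L + τ w) * C p w))) w := by
      intro b
      refine Av_form hφ h0 (q := fun p => Q b p w) (A := Q b)
        (P := fun p w => c * ((L + τ w) * C p w)) (hQ b) eP (fun w' => ?_) w
      refine (hle b w w').trans (le_of_eq ?_)
      rw [Finset.mul_sum, Finset.mul_sum]
      exact Finset.sum_congr rfl fun p _ => by ring
    refine (Finset.sum_le_sum fun b _ => a1 b).trans ?_
    have a2 : ∀ p, Av R (fun w => φ w * (c * ((L + τ w) * C p w))) w =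
        c * (L * Av R (fun w => φ w * C p w) w) + c * Av R (fun w => φ w * (τ w * C p w)) w := by
      intro p
      have e : ∀ w, φ w * (c * ((L + τ w) * C p w)) =
          c * (L * (φ w * C p w)) + c * (φ w * (τ w * C p w)) := fun w => by ring
      rw [Av_congr e, Av_add (((hφ.mul (hC p)).const_mul L).const_mul c)
        ((hφ.mul (hτ.mul (hC p))).const_mul c), Av_const_mul, Av_const_mul, Av_const_mul]
    have a3 : ∑ b, ∑ p, Q b p w * Av R (fun w => φ w * (τ w * C p w)) w ≤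
        K * Av R (fun w => φ w * τ w) w := by
      have e3 : ∑ b, ∑ p, Q b p w * Av R (fun w => φ w * (τ w * C p w)) w =
          Av R (fun w' => φ w' * (τ w' * ∑ b, ∑ p, Q b p w * C p w')) w := by
        have e4 : ∀ w', φ w' * (τ w' * ∑ b, ∑ p, Q b p w * C p w') =
            ∑ b, ∑ p, Q b p w * (φ w' * (τ w' * C p w')) := by
          intro w'
          rw [Finset.mul_sum, Finset.mul_sum]
          refine Finset.sum_congr rfl fun b _ => ?_
          rw [Finset.mul_sum, Finset.mul_sum]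
          exact Finset.sum_congr rfl fun p _ => by ring
        rw [Av_congr e4, Av_sum _ fun b _ => EG.sum _ fun p _ =>
          (hφ.mul (hτ.mul (hC p))).const_mul _]
        refine Finset.sum_congr rfl fun b _ => ?_
        rw [Av_sum _ fun p _ => (hφ.mul (hτ.mul (hC p))).const_mul _]
        exact Finset.sum_congr rfl fun p _ => (Av_const_mul _ _ _).symm
      rw [e3, ← Av_const_mul]
      refine Av_mono (hφ.mul (hτ.mul (EG.sum _ fun b _ => EG.sum _ fun p _ =>
        (hC p).const_mul _))) ((hφ.mul hτ).const_mul K) (fun w' => ?_) w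
      have h5 := mul_le_mul_of_nonneg_left (hcr w w') (mul_nonneg (h0 w') (hτ0 w'))
      calc φ w' * (τ w' * ∑ b, ∑ p, Q b p w * C p w') =
          φ w' * τ w' * ∑ b, ∑ p, Q b p w * C p w' := by ring
        _ ≤ φ w' * τ w' * K := h5
        _ = K * (φ w' * τ w') := by ring
    have a4 : ∑ b, ∑ p, Q b p w * Av R (fun w => φ w * (c * ((L + τ w) * C p w))) w =
        c * (L * ∑ b, ∑ p, Q b p w * Av R (fun w => φ w * C p w) w) +
          c * ∑ b, ∑ p, Q b p w * Av R (fun w => φ w * (τ w * C p w)) w := by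
      simp only [a2, Finset.mul_sum, ← Finset.sum_add_distrib]
      exact Finset.sum_congr rfl fun b _ => Finset.sum_congr rfl fun p _ => by ring
    rw [a4, mul_add c]
    exact add_le_add le_rfl (mul_le_mul_of_nonneg_left a3 hc)
  have h5 : ∫ w, φ w * ∑ b, ∑ p, Q b p w * Av R (fun w => φ w * Q b p w) w ∂(gI ι) ≤
      ∫ w, φ w * (c * (L * (∑ b, ∑ p, Q b p w * Av R (fun w => φ w * C p w) w) +
        K * Av R (fun w => φ w * τ w) w)) ∂(gI ι) :=
    integral_mono (hφ.mul (EG.sum _ fun b _ => EG.sum _ fun p _ => e1 b p)).integrable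
      (hφ.mul ((((EG.sum _ fun b _ => EG.sum _ fun p _ => e2 b p).const_mul L).add
        (eA.const_mul K)).const_mul c)).integrable
      fun w => mul_le_mul_of_nonneg_left (hp w) (h0 w)
  refine h5.trans ?_
  have e6 : ∀ w, φ w * (c * (L * (∑ b, ∑ p, Q b p w * Av R (fun w => φ w * C p w) w) +
        K * Av R (fun w => φ w * τ w) w)) =
      c * L * (φ w * ∑ b, ∑ p, Q b p w * Av R (fun w => φ w * C p w) w) +
        c * K * (Av R (fun w => φ w * τ w) w * φ w) := fun w => by ring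
  simp only [e6]
  rw [integral_add ((hφ.mul (EG.sum _ fun b _ => EG.sum _ fun p _ => e2 b p)).const_mul
    (c * L)).integrable ((eA.mul hφ).const_mul (c * K)).integrable, integral_const_mul,
    integral_const_mul, integral_weight eA (ind_Av R _) hφ]
  have h7 : ∫ w, Av R (fun w => φ w * τ w) w * Av R φ w ∂(gI ι) ≤ ∫ w, φ w * τ w ∂(gI ι) := by
    rw [← integral_Av R (hφ.mul hτ)]
    refine integral_mono (eA.mul (eg_Av R hφ)).integrable eA.integrable fun w => ?_
    exact mul_le_of_le_one_right (Av_nonneg (fun w => mul_nonneg (h0 w) (hτ0 w)) w) (h1 w)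
  have h8 := mul_le_mul_of_nonneg_left h7 (mul_nonneg hc hK)
  linarith

end form

/-! ### frozen weights -/

section weight

variable {ι : Type} [Fintype ι] [DecidableEq ι] {R : Finset ι} {n : ℕ} {φ : (ι → ℝ) → ℝ}
  {B : Type} [Fintype B]

/-- the square of the seminorm with a different matrix -/
lemma qf_two {Y M C : Fin n → Fin n → ℝ} (hY : Ps Y) (hs : ∀ i j, Y i j = Y j i) :
    qf Y M M ≤ 2 * qf Y C C +
      2 * qf Y (fun i l => C i l - M i l) (fun i l => C i l - M i l) := by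
  have h := qf_nonneg hY fun i l => C i l + (C i l - M i l)
  have e1 : qf Y (fun i l => C i l + (C i l - M i l)) (fun i l => C i l + (C i l - M i l)) =
      qf Y C C + 2 * qf Y C (fun i l => C i l - M i l) +
        qf Y (fun i l => C i l - M i l) (fun i l => C i l - M i l) := by
    rw [qf_add_left, qf_comm hs C (fun i l => C i l + (C i l - M i l)), qf_add_left,
      qf_comm hs (fun i l => C i l - M i l) (fun i l => C i l + (C i l - M i l)), qf_add_left,
      qf_comm hs (fun i l => C i l - M i l) C]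
    ring
  have e2 : qf Y M M = qf Y C C - 2 * qf Y C (fun i l => C i l - M i l) +
      qf Y (fun i l => C i l - M i l) (fun i l => C i l - M i l) := by
    have e3 : qf Y C (fun i l => C i l - M i l) = qf Y C C - qf Y C M := by
      rw [qf_comm hs, qf_sub_left, qf_comm hs M C]
    have e4 : qf Y (fun i l => C i l - M i l) (fun i l => C i l - M i l) =
        qf Y C C - 2 * qf Y C M + qf Y M M := by
      rw [qf_sub_left, e3, qf_comm hs M (fun i l => C i l - M i l), qf_sub_left]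
      ring
    rw [e3, e4]
    ring
  rw [e1] at h
  rw [e2]
  linarith

/-- the change of the deep matrix in the form of a symmetric matrix -/
lemma qf_deep {Yb Y C : Fin n → Fin n → ℝ} (hC : ∀ i l, C i l = C l i) :
    qf Yb C C = qf Y C C + ∑ i, ∑ j, (Yb i j - Y i j) * ∑ l, C i l * C l j := by
  rw [qf_symm hC, qf_symm hC, ← Finset.sum_add_distrib]
  refine Finset.sum_congr rfl fun i _ => ?_
  rw [← Finset.sum_add_distrib]
  exact Finset.sum_congr rfl fun j _ => by ring

/-- **The deep matrix frozen, the matrix itself**: weight `tr (Y_b C²)`. -/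
theorem tcb {C Y : (ι → ℝ) → Fin n → Fin n → ℝ} {Yb : B → (ι → ℝ) → Fin n → Fin n → ℝ}
    {g : B → (ι → ℝ) → ℝ} (hφ : EG φ) (h0 : ∀ w, 0 ≤ φ w)
    (hC : ∀ i l, EG fun w => C w i l) (hs : ∀ w i l, C w i l = C w l i)
    (hY : ∀ i l, EG fun w => Y w i l) (hYb : ∀ b i l, EG fun w => Yb b w i l)
    (hi : ∀ b i l, Ind R fun w => Yb b w i l - Y w i l) (hg : ∀ b, EG (g b)) :
    |∫ w, φ w * ∑ b, qf (Yb b w) (C w) (C w) * g b w ∂(gI ι) -
      ∫ w, φ w * (qf (Y w) (C w) (C w) * ∑ b, g b w) ∂(gI ι)| ≤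
      √(∫ w, ∑ b, ∑ i, ∑ j, (Yb b w i j - Y w i j) ^ 2 ∂(gI ι)) *
      √(∫ w, φ w * ∑ b, g b w ^ 2 * ∑ i, ∑ j, (∑ l, C w i l * C w l j) *
        Av R (fun w => φ w * ∑ l, C w i l * C w l j) w ∂(gI ι)) := by
  have key := deep_sq (R := R) (φ := φ) (C := C) (D := fun b w i j => Yb b w i j - Y w i j)
    (g := g) hφ h0 hC hs hg (fun b i l => (hYb b i l).sub (hY i l)) hi
  have e1 : EG fun w => φ w * ∑ b, qf (Yb b w) (C w) (C w) * g b w :=
    hφ.mul (EG.sum _ fun b _ => (eg_qf (hYb b) hC hC).mul (hg b))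
  have e2 : EG fun w => φ w * (qf (Y w) (C w) (C w) * ∑ b, g b w) :=
    hφ.mul ((eg_qf hY hC hC).mul (EG.sum _ fun b _ => hg b))
  rw [← integral_sub e1.integrable e2.integrable]
  have e3 : ∀ w, φ w * ∑ b, qf (Yb b w) (C w) (C w) * g b w -
      φ w * (qf (Y w) (C w) (C w) * ∑ b, g b w) =
      φ w * ∑ b, (∑ i, ∑ j, (Yb b w i j - Y w i j) * ∑ l, C w i l * C w l j) * g b w := by
    intro w
    rw [← mul_sub]
    congr 1
    rw [Finset.mul_sum, ← Finset.sum_sub_distrib]
    refine Finset.sum_congr rfl fun b _ => ?_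
    rw [qf_deep (Yb := Yb b w) (Y := Y w) (hs w)]
    ring
  simp only [e3]
  exact key

/-- **The frozen weight** `tr (Y_b M_b²)`, any functions `g b ≥ 0`. -/
theorem txb {C Y : (ι → ℝ) → Fin n → Fin n → ℝ} {Yb M : B → (ι → ℝ) → Fin n → Fin n → ℝ}
    {g : B → (ι → ℝ) → ℝ} (hφ : EG φ) (h0 : ∀ w, 0 ≤ φ w)
    (hC : ∀ i l, EG fun w => C w i l) (hs : ∀ w i l, C w i l = C w l i)
    (hY : ∀ i l, EG fun w => Y w i l) (hYb : ∀ b i l, EG fun w => Yb b w i l)
    (hM : ∀ b i l, EG fun w => M b w i l)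
    (hP : ∀ b w, Ps (Yb b w)) (hYs : ∀ b w i l, Yb b w i l = Yb b w l i)
    (hi : ∀ b i l, Ind R fun w => Yb b w i l - Y w i l) (hg : ∀ b, EG (g b))
    (hg0 : ∀ b w, 0 ≤ g b w) :
    ∫ w, φ w * ∑ b, qf (Yb b w) (M b w) (M b w) * g b w ∂(gI ι) ≤
      2 * (∫ w, φ w * (qf (Y w) (C w) (C w) * ∑ b, g b w) ∂(gI ι)) +
      2 * (√(∫ w, ∑ b, ∑ i, ∑ j, (Yb b w i j - Y w i j) ^ 2 ∂(gI ι)) *
      √(∫ w, φ w * ∑ b, g b w ^ 2 * ∑ i, ∑ j, (∑ l, C w i l * C w l j) *
        Av R (fun w => φ w * ∑ l, C w i l * C w l j) w ∂(gI ι))) +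
      2 * ∫ w, φ w * ∑ b, qf (Yb b w) (fun i l => C w i l - M b w i l)
        (fun i l => C w i l - M b w i l) * g b w ∂(gI ι) := by
  have key := (abs_le.1 (tcb hφ h0 hC hs hY hYb hi hg)).2
  have e1 : EG fun w => φ w * ∑ b, qf (Yb b w) (C w) (C w) * g b w :=
    hφ.mul (EG.sum _ fun b _ => (eg_qf (hYb b) hC hC).mul (hg b))
  have e2 : EG fun w => φ w * ∑ b, qf (Yb b w) (M b w) (M b w) * g b w :=
    hφ.mul (EG.sum _ fun b _ => (eg_qf (hYb b) (hM b) (hM b)).mul (hg b))
  have e3 : EG fun w => φ w * ∑ b, qf (Yb b w) (fun i l => C w i l - M b w i l)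
        (fun i l => C w i l - M b w i l) * g b w :=
    hφ.mul (EG.sum _ fun b _ => (eg_qf (hYb b) (fun i l => (hC i l).sub (hM b i l))
      (fun i l => (hC i l).sub (hM b i l))).mul (hg b))
  have h1 : ∫ w, φ w * ∑ b, qf (Yb b w) (M b w) (M b w) * g b w ∂(gI ι) ≤
      ∫ w, (2 * (φ w * ∑ b, qf (Yb b w) (C w) (C w) * g b w) +
        2 * (φ w * ∑ b, qf (Yb b w) (fun i l => C w i l - M b w i l)
        (fun i l => C w i l - M b w i l) * g b w)) ∂(gI ι) := by
    refine integral_mono e2.integrable ((e1.const_mul 2).add (e3.const_mul 2)).integrable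
      fun w => ?_
    have a1 : ∑ b, qf (Yb b w) (M b w) (M b w) * g b w ≤
        2 * ∑ b, qf (Yb b w) (C w) (C w) * g b w +
        2 * ∑ b, qf (Yb b w) (fun i l => C w i l - M b w i l)
        (fun i l => C w i l - M b w i l) * g b w := by
      rw [Finset.mul_sum, Finset.mul_sum, ← Finset.sum_add_distrib]
      refine Finset.sum_le_sum fun b _ => ?_
      refine (mul_le_mul_of_nonneg_right (qf_two (C := C w) (hP b w) (hYs b w))
        (hg0 b w)).trans (le_of_eq ?_)
      ring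
    refine (mul_le_mul_of_nonneg_left a1 (h0 w)).trans (le_of_eq ?_)
    ring
  rw [integral_add (e1.const_mul 2).integrable (e3.const_mul 2).integrable, integral_const_mul,
    integral_const_mul] at h1
  linarith

/-- **The frozen weight, level by level**: `g b ≤ G + T`, `T` rare, `K1`, `K2` crude bounds;
`Y = E[C² | deep]`. -/
theorem txb_lvl {C Y : (ι → ℝ) → Fin n → Fin n → ℝ}
    {Yb M : B → (ι → ℝ) → Fin n → Fin n → ℝ}
    {g : B → (ι → ℝ) → ℝ} {T : (ι → ℝ) → ℝ} {G K1 K2 : ℝ} (hφ : EG φ) (h0 : ∀ w, 0 ≤ φ w)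
    (hC : ∀ i l, EG fun w => C w i l) (hs : ∀ w i l, C w i l = C w l i)
    (hY : ∀ i l, EG fun w => Y w i l) (hYb : ∀ b i l, EG fun w => Yb b w i l)
    (hM : ∀ b i l, EG fun w => M b w i l)
    (hP0 : ∀ w, Ps (Y w)) (hP : ∀ b w, Ps (Yb b w)) (hYs : ∀ b w i l, Yb b w i l = Yb b w l i)
    (hi : ∀ b i l, Ind R fun w => Yb b w i l - Y w i l) (hg : ∀ b, EG (g b))
    (hg0 : ∀ b w, 0 ≤ g b w) (hT : EG T) (hT0 : ∀ w, 0 ≤ T w)
    (hgT : ∀ b w, g b w ≤ G + T w)
    (hYc : ∀ w i j, Av R (fun w => φ w * ∑ l, C w i l * C w l j) w = Y w i j)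
    (hK1 : ∀ w, qf (Y w) (C w) (C w) * ∑ b, g b w ≤ K1)
    (hK2 : ∀ w, ∑ b, qf (Yb b w) (fun i l => C w i l - M b w i l)
        (fun i l => C w i l - M b w i l) ≤ K2) :
    ∫ w, φ w * ∑ b, qf (Yb b w) (M b w) (M b w) * g b w ∂(gI ι) ≤
      2 * (∫ w, φ w * (qf (Y w) (C w) (C w) * ∑ b, g b w) ∂(gI ι)) +
      2 * (√(∫ w, ∑ b, ∑ i, ∑ j, (Yb b w i j - Y w i j) ^ 2 ∂(gI ι)) *
      √(G * (∫ w, φ w * (qf (Y w) (C w) (C w) * ∑ b, g b w) ∂(gI ι)) +
        K1 * ∫ w, φ w * T w ∂(gI ι))) +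
      2 * (G * (∫ w, φ w * ∑ b, qf (Yb b w) (fun i l => C w i l - M b w i l)
        (fun i l => C w i l - M b w i l) ∂(gI ι)) + K2 * ∫ w, φ w * T w ∂(gI ι)) := by
  refine (txb hφ h0 hC hs hY hYb hM hP hYs hi hg hg0).trans ?_
  have eq0 : EG fun w => qf (Y w) (C w) (C w) * ∑ b, g b w :=
    (eg_qf hY hC hC).mul (EG.sum _ fun b _ => hg b)
  have eD : ∀ b, EG fun w => qf (Yb b w) (fun i l => C w i l - M b w i l)
        (fun i l => C w i l - M b w i l) := fun b =>
    eg_qf (hYb b) (fun i l => (hC i l).sub (hM b i l)) (fun i l => (hC i l).sub (hM b i l))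
  have h1 : ∫ w, φ w * ∑ b, g b w ^ 2 * ∑ i, ∑ j, (∑ l, C w i l * C w l j) *
        Av R (fun w => φ w * ∑ l, C w i l * C w l j) w ∂(gI ι) ≤
      G * (∫ w, φ w * (qf (Y w) (C w) (C w) * ∑ b, g b w) ∂(gI ι)) +
        K1 * ∫ w, φ w * T w ∂(gI ι) := by
    have e : ∀ w, ∑ i, ∑ j, (∑ l, C w i l * C w l j) *
        Av R (fun w => φ w * ∑ l, C w i l * C w l j) w = qf (Y w) (C w) (C w) := by
      intro w
      rw [qf_symm (hs w)]
      refine Finset.sum_congr rfl fun i _ => Finset.sum_congr rfl fun j _ => ?_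
      rw [hYc, mul_comm]
    simp only [e]
    rw [← integral_const_mul, ← integral_const_mul,
      ← integral_add ((hφ.mul eq0).const_mul G).integrable ((hφ.mul hT).const_mul K1).integrable]
    refine integral_mono (hφ.mul (EG.sum _ fun b _ => ((hg b).pow 2).mul
      (eg_qf hY hC hC))).integrable
      (((hφ.mul eq0).const_mul G).add ((hφ.mul hT).const_mul K1)).integrable fun w => ?_
    have q0 := qf_nonneg (hP0 w) (C w)
    have a1 : ∑ b, g b w ^ 2 * qf (Y w) (C w) (C w) ≤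
        (G + T w) * (qf (Y w) (C w) (C w) * ∑ b, g b w) := by
      rw [Finset.mul_sum, Finset.mul_sum]
      refine Finset.sum_le_sum fun b _ => ?_
      have := mul_le_mul_of_nonneg_right (hgT b w) (mul_nonneg (hg0 b w) q0)
      calc g b w ^ 2 * qf (Y w) (C w) (C w) = g b w * (g b w * qf (Y w) (C w) (C w)) := by ring
        _ ≤ (G + T w) * (g b w * qf (Y w) (C w) (C w)) := this
        _ = _ := by ring
    have a2 : T w * (qf (Y w) (C w) (C w) * ∑ b, g b w) ≤ T w * K1 :=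
      mul_le_mul_of_nonneg_left (hK1 w) (hT0 w)
    have a3 : ∑ b, g b w ^ 2 * qf (Y w) (C w) (C w) ≤
        G * (qf (Y w) (C w) (C w) * ∑ b, g b w) + K1 * T w := by
      rw [add_mul] at a1
      linarith
    refine (mul_le_mul_of_nonneg_left a3 (h0 w)).trans (le_of_eq ?_)
    ring
  have h2 : ∫ w, φ w * ∑ b, qf (Yb b w) (fun i l => C w i l - M b w i l)
        (fun i l => C w i l - M b w i l) * g b w ∂(gI ι) ≤
      G * (∫ w, φ w * ∑ b, qf (Yb b w) (fun i l => C w i l - M b w i l)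
        (fun i l => C w i l - M b w i l) ∂(gI ι)) + K2 * ∫ w, φ w * T w ∂(gI ι) := by
    rw [← integral_const_mul, ← integral_const_mul,
      ← integral_add ((hφ.mul (EG.sum _ fun b _ => eD b)).const_mul G).integrable
        ((hφ.mul hT).const_mul K2).integrable]
    refine integral_mono (hφ.mul (EG.sum _ fun b _ => (eD b).mul (hg b))).integrable
      (((hφ.mul (EG.sum _ fun b _ => eD b)).const_mul G).add
        ((hφ.mul hT).const_mul K2)).integrable fun w => ?_
    have q0 : ∀ b, 0 ≤ qf (Yb b w) (fun i l => C w i l - M b w i l)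
        (fun i l => C w i l - M b w i l) := fun b => qf_nonneg (hP b w) _
    have a1 : ∑ b, qf (Yb b w) (fun i l => C w i l - M b w i l)
        (fun i l => C w i l - M b w i l) * g b w ≤
        (∑ b, qf (Yb b w) (fun i l => C w i l - M b w i l)
        (fun i l => C w i l - M b w i l)) * (G + T w) := by
      rw [Finset.sum_mul]
      exact Finset.sum_le_sum fun b _ => mul_le_mul_of_nonneg_left (hgT b w) (q0 b)
    have a2 := mul_le_mul_of_nonneg_right (hK2 w) (hT0 w)
    rw [mul_add] at a1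
    have a3 : ∑ b, qf (Yb b w) (fun i l => C w i l - M b w i l)
        (fun i l => C w i l - M b w i l) * g b w ≤
        G * (∑ b, qf (Yb b w) (fun i l => C w i l - M b w i l)
        (fun i l => C w i l - M b w i l)) + K2 * T w := by linarith
    refine (mul_le_mul_of_nonneg_left a3 (h0 w)).trans (le_of_eq ?_)
    ring
  have h3 := mul_le_mul_of_nonneg_left (Real.sqrt_le_sqrt h1)
    (Real.sqrt_nonneg (∫ w, ∑ b, ∑ i, ∑ j, (Yb b w i j - Y w i j) ^ 2 ∂(gI ι)))
  linarith

end weight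

end Vale.Agent.P146.H508.Deep
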