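import Vale.Agent.P146.H350.TchK
import Vale.Agent.P146.H508.Xb
import Vale.Agent.P146.H508.F2TN

/-!
Plan R2, rows F1 / F2: the means with a frozen weight or a frozen form in the letters of the four
layers: `tyb` (the energy of the deep matrix frozen in the rows), `col_num` (the columns), `ty_num`
(the touches in the frozen form), `tx_num` (the touches with the frozen weight).
-/

open MeasureTheory ProbabilityTheory Finset

namespace Vale.Agent.P146.H508.K4F

open Vale.Agent.P157.Lv Vale.Agent.P146.H425 Vale.Agent.P146.H325 Vale.Agent.P146.H332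
  Vale.Agent.P146.H712 Vale.Agent.P146.R1 Vale.Agent.P146.R1C Vale.Agent.P146.H706
  Vale.Agent.P146.R1S Vale.Agent.P146.H191 Vale.Agent.P146.Cum
open Vale.Agent.P146.H350 (tq)
open Vale.Agent.P146.H508.Rho (Ps)
open Vale.Agent.P146.H508.Deep

set_option linter.unusedSectionVars false

variable {n : ℕ} {k x : ℝ} {S : CS n k x} {s : ℝ} {a : Fin 4 → ℝ} {φ : (K4 (Pair n) → ℝ) → ℝ}
  {R : Finset (K4 (Pair n))} {Γ : ℝ}

lemma tq_qf (Y D : Fin n → Fin n → ℝ) : tq Y D = Rho.qf Y D D := rfl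

lemma ps_A (z : Pair n → ℝ) : Ps fun i j => S.A s z i j := by
  intro u
  have h := S.qf_A_nonneg s z u
  unfold H325.qf at h
  refine h.trans (le_of_eq ?_)
  exact Finset.sum_congr rfl fun i _ => Finset.sum_congr rfl fun j _ => by ring

lemma fr_le_sq (z : Pair n → ℝ) : fr (S.A s z) ≤ (n : ℝ) ^ 2 := by
  unfold H332.fr
  calc ∑ i, ∑ j, S.A s z i j ^ 2 ≤ ∑ _i : Fin n, ∑ _j : Fin n, (1 : ℝ) :=
        Finset.sum_le_sum fun i _ => Finset.sum_le_sum fun j _ => by
          rw [← sq_abs]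
          exact pow_le_one₀ (abs_nonneg _) (S.abs_A s z i j)
    _ = (n : ℝ) ^ 2 := by simp [pow_two]

lemma sqrt_fr_le (z : Pair n → ℝ) : √(fr (S.A s z)) ≤ n :=
  Real.sqrt_le_iff.2 ⟨Nat.cast_nonneg n, fr_le_sq z⟩

lemma pair_le (z z' : Pair n → ℝ) : ∑ i, ∑ j, S.A s z i j * S.A s z' i j ≤ (n : ℝ) ^ 2 := by
  calc ∑ i, ∑ j, S.A s z i j * S.A s z' i j ≤ ∑ _i : Fin n, ∑ _j : Fin n, (1 : ℝ) :=
        Finset.sum_le_sum fun i _ => Finset.sum_le_sum fun j _ => by
          refine (le_abs_self _).trans ?_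
          rw [abs_mul]
          exact mul_le_one₀ (S.abs_A s z i j) (abs_nonneg _) (S.abs_A s z' i j)
    _ = (n : ℝ) ^ 2 := by simp [pow_two]

lemma pair_nonneg (z z' : Pair n → ℝ) : 0 ≤ ∑ i, ∑ j, S.A s z i j * S.A s z' i j := by
  have h := mean_sPs (s := s) S (fun i j => S.A s z i j) z'
  rw [← h]
  exact Finset.sum_nonneg fun σ _ => mul_nonneg (S.mu0 s z' σ) (sPs_nonneg (ps_A z) σ)

section row

variable (S s a)

/-- The sum of the squares of the derivatives of the row `b`. -/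
noncomputable def Qr (b : Fin n) (p : Fin n × Fin n) (w : K4 (Pair n) → ℝ) : ℝ :=
  ∑ e ∈ row b, ∑ l, S.DA s e (H712.lp a w) p.1 l * S.DA s e (H712.lp a w) p.2 l

/-- Its trace. -/
noncomputable def Xr (b : Fin n) (w : K4 (Pair n) → ℝ) : ℝ :=
  ∑ e ∈ row b, fr (S.DA s e (H712.lp a w))

variable {S s a}

lemma eg_DAl (e : Pair n) (i j : Fin n) :
    EG fun w : K4 (Pair n) → ℝ => S.DA s e (H712.lp a w) i j := eg_lp a (S.eg_DA s e i j)

lemma eg_Cl (i j : Fin n) : EG fun w : K4 (Pair n) → ℝ => S.A s (H712.lp a w) i j :=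
  eg_lp a (S.eg_A s i j)

lemma eg_Qr (b : Fin n) (p : Fin n × Fin n) : EG (Qr S s a b p) :=
  EG.sum _ fun e _ => EG.sum _ fun l _ => (eg_DAl e p.1 l).mul (eg_DAl e p.2 l)

lemma eg_Xr (b : Fin n) : EG (Xr S s a b) :=
  EG.sum _ fun e _ => EG.sum _ fun i _ => EG.sum _ fun j _ => (eg_DAl e i j).pow 2

lemma Xr_nonneg (b : Fin n) (w : K4 (Pair n) → ℝ) : 0 ≤ Xr S s a b w :=
  Finset.sum_nonneg fun _ _ => H332.fr_nonneg _

lemma Qr_pair (P : Fin n → Fin n → ℝ) (b : Fin n) (w : K4 (Pair n) → ℝ) :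
    ∑ e ∈ row b, tq P (S.DA s e (H712.lp a w)) = ∑ p : Fin n × Fin n, P p.1 p.2 * Qr S s a b p w := by
  unfold H350.tq Qr
  rw [Fintype.sum_prod_type, Finset.sum_comm]
  refine Finset.sum_congr rfl fun i _ => ?_
  rw [Finset.sum_comm]
  refine Finset.sum_congr rfl fun j _ => ?_
  rw [Finset.mul_sum]

lemma ps_Qr (b : Fin n) (w : K4 (Pair n) → ℝ) : Ps fun i j => Qr S s a b (i, j) w := by
  intro u
  have e : ∑ i, ∑ j, Qr S s a b (i, j) w * (u i * u j) =
      ∑ e ∈ row b, ∑ l, (∑ i, u i * S.DA s e (H712.lp a w) i l) ^ 2 := by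
    have e1 : ∀ i j, Qr S s a b (i, j) w * (u i * u j) =
        ∑ e ∈ row b, ∑ l, (u i * S.DA s e (H712.lp a w) i l) *
          (u j * S.DA s e (H712.lp a w) j l) := by
      intro i j
      unfold Qr
      rw [Finset.sum_mul]
      refine Finset.sum_congr rfl fun e _ => ?_
      rw [Finset.sum_mul]
      exact Finset.sum_congr rfl fun l _ => by ring
    simp only [e1]
    have e2 : ∀ i, ∑ j, ∑ e ∈ row b, ∑ l, (u i * S.DA s e (H712.lp a w) i l) *
          (u j * S.DA s e (H712.lp a w) j l) = ∑ e ∈ row b, ∑ l, ∑ j,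
          (u i * S.DA s e (H712.lp a w) i l) * (u j * S.DA s e (H712.lp a w) j l) := by
      intro i
      rw [Finset.sum_comm]
      exact Finset.sum_congr rfl fun e _ => Finset.sum_comm
    simp only [e2]
    rw [Finset.sum_comm]
    refine Finset.sum_congr rfl fun e _ => ?_
    rw [Finset.sum_comm]
    refine Finset.sum_congr rfl fun l _ => ?_
    rw [pow_two, Finset.sum_mul_sum]
  rw [e]
  exact Finset.sum_nonneg fun e _ => Finset.sum_nonneg fun l _ => sq_nonneg _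

lemma Qr_comm (b : Fin n) (i j : Fin n) (w : K4 (Pair n) → ℝ) :
    Qr S s a b (i, j) w = Qr S s a b (j, i) w :=
  Finset.sum_congr rfl fun e _ => Finset.sum_congr rfl fun l _ => mul_comm _ _

lemma sum_rows2 (P : Fin n → Fin n → ℝ) (w : K4 (Pair n) → ℝ) :
    ∑ b, ∑ p : Fin n × Fin n, Qr S s a b p w * P p.1 p.2 =
      2 * ∑ e, tq P (S.DA s e (H712.lp a w)) := by
  rw [← sum_rows]
  refine Finset.sum_congr rfl fun b _ => ?_
  rw [Qr_pair]
  exact Finset.sum_congr rfl fun p _ => mul_comm _ _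

/-- **The energy with the deep matrix frozen in each row.** -/
theorem tyb (hFn : Fn k SkS (uu x s S.F) (S.mu s) Γ) (hφ : EG φ) (h0 : ∀ w, 0 ≤ φ w)
    (h1 : ∀ w, Av R φ w ≤ 1) {Y : MF n} {Yb : Fin n → MF n}
    (hY : ∀ i l, EG fun w => Y w i l) (hYb : ∀ b i l, EG fun w => Yb b w i l)
    (hi : ∀ b i l, Ind R fun w => Yb b w i l - Y w i l) {τ : (K4 (Pair n) → ℝ) → ℝ} {L : ℝ}
    (hτ : EG τ) (hτ0 : ∀ w, 0 ≤ τ w) (hL : ∀ w, √(fr (S.A s (H712.lp a w))) ≤ L + τ w) :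
    Im φ (fun w => ∑ b, ∑ e ∈ row b, tq (Yb b w) (S.DA s e (H712.lp a w))) ≤
      2 * Im φ (fun w => ∑ e, tq (Y w) (S.DA s e (H712.lp a w))) +
      √(∫ w, ∑ b, ∑ i, ∑ j, (Yb b w i j - Y w i j) ^ 2 ∂(gI (K4 (Pair n)))) *
      √(k ^ 2 * Γ ^ 2 * n * (L * (2 * Im φ (fun w => ∑ e,
          tq (fun i j => Av R (fun w => φ w * S.A s (H712.lp a w) i j) w)
            (S.DA s e (H712.lp a w)))) + k ^ 2 * Γ ^ 2 * (n : ℝ) ^ 5 * Im φ τ)) := by
  have key := deep_form (R := R) (φ := φ) (Q := fun b (p : Fin n × Fin n) => Qr S s a b p)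
    (D := fun b (p : Fin n × Fin n) w => Yb b w p.1 p.2 - Y w p.1 p.2) hφ
    (fun b p => eg_Qr b p) (fun b p => (hYb b p.1 p.2).sub (hY p.1 p.2))
    (fun b p => hi b p.1 p.2)
  have hc : 0 ≤ k ^ 2 * Γ ^ 2 * (n : ℝ) := by positivity
  have lvl := deep_lvl (R := R) (φ := φ) (Q := fun b (p : Fin n × Fin n) => Qr S s a b p)
    (C := fun (p : Fin n × Fin n) w => S.A s (H712.lp a w) p.1 p.2) (τ := τ)
    (c := k ^ 2 * Γ ^ 2 * n) (L := L) (K := k ^ 2 * Γ ^ 2 * (n : ℝ) ^ 5) hφ h0 h1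
    (fun b p => eg_Qr b p) (fun p => eg_Cl p.1 p.2) hτ hτ0 hc (by positivity)
    (fun b w w' => by
      have r1 := row_form S hFn (ps_Qr (S := S) (s := s) (a := a) b w)
        (fun i j => Qr_comm b i j w) b (H712.lp a w')
      have e1 : ∑ e ∈ row b, Rho.qf (fun i j => Qr S s a b (i, j) w) (S.DA s e (H712.lp a w'))
          (S.DA s e (H712.lp a w')) = ∑ p : Fin n × Fin n, Qr S s a b p w * Qr S s a b p w' :=
        Qr_pair (fun i j => Qr S s a b (i, j) w) b w'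
      rw [e1] at r1
      refine r1.trans ?_
      have e2 : ∑ p : Fin n × Fin n, Qr S s a b p w * S.A s (H712.lp a w') p.1 p.2 =
          ∑ i, ∑ j, Qr S s a b (i, j) w * S.A s (H712.lp a w') i j := Fintype.sum_prod_type _
      have p0 : 0 ≤ ∑ i, ∑ j, Qr S s a b (i, j) w * S.A s (H712.lp a w') i j := by
        rw [← mean_sPs]
        exact Finset.sum_nonneg fun σ _ => mul_nonneg (S.mu0 s _ σ)
          (sPs_nonneg (ps_Qr (S := S) (s := s) (a := a) b w) σ)
      rw [e2]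
      have h3 := mul_le_mul_of_nonneg_left (hL w') (mul_nonneg hc p0)
      calc k ^ 2 * Γ ^ 2 * (n * (∑ i, ∑ j, Qr S s a b (i, j) w * S.A s (H712.lp a w') i j) *
            √(fr (S.A s (H712.lp a w')))) =
          k ^ 2 * Γ ^ 2 * n * (∑ i, ∑ j, Qr S s a b (i, j) w * S.A s (H712.lp a w') i j) *
            √(fr (S.A s (H712.lp a w'))) := by ring
        _ ≤ _ := h3
        _ = _ := by ring)
    (fun w w' => by
      have e1 : ∀ b : Fin n, ∑ p : Fin n × Fin n, Qr S s a b p w * S.A s (H712.lp a w') p.1 p.2 =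
          ∑ e ∈ row b, tq (fun i j => S.A s (H712.lp a w') i j) (S.DA s e (H712.lp a w)) := by
        intro b
        rw [Qr_pair]
        exact Finset.sum_congr rfl fun p _ => mul_comm _ _
      have e2 : ∀ b : Fin n, ∑ p : Fin n × Fin n, Qr S s a b p w * S.A s (H712.lp a w') p.1 p.2 ≤
          k ^ 2 * Γ ^ 2 * (n : ℝ) ^ 4 := by
        intro b
        rw [e1]
        refine (row_form S hFn (ps_A (H712.lp a w')) (fun i j => S.A_comm s _ i j) b
          (H712.lp a w)).trans ?_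
        have a1 := pair_le (S := S) (s := s) (H712.lp a w') (H712.lp a w)
        have a2 := sqrt_fr_le (S := S) (s := s) (H712.lp a w)
        have a3 := pair_nonneg (S := S) (s := s) (H712.lp a w') (H712.lp a w)
        have a4 := mul_le_mul a1 a2 (Real.sqrt_nonneg _) (by positivity)
        have hn : (0 : ℝ) ≤ n := Nat.cast_nonneg n
        have a5 := mul_le_mul_of_nonneg_left a4 (mul_nonneg (by positivity : 0 ≤ k ^ 2 * Γ ^ 2) hn)
        refine le_trans (le_of_eq ?_) (a5.trans (le_of_eq ?_))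
        · ring
        · ring
      refine (Finset.sum_le_sum fun b _ => e2 b).trans (le_of_eq ?_)
      rw [Finset.sum_const, Finset.card_univ, Fintype.card_fin, nsmul_eq_mul]
      ring)
  -- the left side
  have eY : EG fun w => ∑ b, ∑ p : Fin n × Fin n, Qr S s a b p w * Y w p.1 p.2 :=
    EG.sum _ fun b _ => EG.sum _ fun p _ => (eg_Qr b p).mul (hY p.1 p.2)
  have eD : EG fun w => ∑ b, ∑ p : Fin n × Fin n, (Yb b w p.1 p.2 - Y w p.1 p.2) *
      Qr S s a b p w := EG.sum _ fun b _ => EG.sum _ fun p _ =>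
    ((hYb b p.1 p.2).sub (hY p.1 p.2)).mul (eg_Qr b p)
  have h2 : Im φ (fun w => ∑ b, ∑ e ∈ row b, tq (Yb b w) (S.DA s e (H712.lp a w))) =
      2 * Im φ (fun w => ∑ e, tq (Y w) (S.DA s e (H712.lp a w))) +
      Im φ (fun w => ∑ b, ∑ p : Fin n × Fin n, (Yb b w p.1 p.2 - Y w p.1 p.2) *
        Qr S s a b p w) := by
    rw [← Im_const_mul]
    have e3 : Im φ (fun w => 2 * ∑ e, tq (Y w) (S.DA s e (H712.lp a w))) =
        Im φ (fun w => ∑ b, ∑ p : Fin n × Fin n, Qr S s a b p w * Y w p.1 p.2) :=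
      Im_congr fun w => (sum_rows2 (Y w) w).symm
    rw [e3, ← Im_add hφ eY eD]
    refine Im_congr fun w => ?_
    rw [← Finset.sum_add_distrib]
    refine Finset.sum_congr rfl fun b _ => ?_
    rw [Qr_pair, ← Finset.sum_add_distrib]
    exact Finset.sum_congr rfl fun p _ => by ring
  rw [h2]
  have h3 : Im φ (fun w => ∑ b, ∑ p : Fin n × Fin n, (Yb b w p.1 p.2 - Y w p.1 p.2) *
        Qr S s a b p w) ≤ _ := (le_abs_self _).trans key
  refine add_le_add le_rfl (h3.trans ?_)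
  have e4 : ∫ w, ∑ b, ∑ p : Fin n × Fin n, (Yb b w p.1 p.2 - Y w p.1 p.2) ^ 2
      ∂(gI (K4 (Pair n))) = ∫ w, ∑ b, ∑ i, ∑ j, (Yb b w i j - Y w i j) ^ 2
      ∂(gI (K4 (Pair n))) := by
    simp only [Fintype.sum_prod_type]
  rw [e4]
  refine mul_le_mul_of_nonneg_left (Real.sqrt_le_sqrt (lvl.trans (le_of_eq ?_)))
    (Real.sqrt_nonneg _)
  have e5 : ∫ w, φ w * ∑ b, ∑ p : Fin n × Fin n, Qr S s a b p w *
      Av R (fun w => φ w * S.A s (H712.lp a w) p.1 p.2) w ∂(gI (K4 (Pair n))) =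
      2 * Im φ (fun w => ∑ e,
          tq (fun i j => Av R (fun w => φ w * S.A s (H712.lp a w) i j) w)
            (S.DA s e (H712.lp a w))) := by
    rw [← Im_const_mul]
    exact Im_congr fun w => sum_rows2
      (fun i j => Av R (fun w => φ w * S.A s (H712.lp a w) i j) w) w
  rw [e5]
  rfl

end row

/-! ### linearity of the conditional mean -/

lemma Av_lin {α : Type} [Fintype α] (hφ : EG φ) {q : α → ℝ}
    {A : α → (K4 (Pair n) → ℝ) → ℝ} (hA : ∀ p, EG (A p)) (z : K4 (Pair n) → ℝ) :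
    ∑ p, q p * Av R (fun w => φ w * A p w) z = Av R (fun w => φ w * ∑ p, q p * A p w) z := by
  have e1 : ∀ w, φ w * ∑ p, q p * A p w = ∑ p, q p * (φ w * A p w) := by
    intro w
    rw [Finset.mul_sum]
    exact Finset.sum_congr rfl fun p _ => by ring
  rw [Av_congr e1, Av_sum _ fun p _ => (hφ.mul (hA p)).const_mul _]
  exact Finset.sum_congr rfl fun p _ => (Av_const_mul _ _ _).symm

/-- **The columns in the deep matrix frozen in each row.** -/
theorem col_num (hφ : EG φ) (h0 : ∀ w, 0 ≤ φ w) {Y : MF n} {Yb : Fin n → MF n}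
    (hY : ∀ i l, EG fun w => Y w i l) (hYb : ∀ b i l, EG fun w => Yb b w i l)
    (hi : ∀ b i l, Ind R fun w => Yb b w i l - Y w i l)
    (hYc : ∀ w i j, Av R (fun w => φ w * ∑ l, S.A s (H712.lp a w) i l *
      S.A s (H712.lp a w) l j) w = Y w i j) :
    Im φ (fun w => ∑ b, ∑ i, ∑ j, Yb b w i j *
        (S.A s (H712.lp a w) i b * S.A s (H712.lp a w) j b)) ≤
      Im φ (fun w => tq (Y w) (S.A s (H712.lp a w))) +
      √(∫ w, ∑ b, ∑ i, ∑ j, (Yb b w i j - Y w i j) ^ 2 ∂(gI (K4 (Pair n)))) *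
      √(Im φ fun w => tq (Y w) (S.A s (H712.lp a w))) := by
  have eC : ∀ i j, EG fun w : K4 (Pair n) → ℝ => S.A s (H712.lp a w) i j := eg_Cl
  set Q : Fin n → (Fin n × Fin n) → (K4 (Pair n) → ℝ) → ℝ := fun b p w =>
    S.A s (H712.lp a w) p.1 b * S.A s (H712.lp a w) p.2 b with hQ
  have eQ : ∀ b p, EG (Q b p) := fun b p => (eC p.1 b).mul (eC p.2 b)
  have key := deep_form (R := R) (φ := φ) (Q := Q)
    (D := fun b (p : Fin n × Fin n) w => Yb b w p.1 p.2 - Y w p.1 p.2) hφ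
    (fun b p => eQ b p) (fun b p => (hYb b p.1 p.2).sub (hY p.1 p.2))
    (fun b p => hi b p.1 p.2)
  have eT : EG fun w => tq (Y w) (S.A s (H712.lp a w)) :=
    EG.sum _ fun i _ => EG.sum _ fun j _ => (hY i j).mul
      (EG.sum _ fun l _ => (eC i l).mul (eC j l))
  have hsym : ∀ w i l, S.A s (H712.lp a w) i l = S.A s (H712.lp a w) l i := fun w i l =>
    S.A_comm s _ i l
  have hp : ∀ w, ∑ b, ∑ p, Q b p w * Av R (fun w => φ w * Q b p w) w ≤
      tq (Y w) (S.A s (H712.lp a w)) := by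
    intro w
    have e1 : ∑ b, ∑ p, Q b p w * Av R (fun w => φ w * Q b p w) w =
        Av R (fun w' => φ w' * ∑ q : Fin n × (Fin n × Fin n), Q q.1 q.2 w * Q q.1 q.2 w') w := by
      rw [← Av_lin hφ (fun q : Fin n × (Fin n × Fin n) => eQ q.1 q.2), Fintype.sum_prod_type]
    have eS : ∀ p : Fin n × Fin n, EG fun w => sq (S.A s (H712.lp a w)) p := fun p =>
      EG.sum _ fun l _ => (eC p.1 l).mul (eC l p.2)
    have e2 : tq (Y w) (S.A s (H712.lp a w)) = Av R (fun w' => φ w' *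
        ∑ p : Fin n × Fin n, sq (S.A s (H712.lp a w)) p * sq (S.A s (H712.lp a w')) p) w := by
      rw [← Av_lin (A := fun p w => sq (S.A s (H712.lp a w)) p) hφ eS,
        Fintype.sum_prod_type]
      unfold H350.tq
      refine Finset.sum_congr rfl fun i _ => Finset.sum_congr rfl fun j _ => ?_
      have e3 : Av R (fun w => φ w * sq (S.A s (H712.lp a w)) (i, j)) w = Y w i j := hYc w i j
      rw [e3, mul_comm]
      congr 1
      unfold Deep.sq
      exact Finset.sum_congr rfl fun l _ => by rw [hsym w j l]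
    rw [e1, e2]
    refine Av_mono (hφ.mul (EG.sum _ fun q _ => (eQ q.1 q.2).const_mul _))
      (hφ.mul (EG.sum _ fun p _ => (eS p).const_mul _)) (fun w' => ?_) w
    refine mul_le_mul_of_nonneg_left ?_ (h0 w')
    rw [sq_pair (hsym w) (hsym w'), Fintype.sum_prod_type]
    refine Finset.sum_le_sum fun b _ => ?_
    have e4 : ∑ p : Fin n × Fin n, Q b p w * Q b p w' =
        (∑ i, S.A s (H712.lp a w) b i * S.A s (H712.lp a w') i b) ^ 2 := by
      rw [Fintype.sum_prod_type, pow_two, Finset.sum_mul_sum]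
      refine Finset.sum_congr rfl fun i _ => Finset.sum_congr rfl fun j _ => ?_
      simp only [hQ]
      rw [hsym w i b, hsym w j b]
      ring
    rw [e4]
    exact Finset.single_le_sum
      (f := fun m => (∑ i, S.A s (H712.lp a w) b i * S.A s (H712.lp a w') i m) ^ 2)
      (fun m _ => sq_nonneg _) (Finset.mem_univ b)
  have eY : EG fun w => ∑ b, ∑ p, Q b p w * Y w p.1 p.2 :=
    EG.sum _ fun b _ => EG.sum _ fun p _ => (eQ b p).mul (hY p.1 p.2)
  have eD : EG fun w => ∑ b, ∑ p : Fin n × Fin n, (Yb b w p.1 p.2 - Y w p.1 p.2) *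
      Q b p w := EG.sum _ fun b _ => EG.sum _ fun p _ =>
    ((hYb b p.1 p.2).sub (hY p.1 p.2)).mul (eQ b p)
  have h2 : Im φ (fun w => ∑ b, ∑ i, ∑ j, Yb b w i j *
        (S.A s (H712.lp a w) i b * S.A s (H712.lp a w) j b)) =
      Im φ (fun w => tq (Y w) (S.A s (H712.lp a w))) +
      Im φ (fun w => ∑ b, ∑ p : Fin n × Fin n, (Yb b w p.1 p.2 - Y w p.1 p.2) * Q b p w) := by
    have e3 : Im φ (fun w => tq (Y w) (S.A s (H712.lp a w))) =
        Im φ (fun w => ∑ b, ∑ p, Q b p w * Y w p.1 p.2) := by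
      refine Im_congr fun w => ?_
      unfold H350.tq
      simp only [Fintype.sum_prod_type, hQ]
      rw [Finset.sum_comm]
      rw [Finset.sum_comm]
      have e5 : ∀ i j : Fin n, Y w i j * ∑ l, S.A s (H712.lp a w) i l * S.A s (H712.lp a w) j l =
          ∑ l, S.A s (H712.lp a w) i l * S.A s (H712.lp a w) j l * Y w i j := by
        intro i j
        rw [Finset.mul_sum]
        exact Finset.sum_congr rfl fun l _ => by ring
      simp only [e5]
      have e6 : ∀ i : Fin n, ∑ j, ∑ l, S.A s (H712.lp a w) i l * S.A s (H712.lp a w) j l *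
          Y w i j = ∑ l, ∑ j, S.A s (H712.lp a w) i l * S.A s (H712.lp a w) j l * Y w i j :=
        fun i => Finset.sum_comm
      simp only [e6]
      rw [Finset.sum_comm]
    rw [e3, ← Im_add hφ eY eD]
    refine Im_congr fun w => ?_
    rw [← Finset.sum_add_distrib]
    refine Finset.sum_congr rfl fun b _ => ?_
    rw [← Finset.sum_add_distrib, Fintype.sum_prod_type]
    refine Finset.sum_congr rfl fun i _ => Finset.sum_congr rfl fun j _ => ?_
    simp only [hQ]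
    ring
  rw [h2]
  have h3 : Im φ (fun w => ∑ b, ∑ p : Fin n × Fin n, (Yb b w p.1 p.2 - Y w p.1 p.2) *
        Q b p w) ≤ _ := (le_abs_self _).trans key
  refine add_le_add le_rfl (h3.trans ?_)
  have e4 : ∫ w, ∑ b, ∑ p : Fin n × Fin n, (Yb b w p.1 p.2 - Y w p.1 p.2) ^ 2
      ∂(gI (K4 (Pair n))) = ∫ w, ∑ b, ∑ i, ∑ j, (Yb b w i j - Y w i j) ^ 2
      ∂(gI (K4 (Pair n))) := by
    simp only [Fintype.sum_prod_type]
  rw [e4]
  refine mul_le_mul_of_nonneg_left (Real.sqrt_le_sqrt ?_) (Real.sqrt_nonneg _)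
  exact integral_mono (hφ.mul (EG.sum _ fun b _ => EG.sum _ fun p _ =>
    (eQ b p).mul (eg_Av R (hφ.mul (eQ b p))))).integrable (hφ.mul eT).integrable
    fun w => mul_le_mul_of_nonneg_left (hp w) (h0 w)

/-! ### the touches -/

section touch

variable {Ψ : (K4 (Pair n) → ℝ) → ℝ} {Ψ' : K4 (Pair n) → (K4 (Pair n) → ℝ) → ℝ} {l : ℝ}

/-- **The touches in the frozen form**, summed over the rows. -/
theorem ty_num (h : ∀ b : Fin n, LF (lf (row b)) Ψ Ψ' l) (hl : 16 * l ^ 2 ≤ 1)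
    (hφe : ∀ w, φ w = Real.exp (Ψ w)) (hφ : EG φ) {Yb : Fin n → MF n}
    (hYb : ∀ b i l, EG fun w => Yb b w i l) (hYi : ∀ b, Ifz b (Yb b))
    (hYs : ∀ b w i j, Yb b w i j = Yb b w j i)
    (hP : ∀ b w, Ps (Yb b w)) (hr : ∀ b w i, Yb b w i b = 0) :
    Im φ (fun w => ∑ b, tq (Yb b w) fun i l => S.A s (H712.lp a w) i l -
        H364.Cb S s a b w i l) ≤
      9 * vr a * Im φ (fun w => ∑ b, ∑ e ∈ row b, tq (Yb b w) (S.DA s e (H712.lp a w))) +
      Im φ (fun w => ∑ b, ∑ i, ∑ j, Yb b w i j *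
        (S.A s (H712.lp a w) i b * S.A s (H712.lp a w) j b)) := by
  have e1 : ∀ b, EG fun w => tq (Yb b w) fun i l => S.A s (H712.lp a w) i l -
      H364.Cb S s a b w i l := fun b => EG.sum _ fun i _ => EG.sum _ fun j _ =>
    (hYb b i j).mul (EG.sum _ fun l _ => ((eg_Cl i l).sub (H364.eg_Cb i l)).mul
      ((eg_Cl j l).sub (H364.eg_Cb j l)))
  have e2 : ∀ b, EG fun w => ∑ e ∈ row b, tq (Yb b w) (S.DA s e (H712.lp a w)) := fun b =>
    EG.sum _ fun e _ => EG.sum _ fun i _ => EG.sum _ fun j _ => (hYb b i j).mul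
      (EG.sum _ fun l _ => (eg_DAl e i l).mul (eg_DAl e j l))
  have e3 : ∀ b, EG fun w => ∑ i, ∑ j, Yb b w i j *
        (S.A s (H712.lp a w) i b * S.A s (H712.lp a w) j b) := fun b =>
    EG.sum _ fun i _ => EG.sum _ fun j _ => (hYb b i j).mul ((eg_Cl i b).mul (eg_Cl j b))
  rw [Im_sum hφ _ fun b _ => e1 b, Im_sum hφ _ fun b _ => e2 b, Im_sum hφ _ fun b _ => e3 b,
    Finset.mul_sum, ← Finset.sum_add_distrib]
  refine Finset.sum_le_sum fun b _ => ?_
  exact H350.tch_CbY (h b) hl hφe (hYb b) (hYi b) (hYs b)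
    (fun w v => (hP b w v).trans (le_of_eq (Finset.sum_congr rfl fun i _ =>
      Finset.sum_congr rfl fun j _ => by ring))) (hr b)

/-- **The touches with a frozen weight**, summed over the rows. -/
theorem tx_sum (h : ∀ b : Fin n, LF (lf (row b)) Ψ Ψ' l) (hl : 16 * l ^ 2 ≤ 1)
    (hφe : ∀ w, φ w = Real.exp (Ψ w)) (hφ : EG φ) {χ : Fin n → (K4 (Pair n) → ℝ) → ℝ}
    (hχ : ∀ b, EG (χ b)) (iχ : ∀ b, Ind (lf (row b)) (χ b)) (h0 : ∀ b w, 0 ≤ χ b w) :
    Im φ (fun w => ∑ b, χ b w * ∑ i, ∑ l, (S.A s (H712.lp a w) i l -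
        H364.Cb S s a b w i l) ^ 2) ≤
      9 * vr a * Im φ (fun w => ∑ b, χ b w * Xr S s a b w) +
      2 * Im φ (fun w => ∑ b, χ b w * ∑ i, S.A s (H712.lp a w) i b ^ 2) := by
  have e1 : ∀ b, EG fun w => χ b w * ∑ i, ∑ l, (S.A s (H712.lp a w) i l -
        H364.Cb S s a b w i l) ^ 2 := fun b => (hχ b).mul (EG.sum _ fun i _ =>
    EG.sum _ fun l _ => ((eg_Cl i l).sub (H364.eg_Cb i l)).pow 2)
  have e2 : ∀ b, EG fun w => χ b w * Xr S s a b w := fun b => (hχ b).mul (eg_Xr b)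
  have e3 : ∀ b, EG fun w => χ b w * ∑ i, S.A s (H712.lp a w) i b ^ 2 := fun b =>
    (hχ b).mul (EG.sum _ fun i _ => (eg_Cl i b).pow 2)
  rw [Im_sum hφ _ fun b _ => e1 b, Im_sum hφ _ fun b _ => e2 b, Im_sum hφ _ fun b _ => e3 b,
    Finset.mul_sum, Finset.mul_sum, ← Finset.sum_add_distrib]
  exact Finset.sum_le_sum fun b _ => H350.tch_Cb (h b) hl hφe (hχ b) (iχ b) (h0 b)

end touch

end Vale.Agent.P146.H508.K4F
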