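import Vale.Agent.P146.H508.E1Alg
import Vale.Agent.P146.H508.F2K4

/-!
Plan R2, row F2: **the error of unfreezing of the two-time inequality in numbers** (`e1_sum`): the
product weight `tr (Y C1²) G h`, the frozen matrices `Cb`, any deep matrices `Y_b`.
-/

open MeasureTheory ProbabilityTheory Finset

namespace Vale.Agent.P146.H508.E1

open Vale.Agent.P157.Lv Vale.Agent.P146.H425 Vale.Agent.P146.H325 Vale.Agent.P146.H332
  Vale.Agent.P146.H712 Vale.Agent.P146.R1 Vale.Agent.P146.R1C Vale.Agent.P146.H706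
  Vale.Agent.P146.R1S Vale.Agent.P146.H191
open Vale.Agent.P146.H350 (mv dt cv wq gq mq)
open Vale.Agent.P146.H561 (n3row m3row f2_krow)
open Vale.Agent.P146.H581.CH
open Vale.Agent.P146.H508.E1A

set_option linter.unusedSectionVars false

variable {n : ℕ} {k x : ℝ}

section def'

variable (S : CS n k x) (s : ℝ) (a : Fin 4 → ℝ)

/-- the matrix as a function of the coordinates -/
noncomputable abbrev Cf (S : CS n k x) (s : ℝ) (a : Fin 4 → ℝ) : MF n := fun w i j =>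
  S.A s (H712.lp a w) i j

/-- The normalised square of the column. -/
noncomputable def qn (b : Fin n) (w : K4 (Pair n) → ℝ) : ℝ :=
  (∑ i, Cf S s a w i b ^ 2) / mq (Cf S s a w)

/-- The distance of the matrix and the frozen matrix. -/
noncomputable def dn (b : Fin n) (w : K4 (Pair n) → ℝ) : ℝ :=
  fro fun i l => Cf S s a w i l - H364.Cb S s a b w i l

end def'

variable {S : CS n k x} {s s1 s2 β : ℝ} {a a1 a2 : Fin 4 → ℝ}
  {φ : (K4 (Pair n) → ℝ) → ℝ} {ψ' : K4 (Pair n) → (K4 (Pair n) → ℝ) → ℝ} {κ e V0 : ℝ}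

lemma eg_Cf (i j : Fin n) : EG fun w => Cf S s a w i j := K4F.eg_Cl i j

lemma fro_Cf (w : K4 (Pair n) → ℝ) : fro (Cf S s a w) = √(fr (S.A s (H712.lp a w))) := rfl

lemma fro_ge (hn : 0 < n) (w : K4 (Pair n) → ℝ) : 1 ≤ fro (Cf S s a w) :=
  H350.one_le_fro hn fun i => S.A_self s _ i

lemma fro_le (w : K4 (Pair n) → ℝ) : fro (Cf S s a w) ≤ n := K4F.sqrt_fr_le _

lemma col_le (b : Fin n) (w : K4 (Pair n) → ℝ) :
    ∑ i, Cf S s a w i b ^ 2 ≤ fro (Cf S s a w) := by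
  have h := S.vn_col_le s b (H712.lp a w)
  exact Real.le_sqrt_of_sq_le h

lemma qn_nonneg (b : Fin n) (w : K4 (Pair n) → ℝ) : 0 ≤ qn S s a b w :=
  div_nonneg (Finset.sum_nonneg fun _ _ => sq_nonneg _) (H350.mq_pos _).le

lemma qn_le (b : Fin n) (w : K4 (Pair n) → ℝ) : qn S s a b w ≤ 1 := by
  unfold qn
  rw [div_le_one (H350.mq_pos _)]
  exact (col_le b w).trans (H350.fro_le_mq _)

lemma sum_qn (w : K4 (Pair n) → ℝ) : ∑ b, qn S s a b w ≤ mq (Cf S s a w) := by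
  unfold qn
  rw [← Finset.sum_div, div_le_iff₀ (H350.mq_pos _)]
  have e : ∑ b, ∑ i, Cf S s a w i b ^ 2 = fro (Cf S s a w) ^ 2 := by
    rw [fro_sq, Finset.sum_comm]
  rw [e, pow_two]
  exact mul_le_mul (H350.fro_le_mq _) (H350.fro_le_mq _) (fro_nonneg _) (H350.mq_pos _).le

lemma eg_qn (b : Fin n) : EG (qn S s a b) := by
  refine EG.of_bdd (C := 1) ?_ fun w => ?_
  · have h1 : EG fun w => ∑ i, Cf S s a w i b ^ 2 := EG.sum _ fun i _ => (eg_Cf i b).pow 2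
    have h2 : EG fun w => fro (Cf S s a w) := eg_fro fun i j => eg_Cf i j
    exact h1.meas.div (h2.meas.max measurable_const)
  · rw [abs_of_nonneg (qn_nonneg b w)]
    exact qn_le b w

lemma ven_Uv (hn : 0 < n) (b : Fin n) (w : K4 (Pair n) → ℝ) :
    ven (Uv S s a b w) ^ 2 ≤ qn S s a b w * fro (Cf S s a w) := by
  rw [ven_sq]
  have h1 : ∑ i, Uv S s a b w i ^ 2 ≤ ∑ i, Cf S s a w i b ^ 2 := by
    refine Finset.sum_le_sum fun i _ => ?_
    unfold Uv Uz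
    by_cases h : i = b
    · rw [if_pos h]
      simp only [ne_eq, OfNat.ofNat_ne_zero, not_false_eq_true, zero_pow]
      exact sq_nonneg _
    · rw [if_neg h]
  refine h1.trans (le_of_eq ?_)
  unfold qn
  rw [H350.mq_eq (fro_ge hn w), div_mul_cancel₀ _ (by have := fro_ge (S := S) (s := s) (a := a) hn w; positivity)]

lemma eg_dn (b : Fin n) : EG (dn S s a b) :=
  eg_fro fun i l => (eg_Cf i l).sub (H364.eg_Cb i l)

lemma dn_nonneg (b : Fin n) (w : K4 (Pair n) → ℝ) : 0 ≤ dn S s a b w := fro_nonneg _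

/-- weighted Cauchy-Schwarz, sums over the rows -/
lemma Im_cs {B : Type} [Fintype B] (hφ : EG φ) (h0 : ∀ w, 0 ≤ φ w)
    {f g : B → (K4 (Pair n) → ℝ) → ℝ} (hf : ∀ b, EG (f b)) (hg : ∀ b, EG (g b)) :
    Im φ (fun w => ∑ b, f b w * g b w) ≤
      √(Im φ fun w => ∑ b, f b w ^ 2) * √(Im φ fun w => ∑ b, g b w ^ 2) := by
  have hs : EG fun w => √(φ w) := eg_sqrt hφ
  have key := Deep.int_cs (f := fun b w => √(φ w) * f b w) (g := fun b w => √(φ w) * g b w)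
    (fun b => hs.mul (hf b)) fun b => hs.mul (hg b)
  have e0 : ∀ w, √(φ w) * √(φ w) = φ w := fun w => Real.mul_self_sqrt (h0 w)
  have e1 : ∀ w, ∑ b, √(φ w) * f b w * (√(φ w) * g b w) = φ w * ∑ b, f b w * g b w := by
    intro w
    rw [Finset.mul_sum]
    exact Finset.sum_congr rfl fun b _ => by linear_combination (f b w * g b w) * e0 w
  have e2 : ∀ (u : B → (K4 (Pair n) → ℝ) → ℝ) w, ∑ b, (√(φ w) * u b w) ^ 2 =
      φ w * ∑ b, u b w ^ 2 := by
    intro u w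
    rw [Finset.mul_sum]
    exact Finset.sum_congr rfl fun b _ => by linear_combination (u b w ^ 2) * e0 w
  simp only [e1, e2 f, e2 g] at key
  exact (le_abs_self _).trans key

/-- **(E1) the error of unfreezing.** -/
theorem e1_sum (hn : 0 < n) (hs1 : 0 < s1) (hs2 : 0 < s2) (hv : 0 < vr a2) (hv1 : vr a1 ≤ vr a2)
    (hc : cv a1 a2 = vr a1) (hd : Den φ ψ') (hφ : ∀ w, 0 ≤ φ w) (hκ : 0 < κ) (hκ1 : κ ≤ 1)
    (he : 0 < e) {R : Finset (K4 (Pair n))} {Y : MF n} {Yb : Fin n → MF n}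
    (hY : ∀ i l, EG fun w => Y w i l) (hYb : ∀ b i l, EG fun w => Yb b w i l)
    (hi : ∀ b i l, Ind R fun w => Yb b w i l - Y w i l) (hYi : ∀ b, Ifz b (Yb b))
    (hYs : ∀ b w i j, Yb b w i j = Yb b w j i)
    (hYp : ∀ b w, ∀ v : Fin n → ℝ, 0 ≤ ∑ i, ∑ j, Yb b w i j * (v i * v j))
    {m : Fin n → (K4 (Pair n) → ℝ) → ℝ} (hm : ∀ b, EG (m b)) (hm0 : ∀ b w, 0 < m b w)
    (hmm : ∀ b w, fro (Cf S s1 a1 w) + fro (H364.Cb S s1 a1 b w) +
      (fro (Cf S s2 a2 w) + fro (H364.Cb S s2 a2 b w)) ≤ m b w)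
    (hV : 0 ≤ V0) (hV1 : ∀ b w, ven (dv a1 ψ' b w) ^ 2 ≤ V0)
    (hV2 : ∀ b w, ven (dv a2 ψ' b w) ^ 2 ≤ V0)
    {σ : Fin n → (K4 (Pair n) → ℝ) → ℝ}
    (hσ : ∀ b w, σ b w = qn S s1 a1 b w + qn S s2 a2 b w + (k / β) ^ 2 * V0 * m b w) :
    |∑ b, Im φ (n3row S s1 s2 β (vr a1 / vr a2) a1 a2 ψ' b
        (chh κ e (Yb b) (H364.Cb S s1 a1 b) (H364.Cb S s2 a2 b))
        (H364.Cb S s1 a1 b) (H364.Cb S s2 a2 b)) -
      Im φ (fun w => chh κ e Y (Cf S s1 a1) (Cf S s2 a2) w *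
        ∑ b, m3 S s1 s2 β (vr a1 / vr a2) a1 a2 ψ' b (Cf S s1 a1) (Cf S s2 a2) w)| ≤
      6 / (κ * e ^ 2) * (
        √(Im φ fun w => ∑ b, (mu κ e (m b w) * σ b w) ^ 2 *
          (wq (Yb b w) (H364.Cb S s1 a1 b w) + wq (Yb b w) (Cf S s1 a1 w))) *
        √(2 * (Im φ fun w => ∑ b, (dn S s1 a1 b w + dn S s2 a2 b w) ^ 2 *
            (wq (Yb b w) (H364.Cb S s1 a1 b w) + wq (Yb b w) (Cf S s1 a1 w))) +
          2 * (e * Im φ fun w => ∑ b, wq (Yb b w) fun i l =>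
            H364.Cb S s1 a1 b w i l - Cf S s1 a1 w i l)) +
        √(e * ∫ w, ∑ b, ∑ i, ∑ j, (Yb b w i j - Y w i j) ^ 2 ∂(gI (K4 (Pair n)))) *
        √(Im φ fun w => ∑ b, (mu κ e (m b w) * σ b w) ^ 2 *
          ∑ i, ∑ j, (∑ l, Cf S s1 a1 w i l * Cf S s1 a1 w l j) *
            Av R (fun w => φ w * ∑ l, Cf S s1 a1 w i l * Cf S s1 a1 w l j) w)) := by
  set M1 : Fin n → MF n := fun b => H364.Cb S s1 a1 b with hM1d
  set M2 : Fin n → MF n := fun b => H364.Cb S s2 a2 b with hM2d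
  set C1 : MF n := Cf S s1 a1 with hC1d
  set C2 : MF n := Cf S s2 a2 with hC2d
  have eC1 : ∀ i l, EG fun w => C1 w i l := eg_Cf
  have eC2 : ∀ i l, EG fun w => C2 w i l := eg_Cf
  have eM1 : ∀ b i l, EG fun w => M1 b w i l := fun b i l => H364.eg_Cb i l
  have eM2 : ∀ b i l, EG fun w => M2 b w i l := fun b i l => H364.eg_Cb i l
  have i1 : ∀ b, Ifz b (M1 b) := fun b i l => H364.ind_Cb i l
  have i2 : ∀ b, Ifz b (M2 b) := fun b i l => H364.ind_Cb i l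
  have sC1 : ∀ w i l, C1 w i l = C1 w l i := fun w i l => S.A_comm s1 _ i l
  have sM1 : ∀ b w i l, M1 b w i l = M1 b w l i := fun b w i l => H364.Cb_comm w i l
  have key := f3_sumY (S := S) (β := β) (R := R) (φ := φ) (ψ' := ψ') (C1 := C1) (C2 := C2)
    (M1 := M1) (M2 := M2) (χ := chh κ e Y C1 C2)
    (χb := fun b => chh κ e (Yb b) (M1 b) (M2 b)) (D := fun b w i j => Yb b w i j - Y w i j)
    (hw := fun w => gh κ e (C1 w) (C2 w))
    (ρ := fun b w => rhoh κ e (Yb b w) (M1 b w) (M2 b w) (C1 w) (C2 w))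
    hs1 hs2 hv hv1 hc hd hφ eC1 eC2 (fun b => H364.frz_Cb) (fun b => H364.frz_Cb)
    (fun b w i => H364.Cb_col w i) (fun b w i => H364.Cb_col w i)
    (eg_chh hκ he hY eC1 eC2) (fun b => eg_chh hκ he (hYb b) (eM1 b) (eM2 b))
    (fun b => fr_chh (hYi b) (i1 b) (i2 b)) sC1
    (fun b i l => (hYb b i l).sub (hY i l)) hi (eg_gh hκ he eC1 eC2)
    (fun b => eg_rhoh hκ he (hYb b) (eM1 b) (eM2 b) eC1 eC2)
    (fun b w => chh_split κ e (Yb b) Y (M1 b) (M2 b) C1 C2 w)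
  refine key.trans ?_
  have eσ : ∀ b, EG (σ b) := by
    intro b
    have h1 : EG fun w => qn S s1 a1 b w + qn S s2 a2 b w + (k / β) ^ 2 * V0 * m b w :=
      ((eg_qn b).add (eg_qn b)).add ((hm b).const_mul _)
    exact (funext (hσ b) : σ b = _) ▸ h1
  have p1 : ∀ b w, 0 ≤ σ b w := fun b w => by
    rw [hσ]
    have := qn_nonneg (S := S) (s := s1) (a := a1) b w
    have := qn_nonneg (S := S) (s := s2) (a := a2) b w
    have := (hm0 b w).le
    positivity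
  have eμ : ∀ b, EG fun w => mu κ e (m b w) := fun b =>
    ((hm b).pow 2).mul ((EG.const _).add ((hm b).mul (EG.const (√e)⁻¹)))
  have eG : ∀ b, EG fun w => mu κ e (m b w) * σ b w := fun b => (eμ b).mul (eσ b)
  have ewM : ∀ b, EG fun w => wq (Yb b w) (M1 b w) := fun b => H350.eg_wq (hYb b) (eM1 b)
  have ewC : ∀ b, EG fun w => wq (Yb b w) (C1 w) := fun b => H350.eg_wq (hYb b) eC1
  have ewD : ∀ b, EG fun w => wq (Yb b w) fun i l => M1 b w i l - C1 w i l := fun b =>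
    H350.eg_wq (hYb b) fun i l => (eM1 b i l).sub (eC1 i l)
  have pM : ∀ b w, 0 ≤ wq (Yb b w) (M1 b w) := fun b w => H350.wq_nonneg (hYp b w) (sM1 b w)
  have pC : ∀ b w, 0 ≤ wq (Yb b w) (C1 w) := fun b w => H350.wq_nonneg (hYp b w) (sC1 w)
  have pD : ∀ b w, 0 ≤ wq (Yb b w) fun i l => M1 b w i l - C1 w i l := fun b w =>
    H350.wq_nonneg (hYp b w) fun i l => by rw [sM1 b w i l, sC1 w i l]
  have K0 : 0 < 6 / (κ * e ^ 2) := by positivity
  -- first part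
  have hA : Im φ (fun w => ∑ b, (|chh κ e (Yb b) (M1 b) (M2 b) w| *
        e3 S s1 s2 β a1 a2 ψ' b C1 C2 (M1 b) (M2 b) w +
        |rhoh κ e (Yb b w) (M1 b w) (M2 b w) (C1 w) (C2 w)| *
          z3 S s1 s2 β a1 a2 ψ' b C1 C2 w)) ≤
      6 / (κ * e ^ 2) * (√(Im φ fun w => ∑ b, (mu κ e (m b w) * σ b w) ^ 2 *
          (wq (Yb b w) (M1 b w) + wq (Yb b w) (C1 w))) *
        √(2 * (Im φ fun w => ∑ b, (dn S s1 a1 b w + dn S s2 a2 b w) ^ 2 *
            (wq (Yb b w) (M1 b w) + wq (Yb b w) (C1 w))) +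
          2 * (e * Im φ fun w => ∑ b, wq (Yb b w) fun i l => M1 b w i l - C1 w i l))) := by
    have eF : ∀ b, EG fun w => mu κ e (m b w) * σ b w * √(wq (Yb b w) (M1 b w) +
        wq (Yb b w) (C1 w)) := fun b => (eG b).mul (eg_sqrt ((ewM b).add (ewC b)))
    have eH : ∀ b, EG fun w => (dn S s1 a1 b w + dn S s2 a2 b w) *
        √(wq (Yb b w) (M1 b w) + wq (Yb b w) (C1 w)) +
        √e * √(wq (Yb b w) fun i l => M1 b w i l - C1 w i l) := fun b =>
      (((eg_dn b).add (eg_dn b)).mul (eg_sqrt ((ewM b).add (ewC b)))).add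
        ((eg_sqrt (ewD b)).const_mul _)
    have e3' : ∀ b, EG fun w => |chh κ e (Yb b) (M1 b) (M2 b) w| *
        e3 S s1 s2 β a1 a2 ψ' b C1 C2 (M1 b) (M2 b) w := fun b =>
      (eg_abs (eg_chh hκ he (hYb b) (eM1 b) (eM2 b))).mul (eg_e3 hd eC1 eC2 (eM1 b) (eM2 b))
    have e4' : ∀ b, EG fun w => |rhoh κ e (Yb b w) (M1 b w) (M2 b w) (C1 w) (C2 w)| *
          z3 S s1 s2 β a1 a2 ψ' b C1 C2 w := fun b =>
      (eg_abs (eg_rhoh hκ he (hYb b) (eM1 b) (eM2 b) eC1 eC2)).mul (eg_z3 hd eC1 eC2)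
    have h1 : Im φ (fun w => ∑ b, (|chh κ e (Yb b) (M1 b) (M2 b) w| *
        e3 S s1 s2 β a1 a2 ψ' b C1 C2 (M1 b) (M2 b) w +
        |rhoh κ e (Yb b w) (M1 b w) (M2 b w) (C1 w) (C2 w)| *
          z3 S s1 s2 β a1 a2 ψ' b C1 C2 w)) ≤
        Im φ (fun w => 6 / (κ * e ^ 2) * ∑ b, (mu κ e (m b w) * σ b w *
          √(wq (Yb b w) (M1 b w) + wq (Yb b w) (C1 w))) *
          ((dn S s1 a1 b w + dn S s2 a2 b w) *
        √(wq (Yb b w) (M1 b w) + wq (Yb b w) (C1 w)) +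
        √e * √(wq (Yb b w) fun i l => M1 b w i l - C1 w i l))) := by
      refine Im_mono hφ hd.eg (EG.sum _ fun b _ => (e3' b).add (e4' b))
        ((EG.sum _ fun b _ => (eF b).mul (eH b)).const_mul _) fun w => ?_
      rw [Finset.mul_sum]
      refine Finset.sum_le_sum fun b _ => ?_
      have pt := row_pt (κ := κ) (e := e) (c := k / β) (m := m b w) (V0 := V0)
        (q1 := qn S s1 a1 b w) (q2 := qn S s2 a2 b w) (u1 := ven (Uv S s1 a1 b w))
        (u2 := ven (Uv S s2 a2 b w)) (v1 := ven (dv a1 ψ' b w)) (v2 := ven (dv a2 ψ' b w))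
        (Y := Yb b w) (M1 := M1 b w) (M2 := M2 b w) (C1 := C1 w) (C2 := C2 w) hκ hκ1 he
        (hYs b w) (hYp b w) (sM1 b w) (sC1 w) (fro_ge hn w) (fro_ge hn w) (hm0 b w) (hmm b w)
        (ven_nonneg _) (ven_nonneg _) (ven_nonneg _) (ven_nonneg _) (qn_nonneg b w)
        (qn_nonneg b w) (ven_Uv hn b w) (ven_Uv hn b w) (hV1 b w) (hV2 b w) hV
      refine pt.trans (le_of_eq ?_)
      rw [← hσ b w]
      have es : √(wq (Yb b w) (M1 b w) + wq (Yb b w) (C1 w)) *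
          √(wq (Yb b w) (M1 b w) + wq (Yb b w) (C1 w)) =
          wq (Yb b w) (M1 b w) + wq (Yb b w) (C1 w) :=
        Real.mul_self_sqrt (add_nonneg (pM b w) (pC b w))
      have ed1 : (fro fun i l => C1 w i l - M1 b w i l) = dn S s1 a1 b w := rfl
      have ed2 : (fro fun i l => C2 w i l - M2 b w i l) = dn S s2 a2 b w := rfl
      rw [ed1, ed2]
      linear_combination (-(6 / (κ * e ^ 2)) * (mu κ e (m b w) * σ b w *
        (dn S s1 a1 b w + dn S s2 a2 b w))) * es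
    refine h1.trans ?_
    rw [Im_const_mul]
    refine mul_le_mul_of_nonneg_left ?_ K0.le
    refine (Im_cs hd.eg hφ eF eH).trans ?_
    have e5 : Im φ (fun w => ∑ b, (mu κ e (m b w) * σ b w *
        √(wq (Yb b w) (M1 b w) + wq (Yb b w) (C1 w))) ^ 2) =
        Im φ (fun w => ∑ b, (mu κ e (m b w) * σ b w) ^ 2 *
          (wq (Yb b w) (M1 b w) + wq (Yb b w) (C1 w))) :=
      Im_congr fun w => Finset.sum_congr rfl fun b _ => by
        rw [mul_pow, Real.sq_sqrt (add_nonneg (pM b w) (pC b w))]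
    rw [e5]
    refine mul_le_mul_of_nonneg_left (Real.sqrt_le_sqrt ?_) (Real.sqrt_nonneg _)
    have eT : ∀ b, EG fun w => (dn S s1 a1 b w + dn S s2 a2 b w) ^ 2 *
            (wq (Yb b w) (M1 b w) + wq (Yb b w) (C1 w)) := fun b =>
      (((eg_dn b).add (eg_dn b)).pow 2).mul ((ewM b).add (ewC b))
    rw [← Im_const_mul, ← Im_const_mul, ← Im_const_mul,
      ← Im_add hd.eg ((EG.sum _ fun b _ => eT b).const_mul 2)
        (((EG.sum _ fun b _ => ewD b).const_mul e).const_mul 2)]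
    refine Im_mono hφ hd.eg (EG.sum _ fun b _ => (eH b).pow 2)
      (((EG.sum _ fun b _ => eT b).const_mul 2).add
        (((EG.sum _ fun b _ => ewD b).const_mul e).const_mul 2)) fun w => ?_
    rw [Finset.mul_sum, Finset.mul_sum, Finset.mul_sum, ← Finset.sum_add_distrib]
    refine Finset.sum_le_sum fun b _ => ?_
    have g1 : (√(wq (Yb b w) (M1 b w) + wq (Yb b w) (C1 w))) ^ 2 =
        wq (Yb b w) (M1 b w) + wq (Yb b w) (C1 w) :=
      Real.sq_sqrt (add_nonneg (pM b w) (pC b w))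
    have g2 : (√(wq (Yb b w) fun i l => M1 b w i l - C1 w i l)) ^ 2 =
        wq (Yb b w) fun i l => M1 b w i l - C1 w i l := Real.sq_sqrt (pD b w)
    have g3 : (√e) ^ 2 = e := Real.sq_sqrt he.le
    set X := (dn S s1 a1 b w + dn S s2 a2 b w) *
        √(wq (Yb b w) (M1 b w) + wq (Yb b w) (C1 w)) with hX
    set Z := √e * √(wq (Yb b w) fun i l => M1 b w i l - C1 w i l) with hZ
    have g4 : X ^ 2 = (dn S s1 a1 b w + dn S s2 a2 b w) ^ 2 *
        (wq (Yb b w) (M1 b w) + wq (Yb b w) (C1 w)) := by rw [hX, mul_pow, g1]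
    have g5 : Z ^ 2 = e * wq (Yb b w) fun i l => M1 b w i l - C1 w i l := by
      rw [hZ, mul_pow, g2, g3]
    rw [← g4, ← g5]
    nlinarith [sq_nonneg (X - Z)]
  -- second part
  have hB : √(∫ w, ∑ b, ∑ i, ∑ j, (Yb b w i j - Y w i j) ^ 2 ∂(gI (K4 (Pair n)))) *
      √(Im φ fun w => ∑ b, (gh κ e (C1 w) (C2 w) *
          m3 S s1 s2 β (vr a1 / vr a2) a1 a2 ψ' b C1 C2 w) ^ 2 *
        ∑ i, ∑ j, (∑ l, C1 w i l * C1 w l j) *
          Av R (fun w => φ w * ∑ l, C1 w i l * C1 w l j) w) ≤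
      6 / (κ * e ^ 2) * (√(e * ∫ w, ∑ b, ∑ i, ∑ j, (Yb b w i j - Y w i j) ^ 2
        ∂(gI (K4 (Pair n)))) * √(Im φ fun w => ∑ b, (mu κ e (m b w) * σ b w) ^ 2 *
          ∑ i, ∑ j, (∑ l, C1 w i l * C1 w l j) *
            Av R (fun w => φ w * ∑ l, C1 w i l * C1 w l j) w)) := by
    set DD : ℝ := ∫ w, ∑ b, ∑ i, ∑ j, (Yb b w i j - Y w i j) ^ 2 ∂(gI (K4 (Pair n))) with hDD
    have eW : EG fun w => ∑ i, ∑ j, (∑ l, C1 w i l * C1 w l j) *
          Av R (fun w => φ w * ∑ l, C1 w i l * C1 w l j) w :=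
      EG.sum _ fun i _ => EG.sum _ fun j _ => (EG.sum _ fun l _ => (eC1 i l).mul (eC1 l j)).mul
        (eg_Av R (hd.eg.mul (EG.sum _ fun l _ => (eC1 i l).mul (eC1 l j))))
    have pW : ∀ w, 0 ≤ ∑ i, ∑ j, (∑ l, C1 w i l * C1 w l j) *
          Av R (fun w => φ w * ∑ l, C1 w i l * C1 w l j) w := by
      intro w
      have e1 : ∑ i, ∑ j, (∑ l, C1 w i l * C1 w l j) *
          Av R (fun w => φ w * ∑ l, C1 w i l * C1 w l j) w =
          Av R (fun w' => φ w' * ∑ p : Fin n × Fin n, Deep.sq (C1 w) p * Deep.sq (C1 w') p)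
            w := by
        rw [← K4F.Av_lin (A := fun p w => Deep.sq (C1 w) p) hd.eg
          (fun p : Fin n × Fin n => EG.sum _ fun l _ => (eC1 p.1 l).mul (eC1 l p.2)),
          Fintype.sum_prod_type]
        rfl
      rw [e1]
      exact Av_nonneg (fun w' => mul_nonneg (hφ w') (Deep.sq_nn (sC1 w) (sC1 w'))) w
    have hr : |vr a1 / vr a2| ≤ 1 := ratio_le (vr_nonneg a1) hv hv1
    have h1 : Im φ (fun w => ∑ b, (gh κ e (C1 w) (C2 w) *
          m3 S s1 s2 β (vr a1 / vr a2) a1 a2 ψ' b C1 C2 w) ^ 2 *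
        ∑ i, ∑ j, (∑ l, C1 w i l * C1 w l j) *
          Av R (fun w => φ w * ∑ l, C1 w i l * C1 w l j) w) ≤
        9 / (κ * e ^ 2) ^ 2 * e * Im φ (fun w => ∑ b, (mu κ e (m b w) * σ b w) ^ 2 *
          ∑ i, ∑ j, (∑ l, C1 w i l * C1 w l j) *
            Av R (fun w => φ w * ∑ l, C1 w i l * C1 w l j) w) := by
      rw [← Im_const_mul]
      refine Im_mono hφ hd.eg (EG.sum _ fun b _ => (((eg_gh hκ he eC1 eC2).mul
        (eg_m3 hd eC1 eC2)).pow 2).mul eW) ((EG.sum _ fun b _ =>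
        ((eG b).pow 2).mul eW).const_mul _) fun w => ?_
      rw [Finset.mul_sum]
      refine Finset.sum_le_sum fun b _ => ?_
      have z1 : |m3 S s1 s2 β (vr a1 / vr a2) a1 a2 ψ' b C1 C2 w| ≤ 3 * m b w ^ 3 * σ b w := by
        refine (m3_le hr b C1 C2 w).trans ?_
        unfold z3
        have pm1 := fro_nonneg (M1 b w)
        have pm2 := fro_nonneg (M2 b w)
        have pc1 := fro_nonneg (C1 w)
        have pc2 := fro_nonneg (C2 w)
        have hmw := hmm b w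
        have z2 := z3v_le (c := k / β) (m := m b w) (f1 := fro (C1 w)) (f2 := fro (C2 w))
          (q1 := qn S s1 a1 b w) (q2 := qn S s2 a2 b w) (u1 := ven (Uv S s1 a1 b w))
          (u2 := ven (Uv S s2 a2 b w)) (v1 := ven (dv a1 ψ' b w)) (v2 := ven (dv a2 ψ' b w))
          (V0 := V0) (hm0 b w) pc1 pc2 (by linarith)
          (ven_nonneg _) (ven_nonneg _) (ven_nonneg _) (ven_nonneg _) (qn_nonneg b w)
          (qn_nonneg b w) (ven_Uv hn b w) (ven_Uv hn b w) (hV1 b w) (hV2 b w) hV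
        rw [← hσ b w] at z2
        refine z2.trans ?_
        have hm1 : fro (C1 w) ≤ m b w := by linarith
        have hm2 : fro (C2 w) ≤ m b w := by linarith
        have g1 : fro (C1 w) * fro (C2 w) ≤ m b w * m b w :=
          mul_le_mul hm1 hm2 pc2 (hm0 b w).le
        have g2 : 0 ≤ 3 * m b w * σ b w :=
          mul_nonneg (mul_nonneg (by norm_num) (hm0 b w).le) (p1 b w)
        calc fro (C1 w) * fro (C2 w) * (3 * m b w * σ b w) ≤
            m b w * m b w * (3 * m b w * σ b w) := mul_le_mul_of_nonneg_right g1 g2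
          _ = _ := by ring
      have d1 := deep_pt (C1 := C1 w) (C2 := C2 w) hκ he (hm0 b w) z1 (p1 b w)
      calc _ ≤ 9 / (κ * e ^ 2) ^ 2 * e * (mu κ e (m b w) * σ b w) ^ 2 *
          ∑ i, ∑ j, (∑ l, C1 w i l * C1 w l j) *
            Av R (fun w => φ w * ∑ l, C1 w i l * C1 w l j) w :=
              mul_le_mul_of_nonneg_right d1 (pW w)
        _ = _ := by ring
    refine (mul_le_mul_of_nonneg_left (Real.sqrt_le_sqrt h1) (Real.sqrt_nonneg _)).trans ?_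
    set N0 := Im φ (fun w => ∑ b, (mu κ e (m b w) * σ b w) ^ 2 *
          ∑ i, ∑ j, (∑ l, C1 w i l * C1 w l j) *
            Av R (fun w => φ w * ∑ l, C1 w i l * C1 w l j) w) with hN0
    have e6 : √(9 / (κ * e ^ 2) ^ 2 * e * N0) = 3 / (κ * e ^ 2) * (√e * √N0) := by
      have h2 : 9 / (κ * e ^ 2) ^ 2 * e * N0 = (3 / (κ * e ^ 2)) ^ 2 * (e * N0) := by ring
      rw [h2, Real.sqrt_mul (sq_nonneg _), Real.sqrt_sq (by positivity), Real.sqrt_mul he.le]
    rw [e6, Real.sqrt_mul he.le]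
    have h7 : 0 ≤ √e * √DD * √N0 := by positivity
    have h8 : 3 / (κ * e ^ 2) ≤ 6 / (κ * e ^ 2) :=
      div_le_div_of_nonneg_right (by norm_num) (by positivity)
    calc √DD * (3 / (κ * e ^ 2) * (√e * √N0)) = 3 / (κ * e ^ 2) * (√e * √DD * √N0) := by ring
      _ ≤ 6 / (κ * e ^ 2) * (√e * √DD * √N0) := mul_le_mul_of_nonneg_right h8 h7
  rw [mul_add]
  exact add_le_add hA hB

end Vale.Agent.P146.H508.E1
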