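import Vale.Agent.P146.H508.F3Def
import Vale.Agent.P146.H561.F2K

/-!
Plan R2, row F2: **the sum over the rows of (F2*)**; the frozen matrices and the frozen weight are
replaced by the matrices and the weight themselves, with an explicit error (Frobenius norms).
-/

open MeasureTheory ProbabilityTheory Finset

namespace Vale.Agent.P146.H508

open Vale.Agent.P157.Lv Vale.Agent.P146.H425 Vale.Agent.P146.H325 Vale.Agent.P146.H332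
  Vale.Agent.P146.H712 Vale.Agent.P146.R1 Vale.Agent.P146.R1C Vale.Agent.P146.H706
  Vale.Agent.P146.R1S Vale.Agent.P146.H191
open Vale.Agent.P146.H350 (mv dt cv)
open Vale.Agent.P146.H561 (n3row m3row f2_krow)

set_option linter.unusedSectionVars false

variable {n : ℕ} {k x : ℝ} {S : CS n k x} {s1 s2 β r : ℝ} {a1 a2 : Fin 4 → ℝ}
  {φ χ : (K4 (Pair n) → ℝ) → ℝ} {ψ' : K4 (Pair n) → (K4 (Pair n) → ℝ) → ℝ}

/-- The right side of (F2*), row `b`, with the matrices `C1`, `C2`, without weight. -/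
noncomputable def m3 (S : CS n k x) (s1 s2 β r : ℝ) (a1 a2 : Fin 4 → ℝ)
    (ψ' : K4 (Pair n) → (K4 (Pair n) → ℝ) → ℝ) (b : Fin n) (C1 C2 : MF n)
    (w : K4 (Pair n) → ℝ) : ℝ :=
  m3v (k / β) r (C1 w) (C2 w) (Uv S s1 a1 b w) (Uv S s2 a2 b w) (dv a1 ψ' b w) (dv a2 ψ' b w)

lemma m3row_eq {b : Fin n} {M1 M2 : MF n} (w : K4 (Pair n) → ℝ) :
    m3row S s1 s2 β r a1 a2 ψ' b χ M1 M2 w = χ w * m3 S s1 s2 β r a1 a2 ψ' b M1 M2 w := rfl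

/-- The error of the row `b`, without weight: `C` the matrices, `M` the frozen matrices. -/
noncomputable def e3 (S : CS n k x) (s1 s2 β : ℝ) (a1 a2 : Fin 4 → ℝ)
    (ψ' : K4 (Pair n) → (K4 (Pair n) → ℝ) → ℝ) (b : Fin n) (C1 C2 M1 M2 : MF n)
    (w : K4 (Pair n) → ℝ) : ℝ :=
  e3v (k / β) (fro (M1 w) + fro (C1 w)) (fro (M2 w) + fro (C2 w))
    (fro fun i l => C1 w i l - M1 w i l) (fro fun i l => C2 w i l - M2 w i l)
    (ven (Uv S s1 a1 b w)) (ven (Uv S s2 a2 b w)) (ven (dv a1 ψ' b w)) (ven (dv a2 ψ' b w))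

/-- The size of the row `b`, without weight, matrices `M`. -/
noncomputable def z3 (S : CS n k x) (s1 s2 β : ℝ) (a1 a2 : Fin 4 → ℝ)
    (ψ' : K4 (Pair n) → (K4 (Pair n) → ℝ) → ℝ) (b : Fin n) (M1 M2 : MF n)
    (w : K4 (Pair n) → ℝ) : ℝ :=
  z3v (k / β) (fro (M1 w)) (fro (M2 w))
    (ven (Uv S s1 a1 b w)) (ven (Uv S s2 a2 b w)) (ven (dv a1 ψ' b w)) (ven (dv a2 ψ' b w))

lemma e3_nonneg (b : Fin n) (C1 C2 M1 M2 : MF n) (w : K4 (Pair n) → ℝ) :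
    0 ≤ e3 S s1 s2 β a1 a2 ψ' b C1 C2 M1 M2 w :=
  e3v_nonneg (add_nonneg (fro_nonneg _) (fro_nonneg _)) (add_nonneg (fro_nonneg _) (fro_nonneg _))
    (fro_nonneg _) (fro_nonneg _) (ven_nonneg _) (ven_nonneg _) (ven_nonneg _) (ven_nonneg _)

lemma z3_nonneg (b : Fin n) (M1 M2 : MF n) (w : K4 (Pair n) → ℝ) :
    0 ≤ z3 S s1 s2 β a1 a2 ψ' b M1 M2 w :=
  z3v_nonneg (fro_nonneg _) (fro_nonneg _) (ven_nonneg _) (ven_nonneg _) (ven_nonneg _)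
    (ven_nonneg _)

lemma m3_le (hr : |r| ≤ 1) (b : Fin n) (M1 M2 : MF n) (w : K4 (Pair n) → ℝ) :
    |m3 S s1 s2 β r a1 a2 ψ' b M1 M2 w| ≤ z3 S s1 s2 β a1 a2 ψ' b M1 M2 w :=
  m3v_le hr le_rfl le_rfl

lemma m3_sub (hr : |r| ≤ 1) (b : Fin n) (C1 C2 M1 M2 : MF n) (w : K4 (Pair n) → ℝ) :
    |m3 S s1 s2 β r a1 a2 ψ' b C1 C2 w - m3 S s1 s2 β r a1 a2 ψ' b M1 M2 w| ≤
      e3 S s1 s2 β a1 a2 ψ' b C1 C2 M1 M2 w := m3v_sub hr

/-- the weight and the matrices together, one row, one point; the weight of the matrices -/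
lemma wm3_sub (hr : |r| ≤ 1) (b : Fin n) (C1 C2 M1 M2 : MF n) (w : K4 (Pair n) → ℝ)
    (c c' : ℝ) :
    |c' * m3 S s1 s2 β r a1 a2 ψ' b M1 M2 w - c * m3 S s1 s2 β r a1 a2 ψ' b C1 C2 w| ≤
      |c| * e3 S s1 s2 β a1 a2 ψ' b C1 C2 M1 M2 w +
        |c' - c| * z3 S s1 s2 β a1 a2 ψ' b M1 M2 w := by
  set X := m3 S s1 s2 β r a1 a2 ψ' b M1 M2 w with hX
  set Z := m3 S s1 s2 β r a1 a2 ψ' b C1 C2 w with hZ
  have e : c' * X - c * Z = -(c * (Z - X)) + (c' - c) * X := by ring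
  rw [e]
  refine (abs_add_le _ _).trans (add_le_add ?_ ?_)
  · rw [abs_neg, abs_mul]
    exact mul_le_mul_of_nonneg_left (m3_sub hr b C1 C2 M1 M2 w) (abs_nonneg _)
  · rw [abs_mul]
    exact mul_le_mul_of_nonneg_left (m3_le hr b M1 M2 w) (abs_nonneg _)

/-- the same, the size with the matrices `C`, the frozen weight in front of the error -/
lemma wm3_sub' (hr : |r| ≤ 1) (b : Fin n) (C1 C2 M1 M2 : MF n) (w : K4 (Pair n) → ℝ)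
    (c c' : ℝ) :
    |c' * m3 S s1 s2 β r a1 a2 ψ' b M1 M2 w - c * m3 S s1 s2 β r a1 a2 ψ' b C1 C2 w| ≤
      |c'| * e3 S s1 s2 β a1 a2 ψ' b C1 C2 M1 M2 w +
        |c' - c| * z3 S s1 s2 β a1 a2 ψ' b C1 C2 w := by
  set X := m3 S s1 s2 β r a1 a2 ψ' b M1 M2 w with hX
  set Z := m3 S s1 s2 β r a1 a2 ψ' b C1 C2 w with hZ
  have e : c' * X - c * Z = -(c' * (Z - X)) + (c' - c) * Z := by ring
  rw [e]
  refine (abs_add_le _ _).trans (add_le_add ?_ ?_)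
  · rw [abs_neg, abs_mul]
    exact mul_le_mul_of_nonneg_left (m3_sub hr b C1 C2 M1 M2 w) (abs_nonneg _)
  · rw [abs_mul]
    exact mul_le_mul_of_nonneg_left (m3_le hr b C1 C2 w) (abs_nonneg _)

/-! ### exponential growth -/

lemma eg_m3 (h : Den φ ψ') {b : Fin n} {C1 C2 : MF n} (h1 : ∀ i l, EG fun w => C1 w i l)
    (h2 : ∀ i l, EG fun w => C2 w i l) : EG (m3 S s1 s2 β r a1 a2 ψ' b C1 C2) :=
  eg_m3v h1 h2 (fun i => eg_Uv b i) (fun i => eg_Uv b i) (fun i => eg_dv h b i)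
    (fun i => eg_dv h b i)

lemma eg_e3 (h : Den φ ψ') {b : Fin n} {C1 C2 M1 M2 : MF n} (h1 : ∀ i l, EG fun w => C1 w i l)
    (h2 : ∀ i l, EG fun w => C2 w i l) (g1 : ∀ i l, EG fun w => M1 w i l)
    (g2 : ∀ i l, EG fun w => M2 w i l) : EG (e3 S s1 s2 β a1 a2 ψ' b C1 C2 M1 M2) :=
  eg_e3v ((eg_fro g1).add (eg_fro h1)) ((eg_fro g2).add (eg_fro h2))
    (eg_fro fun i l => (h1 i l).sub (g1 i l)) (eg_fro fun i l => (h2 i l).sub (g2 i l))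
    (eg_ven fun i => eg_Uv b i) (eg_ven fun i => eg_Uv b i) (eg_ven fun i => eg_dv h b i)
    (eg_ven fun i => eg_dv h b i)

lemma eg_z3 (h : Den φ ψ') {b : Fin n} {M1 M2 : MF n} (g1 : ∀ i l, EG fun w => M1 w i l)
    (g2 : ∀ i l, EG fun w => M2 w i l) : EG (z3 S s1 s2 β a1 a2 ψ' b M1 M2) :=
  eg_z3v (eg_fro g1) (eg_fro g2)
    (eg_ven fun i => eg_Uv b i) (eg_ven fun i => eg_Uv b i) (eg_ven fun i => eg_dv h b i)
    (eg_ven fun i => eg_dv h b i)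

lemma eg_abs {ι : Type} [Fintype ι] {f : (ι → ℝ) → ℝ} (hf : EG f) : EG fun w => |f w| := by
  have h : (fun w => |f w|) = fun w => √(f w ^ 2) := funext fun w => (Real.sqrt_sq_eq_abs _).symm
  rw [h]
  exact eg_sqrt (hf.pow 2)

/-! ### the sum -/

/-- **The sum over the rows of (F2*).** `C1, C2` arbitrary matrices, `M1 b, M2 b` symmetric, not
seeing the row `b`, with vanishing row and column `b`; `χ` an arbitrary weight, `χb b` a weight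
which does not see the row `b`. -/
theorem f3_sum (hs1 : 0 < s1) (hs2 : 0 < s2) (hv : 0 < vr a2) (hv1 : vr a1 ≤ vr a2)
    (hc : cv a1 a2 = vr a1) (h : Den φ ψ') (hφ : ∀ w, 0 ≤ φ w)
    {C1 C2 : MF n} {M1 M2 : Fin n → MF n} {χb : Fin n → (K4 (Pair n) → ℝ) → ℝ}
    (hC1 : ∀ i l, EG fun w => C1 w i l) (hC2 : ∀ i l, EG fun w => C2 w i l)
    (hM1 : ∀ b, Frz b (M1 b)) (hM2 : ∀ b, Frz b (M2 b))
    (h1b : ∀ b w i, M1 b w i b = 0) (h2b : ∀ b w i, M2 b w i b = 0)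
    (hχ : EG χ) (hχb : ∀ b, EG (χb b)) (hχf : ∀ b, Fr b (χb b)) :
    |∑ b, Im φ (n3row S s1 s2 β (vr a1 / vr a2) a1 a2 ψ' b (χb b) (M1 b) (M2 b)) -
      Im φ (fun w => χ w * ∑ b, m3 S s1 s2 β (vr a1 / vr a2) a1 a2 ψ' b C1 C2 w)| ≤
      Im φ (fun w => ∑ b, (|χ w| * e3 S s1 s2 β a1 a2 ψ' b C1 C2 (M1 b) (M2 b) w +
        |χb b w - χ w| * z3 S s1 s2 β a1 a2 ψ' b (M1 b) (M2 b) w)) := by
  have hr : |vr a1 / vr a2| ≤ 1 := by
    rw [abs_of_nonneg (div_nonneg (vr_nonneg a1) hv.le)]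
    exact (div_le_one hv).2 hv1
  have e1 : ∀ b, EG fun w => χb b w * m3 S s1 s2 β (vr a1 / vr a2) a1 a2 ψ' b (M1 b) (M2 b) w :=
    fun b => (hχb b).mul (eg_m3 h (hM1 b).eg (hM2 b).eg)
  have e2 : ∀ b, EG fun w => m3 S s1 s2 β (vr a1 / vr a2) a1 a2 ψ' b C1 C2 w := fun b =>
    eg_m3 h hC1 hC2
  have e3' : ∀ b, EG fun w => |χ w| * e3 S s1 s2 β a1 a2 ψ' b C1 C2 (M1 b) (M2 b) w +
      |χb b w - χ w| * z3 S s1 s2 β a1 a2 ψ' b (M1 b) (M2 b) w := fun b =>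
    ((eg_abs hχ).mul (eg_e3 h hC1 hC2 (hM1 b).eg (hM2 b).eg)).add
      ((eg_abs ((hχb b).sub hχ)).mul (eg_z3 h (hM1 b).eg (hM2 b).eg))
  have h1 : ∑ b, Im φ (n3row S s1 s2 β (vr a1 / vr a2) a1 a2 ψ' b (χb b) (M1 b) (M2 b)) =
      Im φ (fun w => ∑ b, χb b w *
        m3 S s1 s2 β (vr a1 / vr a2) a1 a2 ψ' b (M1 b) (M2 b) w) := by
    rw [Im_sum h.eg _ fun b _ => e1 b]
    exact Finset.sum_congr rfl fun b _ =>
      f2_krow hs1 hs2 hv hc h (hχb b) (hχf b) (hM1 b) (hM2 b) (h1b b) (h2b b)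
  have e4 : EG fun w => χ w * ∑ b, m3 S s1 s2 β (vr a1 / vr a2) a1 a2 ψ' b C1 C2 w :=
    hχ.mul (EG.sum _ fun b _ => e2 b)
  rw [h1, ← Im_sub h.eg (EG.sum _ fun b _ => e1 b) e4]
  refine Im_abs_le hφ h.eg ((EG.sum _ fun b _ => e1 b).sub e4) (EG.sum _ fun b _ => e3' b)
    fun w => ?_
  rw [Finset.mul_sum, ← Finset.sum_sub_distrib]
  exact (Finset.abs_sum_le_sum_abs _ _).trans
    (Finset.sum_le_sum fun b _ => wm3_sub hr b C1 C2 (M1 b) (M2 b) w _ _)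

/-- **The same, the other form of the error**: the frozen weight in front of the difference of the
matrices, the size with the matrices `C1`, `C2`. -/
theorem f3_sum' (hs1 : 0 < s1) (hs2 : 0 < s2) (hv : 0 < vr a2) (hv1 : vr a1 ≤ vr a2)
    (hc : cv a1 a2 = vr a1) (h : Den φ ψ') (hφ : ∀ w, 0 ≤ φ w)
    {C1 C2 : MF n} {M1 M2 : Fin n → MF n} {χb : Fin n → (K4 (Pair n) → ℝ) → ℝ}
    (hC1 : ∀ i l, EG fun w => C1 w i l) (hC2 : ∀ i l, EG fun w => C2 w i l)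
    (hM1 : ∀ b, Frz b (M1 b)) (hM2 : ∀ b, Frz b (M2 b))
    (h1b : ∀ b w i, M1 b w i b = 0) (h2b : ∀ b w i, M2 b w i b = 0)
    (hχ : EG χ) (hχb : ∀ b, EG (χb b)) (hχf : ∀ b, Fr b (χb b)) :
    |∑ b, Im φ (n3row S s1 s2 β (vr a1 / vr a2) a1 a2 ψ' b (χb b) (M1 b) (M2 b)) -
      Im φ (fun w => χ w * ∑ b, m3 S s1 s2 β (vr a1 / vr a2) a1 a2 ψ' b C1 C2 w)| ≤
      Im φ (fun w => ∑ b, (|χb b w| * e3 S s1 s2 β a1 a2 ψ' b C1 C2 (M1 b) (M2 b) w +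
        |χb b w - χ w| * z3 S s1 s2 β a1 a2 ψ' b C1 C2 w)) := by
  have hr : |vr a1 / vr a2| ≤ 1 := by
    rw [abs_of_nonneg (div_nonneg (vr_nonneg a1) hv.le)]
    exact (div_le_one hv).2 hv1
  have e1 : ∀ b, EG fun w => χb b w * m3 S s1 s2 β (vr a1 / vr a2) a1 a2 ψ' b (M1 b) (M2 b) w :=
    fun b => (hχb b).mul (eg_m3 h (hM1 b).eg (hM2 b).eg)
  have e2 : ∀ b, EG fun w => m3 S s1 s2 β (vr a1 / vr a2) a1 a2 ψ' b C1 C2 w := fun b =>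
    eg_m3 h hC1 hC2
  have e3' : ∀ b, EG fun w => |χb b w| * e3 S s1 s2 β a1 a2 ψ' b C1 C2 (M1 b) (M2 b) w +
      |χb b w - χ w| * z3 S s1 s2 β a1 a2 ψ' b C1 C2 w := fun b =>
    ((eg_abs (hχb b)).mul (eg_e3 h hC1 hC2 (hM1 b).eg (hM2 b).eg)).add
      ((eg_abs ((hχb b).sub hχ)).mul (eg_z3 h hC1 hC2))
  have h1 : ∑ b, Im φ (n3row S s1 s2 β (vr a1 / vr a2) a1 a2 ψ' b (χb b) (M1 b) (M2 b)) =
      Im φ (fun w => ∑ b, χb b w *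
        m3 S s1 s2 β (vr a1 / vr a2) a1 a2 ψ' b (M1 b) (M2 b) w) := by
    rw [Im_sum h.eg _ fun b _ => e1 b]
    exact Finset.sum_congr rfl fun b _ =>
      f2_krow hs1 hs2 hv hc h (hχb b) (hχf b) (hM1 b) (hM2 b) (h1b b) (h2b b)
  have e4 : EG fun w => χ w * ∑ b, m3 S s1 s2 β (vr a1 / vr a2) a1 a2 ψ' b C1 C2 w :=
    hχ.mul (EG.sum _ fun b _ => e2 b)
  rw [h1, ← Im_sub h.eg (EG.sum _ fun b _ => e1 b) e4]
  refine Im_abs_le hφ h.eg ((EG.sum _ fun b _ => e1 b).sub e4) (EG.sum _ fun b _ => e3' b)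
    fun w => ?_
  rw [Finset.mul_sum, ← Finset.sum_sub_distrib]
  exact (Finset.abs_sum_le_sum_abs _ _).trans
    (Finset.sum_le_sum fun b _ => wm3_sub' hr b C1 C2 (M1 b) (M2 b) w _ _)

/-- **The sum over the rows, no weight** (the weight is in the density). -/
theorem f3_sum1 (hs1 : 0 < s1) (hs2 : 0 < s2) (hv : 0 < vr a2) (hv1 : vr a1 ≤ vr a2)
    (hc : cv a1 a2 = vr a1) (h : Den φ ψ') (hφ : ∀ w, 0 ≤ φ w)
    {C1 C2 : MF n} {M1 M2 : Fin n → MF n}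
    (hC1 : ∀ i l, EG fun w => C1 w i l) (hC2 : ∀ i l, EG fun w => C2 w i l)
    (hM1 : ∀ b, Frz b (M1 b)) (hM2 : ∀ b, Frz b (M2 b))
    (h1b : ∀ b w i, M1 b w i b = 0) (h2b : ∀ b w i, M2 b w i b = 0) :
    |∑ b, Im φ (n3row S s1 s2 β (vr a1 / vr a2) a1 a2 ψ' b (fun _ => 1) (M1 b) (M2 b)) -
      Im φ (fun w => ∑ b, m3 S s1 s2 β (vr a1 / vr a2) a1 a2 ψ' b C1 C2 w)| ≤
      Im φ (fun w => ∑ b, e3 S s1 s2 β a1 a2 ψ' b C1 C2 (M1 b) (M2 b) w) := by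
  have key := f3_sum (S := S) (β := β) (χ := fun _ => 1) (χb := fun _ _ => 1) hs1 hs2 hv hv1 hc
    h hφ hC1 hC2 hM1 hM2 h1b h2b (EG.const 1) (fun _ => EG.const 1) (fun _ _ _ => PD.const 1)
  simp only [one_mul, abs_one, sub_self, abs_zero, zero_mul, add_zero] at key
  exact key

end Vale.Agent.P146.H508
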