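import Vale.Agent.P146.H350.F2Mat

/-!
Plan R2, row F2: the right side of the one-row identity (F2*) (coefficient `r` in front of the
second square) as a polynomial in vectors and matrices, its size and its Lipschitz bound in the
matrices (Frobenius norms).
-/

open MeasureTheory ProbabilityTheory Finset

namespace Vale.Agent.P146.H508

open Vale.Agent.P157.Lv Vale.Agent.P146.H425 Vale.Agent.P146.H191
open Vale.Agent.P146.H350 (mv dt)

set_option linter.unusedSectionVars false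

variable {n : ℕ}

/-! ### norms -/

lemma ven_mv (M : Fin n → Fin n → ℝ) (u : Fin n → ℝ) : ven (mv M u) ≤ fro M * ven u := by
  have h : ven (mv M u) ^ 2 ≤ (fro M * ven u) ^ 2 := by
    rw [mul_pow, ven_sq, ven_sq, fro_sq, Finset.sum_mul]
    exact Finset.sum_le_sum fun i _ => Finset.sum_mul_sq_le_sq_mul_sq Finset.univ (M i) u
  exact (abs_le_of_sq_le_sq' h (mul_nonneg (fro_nonneg _) (ven_nonneg _))).2

lemma ven_add (u v : Fin n → ℝ) : ven (fun i => u i + v i) ≤ ven u + ven v := by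
  have h1 := (le_abs_self _).trans (cs_ven u v)
  have h : ven (fun i => u i + v i) ^ 2 ≤ (ven u + ven v) ^ 2 := by
    rw [ven_sq]
    have e : ∑ i, (u i + v i) ^ 2 = ven u ^ 2 + 2 * ∑ i, u i * v i + ven v ^ 2 := by
      rw [ven_sq, ven_sq, Finset.mul_sum, ← Finset.sum_add_distrib, ← Finset.sum_add_distrib]
      exact Finset.sum_congr rfl fun i _ => by ring
    rw [e]
    nlinarith
  exact (abs_le_of_sq_le_sq' h (add_nonneg (ven_nonneg _) (ven_nonneg _))).2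

lemma ven_congr {u v : Fin n → ℝ} (h : ∀ i, u i = v i) : ven u = ven v := by
  rw [show u = v from funext h]

lemma abs_dt (u v : Fin n → ℝ) : |dt u v| ≤ ven u * ven v := cs_ven u v

/-- the difference of two matrix-vector products -/
lemma mv_diff (A' A : Fin n → Fin n → ℝ) (u' u : Fin n → ℝ) :
    ven (fun i => mv A' u' i - mv A u i) ≤
      fro (fun i l => A' i l - A i l) * ven u' + fro A * ven (fun i => u' i - u i) := by
  have e : ∀ i, mv A' u' i - mv A u i =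
      mv (fun i l => A' i l - A i l) u' i + mv A (fun i => u' i - u i) i := by
    intro i
    unfold mv
    rw [← Finset.sum_sub_distrib, ← Finset.sum_add_distrib]
    exact Finset.sum_congr rfl fun j _ => by ring
  rw [ven_congr e]
  exact (ven_add _ _).trans (add_le_add (ven_mv _ _) (ven_mv _ _))

/-- one vector -/
lemma mv_diff1 (A' A : Fin n → Fin n → ℝ) (u : Fin n → ℝ) :
    ven (fun i => mv A' u i - mv A u i) ≤ fro (fun i l => A' i l - A i l) * ven u := by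
  have e : ∀ i, mv A' u i - mv A u i = mv (fun i l => A' i l - A i l) u i := by
    intro i
    unfold mv
    rw [← Finset.sum_sub_distrib]
    exact Finset.sum_congr rfl fun j _ => by ring
  rw [ven_congr e]
  exact ven_mv _ _

lemma dt_diff (p' p q' q : Fin n → ℝ) :
    |dt p' q' - dt p q| ≤
      ven (fun i => p' i - p i) * ven q' + ven p * ven (fun i => q' i - q i) := by
  have e : dt p' q' - dt p q = dt (fun i => p' i - p i) q' + dt p (fun i => q' i - q i) := by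
    unfold dt
    rw [← Finset.sum_sub_distrib, ← Finset.sum_add_distrib]
    exact Finset.sum_congr rfl fun j _ => by ring
  rw [e]
  exact (abs_add_le _ _).trans (add_le_add (abs_dt _ _) (abs_dt _ _))

/-! ### the two sides -/

/-- The right side of (F2*) for one row: `M₁, M₂` the matrices, `U₁, U₂` the columns, `V₁, V₂` the
drifts of the row, `κ = k / β`. -/
noncomputable def m3v (κ r : ℝ) (M1 M2 : Fin n → Fin n → ℝ) (U1 U2 V1 V2 : Fin n → ℝ) : ℝ :=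
  dt (mv M2 U1) (mv M2 U1) + r * dt (mv M1 U2) (mv M1 U2) - 2 * dt (mv M1 U1) (mv M2 U2) -
    κ * (dt (mv M2 U1) (mv M2 (mv M1 V1)) + r * dt (mv M1 U2) (mv M1 (mv M2 V2)) -
      2 * dt (mv M1 (mv M1 V1)) (mv M2 U2))

/-- The left side of (F2*) for one row: `N₁, N₂` the rests. -/
noncomputable def n3v (κ r : ℝ) (M1 M2 : Fin n → Fin n → ℝ) (N1 N2 V1 V2 : Fin n → ℝ) : ℝ :=
  dt (mv M2 N1) (mv M2 N1) + r * dt (mv M1 N2) (mv M1 N2) - 2 * dt (mv M1 N1) (mv M2 N2) +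
    κ * (dt (mv M2 N1) (mv M2 (mv M1 V1)) + r * dt (mv M1 N2) (mv M1 (mv M2 V2)) -
      2 * dt (mv M1 N1) (mv M2 (mv M2 V2)))

/-- The size of `m3v`, `|r| ≤ 1`: `m1, m2` bounds of the norms of the matrices. -/
def z3v (κ m1 m2 u1 u2 v1 v2 : ℝ) : ℝ :=
  m2 ^ 2 * u1 ^ 2 + m1 ^ 2 * u2 ^ 2 + 2 * (m1 * m2) * (u1 * u2) +
    |κ| * (m1 * m2 ^ 2 * (u1 * v1) + m1 ^ 2 * m2 * (u2 * v2) + 2 * (m1 ^ 2 * m2) * (v1 * u2))

/-- The error of unfreezing, `|r| ≤ 1`: `m1, m2` bounds of the norms of the matrices, `α, β` the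
norms of the differences of the matrices. -/
def e3v (κ m1 m2 α β u1 u2 v1 v2 : ℝ) : ℝ :=
  β * m2 * u1 ^ 2 + α * m1 * u2 ^ 2 + 2 * (α * m2 + m1 * β) * (u1 * u2) +
    |κ| * ((α * m2 + m1 * β) * (m2 * (u1 * v1) + m1 * (u2 * v2) + 2 * m1 * (v1 * u2)))

/-- the triangle inequality -/
lemma abs6 {κ r : ℝ} (hr : |r| ≤ 1) (x1 x2 x3 x6 x7 x8 : ℝ) :
    |x1 + r * x2 - 2 * x3 - κ * (x6 + r * x7 - 2 * x8)| ≤
      |x1| + |x2| + 2 * |x3| + |κ| * (|x6| + |x7| + 2 * |x8|) := by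
  have hx : ∀ y : ℝ, |r * y| ≤ |y| := fun y => by
    rw [abs_mul]
    exact mul_le_of_le_one_left (abs_nonneg y) hr
  refine (abs_sub _ _).trans (add_le_add ?_ ?_)
  · refine (abs_sub _ _).trans (add_le_add ((abs_add_le _ _).trans
      (add_le_add le_rfl (hx x2))) ?_)
    rw [abs_mul, abs_of_nonneg (by norm_num : (0:ℝ) ≤ 2)]
  · rw [abs_mul]
    refine mul_le_mul_of_nonneg_left ((abs_sub _ _).trans (add_le_add ((abs_add_le _ _).trans
      (add_le_add le_rfl (hx x7))) ?_)) (abs_nonneg _)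
    rw [abs_mul, abs_of_nonneg (by norm_num : (0:ℝ) ≤ 2)]

lemma z3v_nonneg {κ m1 m2 u1 u2 v1 v2 : ℝ} (h1 : 0 ≤ m1) (h2 : 0 ≤ m2) (a1 : 0 ≤ u1)
    (a2 : 0 ≤ u2) (c1 : 0 ≤ v1) (c2 : 0 ≤ v2) : 0 ≤ z3v κ m1 m2 u1 u2 v1 v2 := by
  unfold z3v
  positivity

lemma e3v_nonneg {κ m1 m2 α β u1 u2 v1 v2 : ℝ} (h1 : 0 ≤ m1) (h2 : 0 ≤ m2) (hα : 0 ≤ α)
    (hβ : 0 ≤ β) (a1 : 0 ≤ u1) (a2 : 0 ≤ u2) (c1 : 0 ≤ v1) (c2 : 0 ≤ v2) :
    0 ≤ e3v κ m1 m2 α β u1 u2 v1 v2 := by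
  unfold e3v
  positivity

lemma m3v_le {κ r : ℝ} (hr : |r| ≤ 1) {M1 M2 : Fin n → Fin n → ℝ} {U1 U2 V1 V2 : Fin n → ℝ}
    {m1 m2 : ℝ} (h1 : fro M1 ≤ m1) (h2 : fro M2 ≤ m2) :
    |m3v κ r M1 M2 U1 U2 V1 V2| ≤ z3v κ m1 m2 (ven U1) (ven U2) (ven V1) (ven V2) := by
  have p1 := fro_nonneg M1
  have p2 := fro_nonneg M2
  have q1 := p1.trans h1
  have q2 := p2.trans h2
  have a1 := ven_nonneg U1
  have a2 := ven_nonneg U2
  have c1 := ven_nonneg V1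
  have c2 := ven_nonneg V2
  have g : ∀ {M : Fin n → Fin n → ℝ} {m : ℝ} (u : Fin n → ℝ), fro M ≤ m →
      ven (mv M u) ≤ m * ven u := fun u hM =>
    (ven_mv _ u).trans (mul_le_mul_of_nonneg_right hM (ven_nonneg u))
  have g2 : ∀ {M M' : Fin n → Fin n → ℝ} {m m' : ℝ} (u : Fin n → ℝ), fro M ≤ m → 0 ≤ m →
      fro M' ≤ m' → ven (mv M (mv M' u)) ≤ m * (m' * ven u) := fun u hM hm hM' =>
    (g _ hM).trans (mul_le_mul_of_nonneg_left (g u hM') hm)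
  have w : ∀ {p q : Fin n → ℝ} {P Q : ℝ}, ven p ≤ P → ven q ≤ Q → 0 ≤ P → |dt p q| ≤ P * Q :=
    fun hp hq hP => (abs_dt _ _).trans (mul_le_mul hp hq (ven_nonneg _) hP)
  have t1 := w (g U1 h2) (g U1 h2) (by positivity)
  have t2 := w (g U2 h1) (g U2 h1) (by positivity)
  have t3 := w (g U1 h1) (g U2 h2) (by positivity)
  have t6 := w (g U1 h2) (g2 V1 h2 q2 h1) (by positivity)
  have t7 := w (g U2 h1) (g2 V2 h1 q1 h2) (by positivity)
  have t8 := w (g2 V1 h1 q1 h1) (g U2 h2) (by positivity)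
  refine (abs6 hr _ _ _ _ _ _).trans ?_
  have b2 : |κ| * (|dt (mv M2 U1) (mv M2 (mv M1 V1))| + |dt (mv M1 U2) (mv M1 (mv M2 V2))| +
      2 * |dt (mv M1 (mv M1 V1)) (mv M2 U2)|) ≤ |κ| * (m2 * ven U1 * (m2 * (m1 * ven V1)) +
      m1 * ven U2 * (m1 * (m2 * ven V2)) + 2 * (m1 * (m1 * ven V1) * (m2 * ven U2))) := by
    gcongr
  have e2 : z3v κ m1 m2 (ven U1) (ven U2) (ven V1) (ven V2) =
      m2 * ven U1 * (m2 * ven U1) + m1 * ven U2 * (m1 * ven U2) +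
      2 * (m1 * ven U1 * (m2 * ven U2)) +
      |κ| * (m2 * ven U1 * (m2 * (m1 * ven V1)) +
      m1 * ven U2 * (m1 * (m2 * ven V2)) + 2 * (m1 * (m1 * ven V1) * (m2 * ven U2))) := by
    unfold z3v
    ring
  rw [e2]
  linarith

/-- the numbers of `m3v_sub` -/
lemma e3v_alg {κ r f1 f1' f2 f2' α β u1 u2 v1 v2 x1 x2 x3 x6 x7 x8 : ℝ} (hr : |r| ≤ 1)
    (p1 : 0 ≤ f1) (p1' : 0 ≤ f1') (p2 : 0 ≤ f2) (p2' : 0 ≤ f2') (pα : 0 ≤ α) (pβ : 0 ≤ β)
    (pu1 : 0 ≤ u1) (pu2 : 0 ≤ u2) (pv1 : 0 ≤ v1) (pv2 : 0 ≤ v2)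
    (t1 : |x1| ≤ (β * u1) * (f2' * u1) + (f2 * u1) * (β * u1))
    (t2 : |x2| ≤ (α * u2) * (f1' * u2) + (f1 * u2) * (α * u2))
    (t3 : |x3| ≤ (α * u1) * (f2' * u2) + (f1 * u1) * (β * u2))
    (t6 : |x6| ≤ (β * u1) * (f2' * (f1' * v1)) + (f2 * u1) * (β * (f1' * v1) + f2 * (α * v1)))
    (t7 : |x7| ≤ (α * u2) * (f1' * (f2' * v2)) + (f1 * u2) * (α * (f2' * v2) + f1 * (β * v2)))
    (t8 : |x8| ≤ (α * (f1' * v1) + f1 * (α * v1)) * (f2' * u2) + (f1 * (f1 * v1)) * (β * u2)) :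
    |x1 + r * x2 - 2 * x3 - κ * (x6 + r * x7 - 2 * x8)| ≤
      e3v κ (f1 + f1') (f2 + f2') α β u1 u2 v1 v2 := by
  refine (abs6 hr _ _ _ _ _ _).trans ?_
  unfold e3v
  have c1 : |x1| ≤ β * (f2 + f2') * u1 ^ 2 := t1.trans (le_of_eq (by ring))
  have c2 : |x2| ≤ α * (f1 + f1') * u2 ^ 2 := t2.trans (le_of_eq (by ring))
  have c3 : |x3| ≤ (α * (f2 + f2') + (f1 + f1') * β) * (u1 * u2) := by
    refine t3.trans ?_
    have e : (α * (f2 + f2') + (f1 + f1') * β) * (u1 * u2) -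
        ((α * u1) * (f2' * u2) + (f1 * u1) * (β * u2)) = (α * f2 + f1' * β) * (u1 * u2) := by
      ring
    have : 0 ≤ (α * f2 + f1' * β) * (u1 * u2) := by positivity
    linarith
  have c6 : |x6| ≤ (α * (f2 + f2') + (f1 + f1') * β) * ((f2 + f2') * (u1 * v1)) := by
    refine t6.trans ?_
    have e : (α * (f2 + f2') + (f1 + f1') * β) * ((f2 + f2') * (u1 * v1)) -
        ((β * u1) * (f2' * (f1' * v1)) + (f2 * u1) * (β * (f1' * v1) + f2 * (α * v1))) =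
        (α * (2 * f2 * f2' + f2' * f2') + f1 * (f2 + f2') * β) * (u1 * v1) := by ring
    have : 0 ≤ (α * (2 * f2 * f2' + f2' * f2') + f1 * (f2 + f2') * β) * (u1 * v1) := by
      positivity
    linarith
  have c7 : |x7| ≤ (α * (f2 + f2') + (f1 + f1') * β) * ((f1 + f1') * (u2 * v2)) := by
    refine t7.trans ?_
    have e : (α * (f2 + f2') + (f1 + f1') * β) * ((f1 + f1') * (u2 * v2)) -
        ((α * u2) * (f1' * (f2' * v2)) + (f1 * u2) * (α * (f2' * v2) + f1 * (β * v2))) =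
        (β * (2 * f1 * f1' + f1' * f1') + f2 * (f1 + f1') * α) * (u2 * v2) := by ring
    have : 0 ≤ (β * (2 * f1 * f1' + f1' * f1') + f2 * (f1 + f1') * α) * (u2 * v2) := by
      positivity
    linarith
  have c8 : |x8| ≤ (α * (f2 + f2') + (f1 + f1') * β) * ((f1 + f1') * (v1 * u2)) := by
    refine t8.trans ?_
    have e : (α * (f2 + f2') + (f1 + f1') * β) * ((f1 + f1') * (v1 * u2)) -
        ((α * (f1' * v1) + f1 * (α * v1)) * (f2' * u2) + (f1 * (f1 * v1)) * (β * u2)) =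
        (α * f2 * (f1 + f1') + (2 * f1 * f1' + f1' * f1') * β) * (v1 * u2) := by
      ring
    have : 0 ≤ (α * f2 * (f1 + f1') + (2 * f1 * f1' + f1' * f1') * β) *
        (v1 * u2) := by positivity
    linarith
  have b2 : |κ| * (|x6| + |x7| + 2 * |x8|) ≤
      |κ| * ((α * (f2 + f2') + (f1 + f1') * β) * ((f2 + f2') * (u1 * v1) +
        (f1 + f1') * (u2 * v2) + 2 * (f1 + f1') * (v1 * u2))) := by
    refine mul_le_mul_of_nonneg_left ?_ (abs_nonneg κ)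
    have e : (α * (f2 + f2') + (f1 + f1') * β) * ((f2 + f2') * (u1 * v1) +
        (f1 + f1') * (u2 * v2) + 2 * (f1 + f1') * (v1 * u2)) =
        (α * (f2 + f2') + (f1 + f1') * β) * ((f2 + f2') * (u1 * v1)) +
        (α * (f2 + f2') + (f1 + f1') * β) * ((f1 + f1') * (u2 * v2)) +
        2 * ((α * (f2 + f2') + (f1 + f1') * β) * ((f1 + f1') * (v1 * u2))) := by ring
    rw [e]
    linarith
  linarith

/-- **unfreezing, one row, one point** -/
lemma m3v_sub {κ r : ℝ} (hr : |r| ≤ 1) {M1 M2 M1' M2' : Fin n → Fin n → ℝ}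
    {U1 U2 V1 V2 : Fin n → ℝ} :
    |m3v κ r M1' M2' U1 U2 V1 V2 - m3v κ r M1 M2 U1 U2 V1 V2| ≤
      e3v κ (fro M1 + fro M1') (fro M2 + fro M2') (fro fun i l => M1' i l - M1 i l)
        (fro fun i l => M2' i l - M2 i l) (ven U1) (ven U2) (ven V1) (ven V2) := by
  have p1 : 0 ≤ fro M1 := fro_nonneg M1
  have p1' : 0 ≤ fro M1' := fro_nonneg M1'
  have p2 : 0 ≤ fro M2 := fro_nonneg M2
  have p2' : 0 ≤ fro M2' := fro_nonneg M2'
  have pα : 0 ≤ fro fun i l => M1' i l - M1 i l := fro_nonneg _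
  have pβ : 0 ≤ fro fun i l => M2' i l - M2 i l := fro_nonneg _
  have pu1 : 0 ≤ ven U1 := ven_nonneg U1
  have pu2 : 0 ≤ ven U2 := ven_nonneg U2
  have pv1 : 0 ≤ ven V1 := ven_nonneg V1
  have pv2 : 0 ≤ ven V2 := ven_nonneg V2
  have t1 : |dt (mv M2' U1) (mv M2' U1) - dt (mv M2 U1) (mv M2 U1)| ≤ _ :=
    (dt_diff _ _ _ _).trans (add_le_add
      (mul_le_mul (mv_diff1 _ _ _) (ven_mv _ _) (ven_nonneg _) (by positivity))
      (mul_le_mul (ven_mv _ _) (mv_diff1 _ _ _) (ven_nonneg _) (by positivity)))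
  have t2 : |dt (mv M1' U2) (mv M1' U2) - dt (mv M1 U2) (mv M1 U2)| ≤ _ :=
    (dt_diff _ _ _ _).trans (add_le_add
      (mul_le_mul (mv_diff1 _ _ _) (ven_mv _ _) (ven_nonneg _) (by positivity))
      (mul_le_mul (ven_mv _ _) (mv_diff1 _ _ _) (ven_nonneg _) (by positivity)))
  have t3 : |dt (mv M1' U1) (mv M2' U2) - dt (mv M1 U1) (mv M2 U2)| ≤ _ :=
    (dt_diff _ _ _ _).trans (add_le_add
      (mul_le_mul (mv_diff1 _ _ _) (ven_mv _ _) (ven_nonneg _) (by positivity))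
      (mul_le_mul (ven_mv _ _) (mv_diff1 _ _ _) (ven_nonneg _) (by positivity)))
  have g2 : ∀ (A' A B' B : Fin n → Fin n → ℝ) (V : Fin n → ℝ),
      ven (fun i => mv A' (mv B' V) i - mv A (mv B V) i) ≤
        fro (fun i l => A' i l - A i l) * (fro B' * ven V) +
        fro A * (fro (fun i l => B' i l - B i l) * ven V) := fun A' A B' B V =>
    (mv_diff _ _ _ _).trans (add_le_add
      (mul_le_mul_of_nonneg_left (ven_mv _ _) (fro_nonneg _))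
      (mul_le_mul_of_nonneg_left (mv_diff1 _ _ _) (fro_nonneg _)))
  have g3 : ∀ (A B : Fin n → Fin n → ℝ) (V : Fin n → ℝ),
      ven (mv A (mv B V)) ≤ fro A * (fro B * ven V) := fun A B V =>
    (ven_mv _ _).trans (mul_le_mul_of_nonneg_left (ven_mv _ _) (fro_nonneg _))
  have t6 : |dt (mv M2' U1) (mv M2' (mv M1' V1)) - dt (mv M2 U1) (mv M2 (mv M1 V1))| ≤ _ :=
    (dt_diff _ _ _ _).trans (add_le_add
      (mul_le_mul (mv_diff1 _ _ _) (g3 _ _ _) (ven_nonneg _) (by positivity))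
      (mul_le_mul (ven_mv _ _) (g2 _ _ _ _ _) (ven_nonneg _) (by positivity)))
  have t7 : |dt (mv M1' U2) (mv M1' (mv M2' V2)) - dt (mv M1 U2) (mv M1 (mv M2 V2))| ≤ _ :=
    (dt_diff _ _ _ _).trans (add_le_add
      (mul_le_mul (mv_diff1 _ _ _) (g3 _ _ _) (ven_nonneg _) (by positivity))
      (mul_le_mul (ven_mv _ _) (g2 _ _ _ _ _) (ven_nonneg _) (by positivity)))
  have t8 : |dt (mv M1' (mv M1' V1)) (mv M2' U2) - dt (mv M1 (mv M1 V1)) (mv M2 U2)| ≤ _ :=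
    (dt_diff _ _ _ _).trans (add_le_add
      (mul_le_mul (g2 _ _ _ _ _) (ven_mv _ _) (ven_nonneg _) (by positivity))
      (mul_le_mul (g3 _ _ _) (mv_diff1 _ _ _) (ven_nonneg _) (by positivity)))
  have hm : m3v κ r M1' M2' U1 U2 V1 V2 - m3v κ r M1 M2 U1 U2 V1 V2 =
      (dt (mv M2' U1) (mv M2' U1) - dt (mv M2 U1) (mv M2 U1)) +
      r * (dt (mv M1' U2) (mv M1' U2) - dt (mv M1 U2) (mv M1 U2)) -
      2 * (dt (mv M1' U1) (mv M2' U2) - dt (mv M1 U1) (mv M2 U2)) -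
      κ * ((dt (mv M2' U1) (mv M2' (mv M1' V1)) - dt (mv M2 U1) (mv M2 (mv M1 V1))) +
        r * (dt (mv M1' U2) (mv M1' (mv M2' V2)) - dt (mv M1 U2) (mv M1 (mv M2 V2))) -
        2 * (dt (mv M1' (mv M1' V1)) (mv M2' U2) - dt (mv M1 (mv M1 V1)) (mv M2 U2))) := by
    unfold m3v
    ring
  rw [hm]
  exact e3v_alg hr p1 p1' p2 p2' pα pβ pu1 pu2 pv1 pv2 t1 t2 t3 t6 t7 t8

/-! ### exponential growth -/

section eg

variable {ι : Type} [Fintype ι]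

lemma eg_dt {u v : (ι → ℝ) → Fin n → ℝ} (hu : ∀ i, EG fun w => u w i)
    (hv : ∀ i, EG fun w => v w i) : EG fun w => dt (u w) (v w) :=
  EG.sum _ fun j _ => (hu j).mul (hv j)

lemma eg_mv {A : (ι → ℝ) → Fin n → Fin n → ℝ} {u : (ι → ℝ) → Fin n → ℝ}
    (hA : ∀ i l, EG fun w => A w i l) (hu : ∀ i, EG fun w => u w i) (i : Fin n) :
    EG fun w => mv (A w) (u w) i := eg_dt (hA i) hu

lemma eg_m3v {κ r : ℝ} {M1 M2 : (ι → ℝ) → Fin n → Fin n → ℝ}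
    {U1 U2 V1 V2 : (ι → ℝ) → Fin n → ℝ} (h1 : ∀ i l, EG fun w => M1 w i l)
    (h2 : ∀ i l, EG fun w => M2 w i l)
    (hU1 : ∀ i, EG fun w => U1 w i) (hU2 : ∀ i, EG fun w => U2 w i)
    (hV1 : ∀ i, EG fun w => V1 w i) (hV2 : ∀ i, EG fun w => V2 w i) :
    EG fun w => m3v κ r (M1 w) (M2 w) (U1 w) (U2 w) (V1 w) (V2 w) := by
  have a := eg_mv h2 hU1
  have b := eg_mv h1 hU2
  have c := eg_mv h1 hU1
  have d := eg_mv h2 hU2
  exact ((((eg_dt a a).add ((eg_dt b b).const_mul _)).sub ((eg_dt c d).const_mul _))).sub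
    ((((eg_dt a (eg_mv h2 (eg_mv h1 hV1))).add ((eg_dt b (eg_mv h1 (eg_mv h2 hV2))).const_mul
      _)).sub ((eg_dt (eg_mv h1 (eg_mv h1 hV1)) d).const_mul _)).const_mul _)

lemma eg_n3v {κ r : ℝ} {M1 M2 : (ι → ℝ) → Fin n → Fin n → ℝ}
    {N1 N2 V1 V2 : (ι → ℝ) → Fin n → ℝ} (h1 : ∀ i l, EG fun w => M1 w i l)
    (h2 : ∀ i l, EG fun w => M2 w i l) (hN1 : ∀ i, EG fun w => N1 w i)
    (hN2 : ∀ i, EG fun w => N2 w i) (hV1 : ∀ i, EG fun w => V1 w i)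
    (hV2 : ∀ i, EG fun w => V2 w i) :
    EG fun w => n3v κ r (M1 w) (M2 w) (N1 w) (N2 w) (V1 w) (V2 w) := by
  have a := eg_mv h2 hN1
  have b := eg_mv h1 hN2
  have c := eg_mv h1 hN1
  have d := eg_mv h2 hN2
  exact (((eg_dt a a).add ((eg_dt b b).const_mul _)).sub ((eg_dt c d).const_mul _)).add
    ((((eg_dt a (eg_mv h2 (eg_mv h1 hV1))).add ((eg_dt b (eg_mv h1 (eg_mv h2 hV2))).const_mul
      _)).sub ((eg_dt c (eg_mv h2 (eg_mv h2 hV2))).const_mul _)).const_mul _)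

lemma eg_e3v {κ : ℝ} {m1 m2 α β u1 u2 v1 v2 : (ι → ℝ) → ℝ} (h1 : EG m1) (h2 : EG m2)
    (hα : EG α) (hβ : EG β) (hu1 : EG u1) (hu2 : EG u2) (hv1 : EG v1)
    (hv2 : EG v2) :
    EG fun w => e3v κ (m1 w) (m2 w) (α w) (β w) (u1 w) (u2 w) (v1 w) (v2 w) := by
  have e : EG fun w => α w * m2 w + m1 w * β w := (hα.mul h2).add (h1.mul hβ)
  unfold e3v
  exact ((((hβ.mul h2).mul (hu1.pow 2)).add ((hα.mul h1).mul (hu2.pow 2))).add
    ((e.const_mul 2).mul (hu1.mul hu2))).add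
    ((e.mul (((h2.mul (hu1.mul hv1)).add (h1.mul (hu2.mul hv2))).add
      ((h1.const_mul 2).mul (hv1.mul hu2)))).const_mul _)

lemma eg_z3v {κ : ℝ} {m1 m2 u1 u2 v1 v2 : (ι → ℝ) → ℝ} (h1 : EG m1) (h2 : EG m2)
    (hu1 : EG u1) (hu2 : EG u2) (hv1 : EG v1) (hv2 : EG v2) :
    EG fun w => z3v κ (m1 w) (m2 w) (u1 w) (u2 w) (v1 w) (v2 w) := by
  unfold z3v
  exact ((((h2.pow 2).mul (hu1.pow 2)).add ((h1.pow 2).mul (hu2.pow 2))).add
    (((h1.mul h2).const_mul 2).mul (hu1.mul hu2))).add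
    ((((((h1.mul (h2.pow 2)).mul (hu1.mul hv1))).add (((h1.pow 2).mul h2).mul
      (hu2.mul hv2))).add ((((h1.pow 2).mul h2).const_mul 2).mul (hv1.mul hu2))).const_mul _)

end eg

end Vale.Agent.P146.H508
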