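import Vale.Agent.P146.H508.F2E1

/-!
Plan R2, row F2: **numbers with the frozen weight** `W_b = tr (Y_b C_b²)` in terms of numbers with
the weight `tr (Y C²)`: `TD.lin` (any functions of the row), and its instances.
-/

open MeasureTheory ProbabilityTheory Finset

namespace Vale.Agent.P146.H508.SN

open Vale.Agent.P157.Lv Vale.Agent.P146.H425 Vale.Agent.P146.H325 Vale.Agent.P146.H332
  Vale.Agent.P146.H712 Vale.Agent.P146.R1 Vale.Agent.P146.R1C Vale.Agent.P146.H706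
  Vale.Agent.P146.R1S Vale.Agent.P146.H191 Vale.Agent.P146.H633 Vale.Agent.P146.Cum
open Vale.Agent.P146.H350 (tq wq mq)
open Vale.Agent.P146.H508.Rho (Ps)
open Vale.Agent.P146.H508.Deep
open Vale.Agent.P146.H508.K4F
open Vale.Agent.P146.H508.E1 (Cf dn qn)

set_option linter.unusedSectionVars false

variable {n : ℕ} {k x : ℝ}

/-- **The data**: the density, the deep coordinates, the deep matrix and the frozen deep
matrices. -/
structure TD (S : CS n k x) (s : ℝ) (a : Fin 4 → ℝ) (φ : (K4 (Pair n) → ℝ) → ℝ)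
    (R : Finset (K4 (Pair n))) (Y : MF n) (Yb : Fin n → MF n) : Prop where
  n0 : 0 < n
  eφ : EG φ
  φ0 : ∀ w, 0 ≤ φ w
  eY : ∀ i l, EG fun w => Y w i l
  eYb : ∀ b i l, EG fun w => Yb b w i l
  ind : ∀ b i l, Ind R fun w => Yb b w i l - Y w i l
  pY : ∀ w, Ps (Y w)
  pYb : ∀ b w, Ps (Yb b w)
  sYb : ∀ b w i l, Yb b w i l = Yb b w l i
  bY : ∀ w i j, |Y w i j| ≤ n
  bYb : ∀ b w i j, |Yb b w i j| ≤ n
  Yc : ∀ w i j, Av R (fun w => φ w * ∑ l, S.A s (H712.lp a w) i l *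
    S.A s (H712.lp a w) l j) w = Y w i j

/-- the frozen weight -/
noncomputable def Wb (S : CS n k x) (s : ℝ) (a : Fin 4 → ℝ) (Yb : Fin n → MF n) (b : Fin n)
    (w : K4 (Pair n) → ℝ) : ℝ := tq (Yb b w) (H364.Cb S s a b w)

/-- the frozen form of the touch -/
noncomputable def Zb (S : CS n k x) (s : ℝ) (a : Fin 4 → ℝ) (Yb : Fin n → MF n) (b : Fin n)
    (w : K4 (Pair n) → ℝ) : ℝ :=
  tq (Yb b w) fun i l => S.A s (H712.lp a w) i l - H364.Cb S s a b w i l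

/-- the weight -/
noncomputable def Ww (S : CS n k x) (s : ℝ) (a : Fin 4 → ℝ) (Y : MF n)
    (w : K4 (Pair n) → ℝ) : ℝ := tq (Y w) (S.A s (H712.lp a w))

/-- the square of the distance of the deep matrices -/
noncomputable def DDn (Y : MF n) (Yb : Fin n → MF n) : ℝ :=
  ∫ w, ∑ b, ∑ i, ∑ j, (Yb b w i j - Y w i j) ^ 2 ∂(gI (K4 (Pair n)))

variable {S : CS n k x} {s : ℝ} {a : Fin 4 → ℝ} {φ : (K4 (Pair n) → ℝ) → ℝ}
  {R : Finset (K4 (Pair n))} {Y : MF n} {Yb : Fin n → MF n}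

lemma abs_Cb (b : Fin n) (w : K4 (Pair n) → ℝ) (i j : Fin n) :
    |H364.Cb S s a b w i j| ≤ 1 := by
  unfold H364.Cb
  by_cases h : i = b ∨ j = b
  · rw [if_pos h, abs_zero]
    exact zero_le_one
  · rw [if_neg h]
    have e1 : ∀ c : ℝ, Av (lf (row b)) (fun _ : K4 (Pair n) → ℝ => c) w = c := fun c =>
      Av_const _ _
    rw [abs_le]
    constructor
    · rw [← e1 (-1)]
      exact Av_mono (EG.const _) (eg_Cl i j) (fun w => (abs_le.1 (S.abs_A s _ i j)).1) w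
    · refine le_of_le_of_eq (Av_mono (eg_Cl i j) (EG.const 1)
        (fun w => (abs_le.1 (S.abs_A s _ i j)).2) w) (e1 1)

/-- a crude bound of the form -/
lemma tq_crude {Y D : Fin n → Fin n → ℝ} {c : ℝ} (hY : ∀ i j, |Y i j| ≤ n)
    (hD : ∀ i j, |D i j| ≤ c) : tq Y D ≤ n ^ 4 * c ^ 2 := by
  unfold H350.tq
  have h1 : ∀ i j, Y i j * ∑ l, D i l * D j l ≤ (n : ℝ) * (n * c ^ 2) := by
    intro i j
    refine (le_abs_self _).trans ?_
    rw [abs_mul]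
    refine mul_le_mul (hY i j) ?_ (abs_nonneg _) (Nat.cast_nonneg n)
    refine (Finset.abs_sum_le_sum_abs _ _).trans ?_
    calc ∑ l, |D i l * D j l| ≤ ∑ _l : Fin n, c ^ 2 := Finset.sum_le_sum fun l _ => by
          rw [abs_mul, pow_two]
          exact mul_le_mul (hD i l) (hD j l) (abs_nonneg _) ((abs_nonneg _).trans (hD i l))
      _ = n * c ^ 2 := by simp
  refine (Finset.sum_le_sum fun i _ => Finset.sum_le_sum fun j _ => h1 i j).trans
    (le_of_eq ?_)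
  simp only [Finset.sum_const, Finset.card_univ, Fintype.card_fin, nsmul_eq_mul]
  ring

lemma TD.Ww_le (D : TD S s a φ R Y Yb) (w : K4 (Pair n) → ℝ) : Ww S s a Y w ≤ (n : ℝ) ^ 4 := by
  have h := tq_crude (c := 1) (D.bY w) fun i j => S.abs_A s (H712.lp a w) i j
  rw [one_pow, mul_one] at h
  exact h

lemma TD.Ww_nonneg (D : TD S s a φ R Y Yb) (w : K4 (Pair n) → ℝ) : 0 ≤ Ww S s a Y w :=
  Rho.qf_nonneg (D.pY w) _

lemma TD.Wb_nonneg (D : TD S s a φ R Y Yb) (b : Fin n) (w : K4 (Pair n) → ℝ) :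
    0 ≤ Wb S s a Yb b w := Rho.qf_nonneg (D.pYb b w) _

lemma TD.Zb_nonneg (D : TD S s a φ R Y Yb) (b : Fin n) (w : K4 (Pair n) → ℝ) :
    0 ≤ Zb S s a Yb b w := Rho.qf_nonneg (D.pYb b w) _

lemma TD.Zb_le (D : TD S s a φ R Y Yb) (b : Fin n) (w : K4 (Pair n) → ℝ) :
    Zb S s a Yb b w ≤ 4 * (n : ℝ) ^ 4 := by
  have h := tq_crude (Y := Yb b w)
    (D := fun i l => S.A s (H712.lp a w) i l - H364.Cb S s a b w i l) (c := 2) (D.bYb b w)
    fun i j => (abs_sub _ _).trans (by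
      have := S.abs_A s (H712.lp a w) i j
      have := abs_Cb (S := S) (s := s) (a := a) b w i j
      linarith)
  refine h.trans (le_of_eq ?_)
  ring

lemma TD.eWw (D : TD S s a φ R Y Yb) : EG (Ww S s a Y) := by
  unfold Ww H350.tq
  exact EG.sum _ fun i _ => EG.sum _ fun j _ => (D.eY i j).mul
    (EG.sum _ fun l _ => (eg_Cl i l).mul (eg_Cl j l))

lemma TD.eWb (D : TD S s a φ R Y Yb) (b : Fin n) : EG (Wb S s a Yb b) := by
  unfold Wb H350.tq
  exact EG.sum _ fun i _ => EG.sum _ fun j _ => (D.eYb b i j).mul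
    (EG.sum _ fun l _ => (H364.eg_Cb i l).mul (H364.eg_Cb j l))

lemma TD.eZb (D : TD S s a φ R Y Yb) (b : Fin n) : EG (Zb S s a Yb b) := by
  unfold Zb H350.tq
  exact EG.sum _ fun i _ => EG.sum _ fun j _ => (D.eYb b i j).mul
    (EG.sum _ fun l _ => ((eg_Cl i l).sub (H364.eg_Cb i l)).mul
      ((eg_Cl j l).sub (H364.eg_Cb j l)))

lemma TD.Im_nonneg (D : TD S s a φ R Y Yb) {f : (K4 (Pair n) → ℝ) → ℝ} (h : ∀ w, 0 ≤ f w) :
    0 ≤ Im φ f := integral_nonneg fun w => mul_nonneg (D.φ0 w) (h w)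

lemma DDn_nonneg : 0 ≤ DDn Y Yb := integral_nonneg fun w => Finset.sum_nonneg fun b _ =>
  Finset.sum_nonneg fun i _ => Finset.sum_nonneg fun j _ => sq_nonneg _

/-- **The frozen weight against the weight**, any functions `0 ≤ g b ≤ G + T`. -/
theorem TD.lin (D : TD S s a φ R Y Yb) {g : Fin n → (K4 (Pair n) → ℝ) → ℝ}
    {T : (K4 (Pair n) → ℝ) → ℝ} {G g8 : ℝ} (hG : 0 < G) (hg : ∀ b, EG (g b))
    (hg0 : ∀ b w, 0 ≤ g b w) (hT : EG T) (hT0 : ∀ w, 0 ≤ T w) (hgT : ∀ b w, g b w ≤ G + T w)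
    (hg8 : ∀ w, ∑ b, g b w ≤ g8) :
    Im φ (fun w => ∑ b, Wb S s a Yb b w * g b w) ≤
      3 * Im φ (fun w => Ww S s a Y w * ∑ b, g b w) +
      G * (DDn Y Yb + 2 * Im φ (fun w => ∑ b, Zb S s a Yb b w)) +
      ((n : ℝ) ^ 4 * g8 / G + 8 * (n : ℝ) ^ 5) * Im φ T := by
  have key := txb_lvl (R := R) (φ := φ) (C := fun w i j => S.A s (H712.lp a w) i j) (Y := Y)
    (Yb := Yb) (M := fun b => H364.Cb S s a b) (g := g) (T := T) (G := G)
    (K1 := (n : ℝ) ^ 4 * g8) (K2 := 4 * (n : ℝ) ^ 5) D.eφ D.φ0 eg_Cl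
    (fun w i l => S.A_comm s _ i l) D.eY D.eYb (fun b i l => H364.eg_Cb i l) D.pY D.pYb D.sYb
    D.ind hg hg0 hT hT0 hgT D.Yc
    (fun w => mul_le_mul (D.Ww_le w) (hg8 w) (Finset.sum_nonneg fun b _ => hg0 b w)
      (by positivity))
    (fun w => by
      refine (Finset.sum_le_sum fun b _ => D.Zb_le b w).trans (le_of_eq ?_)
      rw [Finset.sum_const, Finset.card_univ, Fintype.card_fin, nsmul_eq_mul]
      ring)
  have h1 : Im φ (fun w => ∑ b, Wb S s a Yb b w * g b w) ≤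
      2 * Im φ (fun w => Ww S s a Y w * ∑ b, g b w) +
      2 * (√(DDn Y Yb) * √(G * Im φ (fun w => Ww S s a Y w * ∑ b, g b w) +
        (n : ℝ) ^ 4 * g8 * Im φ T)) +
      2 * (G * Im φ (fun w => ∑ b, Zb S s a Yb b w) + 4 * (n : ℝ) ^ 5 * Im φ T) := key
  refine h1.trans ?_
  set E := Im φ (fun w => Ww S s a Y w * ∑ b, g b w) with hE
  set DD := DDn Y Yb with hDD
  set TY := Im φ (fun w => ∑ b, Zb S s a Yb b w) with hTY
  set η := Im φ T with hη
  have pE : 0 ≤ E := D.Im_nonneg fun w =>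
    mul_nonneg (D.Ww_nonneg w) (Finset.sum_nonneg fun b _ => hg0 b w)
  have pD : 0 ≤ DD := DDn_nonneg
  have pη : 0 ≤ η := D.Im_nonneg hT0
  have w0 : K4 (Pair n) → ℝ := fun _ => 0
  have pg : 0 ≤ g8 := (Finset.sum_nonneg fun b _ => hg0 b w0).trans (hg8 w0)
  have h2 : √DD * √(G * E + (n : ℝ) ^ 4 * g8 * η) ≤
      (G * DD + (E + (n : ℝ) ^ 4 * g8 / G * η)) / 2 := by
    have e1 : G * E + (n : ℝ) ^ 4 * g8 * η = G * (E + (n : ℝ) ^ 4 * g8 / G * η) := by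
      field_simp
    have p1 : 0 ≤ E + (n : ℝ) ^ 4 * g8 / G * η := by positivity
    rw [e1, Real.sqrt_mul hG.le, ← mul_assoc, mul_comm (√DD), ← Real.sqrt_mul hG.le]
    have a1 : √(G * DD) ^ 2 = G * DD := Real.sq_sqrt (by positivity)
    have a2 : √(E + (n : ℝ) ^ 4 * g8 / G * η) ^ 2 = E + (n : ℝ) ^ 4 * g8 / G * η :=
      Real.sq_sqrt p1
    nlinarith [sq_nonneg (√(G * DD) - √(E + (n : ℝ) ^ 4 * g8 / G * η))]
  linarith

/-! ### instances -/

/-- **(SW)** -/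
theorem TD.SW (D : TD S s a φ R Y Yb) :
    Im φ (fun w => ∑ b, Wb S s a Yb b w) ≤ 3 * (n * Im φ (Ww S s a Y)) +
      (DDn Y Yb + 2 * Im φ (fun w => ∑ b, Zb S s a Yb b w)) := by
  have h := D.lin (g := fun _ _ => 1) (T := fun _ => 0) (G := 1) (g8 := n) one_pos
    (fun _ => EG.const 1) (fun _ _ => zero_le_one) (EG.const 0) (fun _ => le_rfl)
    (fun _ _ => by norm_num) (fun w => by simp)
  have e1 : Im φ (fun _ => (0 : ℝ)) = 0 := by
    unfold Im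
    simp
  have e2 : Im φ (fun w => Ww S s a Y w * ∑ _b : Fin n, (1 : ℝ)) = n * Im φ (Ww S s a Y) := by
    rw [← Im_const_mul]
    exact Im_congr fun w => by simp [mul_comm]
  rw [e1, e2] at h
  simp only [mul_one, mul_zero, add_zero, one_mul] at h
  exact h

/-- the sum of the row energies -/
lemma sum_Xr {s' : ℝ} {a' : Fin 4 → ℝ} (w : K4 (Pair n) → ℝ) :
    ∑ b, Xr S s' a' b w = 2 * ∑ e, fr (S.DA s' e (H712.lp a' w)) := by
  rw [← sum_rows]
  rfl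

/-- **(SX)** the row energies, any second position -/
theorem TD.SX (D : TD S s a φ R Y Yb) {s' Γ : ℝ} {a' : Fin 4 → ℝ}
    (hFn : Fn k SkS (uu x s' S.F) (S.mu s') Γ) (hΓ : 0 < k ^ 2 * Γ ^ 2)
    {L : ℝ} (hL : 1 ≤ L)
    {τ : (K4 (Pair n) → ℝ) → ℝ} (hτ : EG τ) (hτ0 : ∀ w, 0 ≤ τ w)
    (hLτ : ∀ w, fr (S.A s' (H712.lp a' w)) ≤ L + τ w) :
    Im φ (fun w => ∑ b, Wb S s a Yb b w * Xr S s' a' b w) ≤
      6 * Im φ (fun w => Ww S s a Y w * ∑ e, fr (S.DA s' e (H712.lp a' w))) +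
      k ^ 2 * Γ ^ 2 * n * L * (DDn Y Yb + 2 * Im φ (fun w => ∑ b, Zb S s a Yb b w)) +
      k ^ 2 * Γ ^ 2 * n * (9 * (n : ℝ) ^ 7) * Im φ τ := by
  have hn : (0 : ℝ) < n := by exact_mod_cast D.n0
  have hn1 : (1 : ℝ) ≤ n := by exact_mod_cast D.n0
  have hc : 0 < k ^ 2 * Γ ^ 2 * (n : ℝ) := mul_pos hΓ hn
  have h := D.lin (g := fun b => Xr S s' a' b) (T := fun w => k ^ 2 * Γ ^ 2 * n * τ w)
    (G := k ^ 2 * Γ ^ 2 * n * L) (g8 := k ^ 2 * Γ ^ 2 * n * (n : ℝ) ^ 3) (by positivity)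
    (fun b => eg_Xr b) (fun b w => Xr_nonneg b w) (hτ.const_mul _)
    (fun w => mul_nonneg hc.le (hτ0 w))
    (fun b w => by
      have h1 := row_fr S hFn b (H712.lp a' w)
      have h2 := mul_le_mul_of_nonneg_left (hLτ w) hc.le
      calc Xr S s' a' b w ≤ k ^ 2 * Γ ^ 2 * (n * fr (S.A s' (H712.lp a' w))) := h1
        _ = k ^ 2 * Γ ^ 2 * n * fr (S.A s' (H712.lp a' w)) := by ring
        _ ≤ k ^ 2 * Γ ^ 2 * n * (L + τ w) := h2
        _ = _ := by ring)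
    (fun w => by
      have h1 : ∀ b : Fin n, Xr S s' a' b w ≤ k ^ 2 * Γ ^ 2 * n * (n : ℝ) ^ 2 := by
        intro b
        have h1 := row_fr S hFn b (H712.lp a' w)
        have h2 := mul_le_mul_of_nonneg_left (fr_le_sq (S := S) (s := s') (H712.lp a' w)) hc.le
        calc Xr S s' a' b w ≤ k ^ 2 * Γ ^ 2 * (n * fr (S.A s' (H712.lp a' w))) := h1
          _ = k ^ 2 * Γ ^ 2 * n * fr (S.A s' (H712.lp a' w)) := by ring
          _ ≤ _ := h2
      refine (Finset.sum_le_sum fun b _ => h1 b).trans (le_of_eq ?_)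
      rw [Finset.sum_const, Finset.card_univ, Fintype.card_fin, nsmul_eq_mul]
      ring)
  have e1 : Im φ (fun w => Ww S s a Y w * ∑ b, Xr S s' a' b w) =
      2 * Im φ (fun w => Ww S s a Y w * ∑ e, fr (S.DA s' e (H712.lp a' w))) := by
    rw [← Im_const_mul]
    exact Im_congr fun w => by rw [sum_Xr]; ring
  have e2 : Im φ (fun w => k ^ 2 * Γ ^ 2 * n * τ w) = k ^ 2 * Γ ^ 2 * n * Im φ τ :=
    Im_const_mul _ _
  rw [e1, e2] at h
  have pη : 0 ≤ Im φ τ := D.Im_nonneg hτ0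
  have h3 : ((n : ℝ) ^ 4 * (k ^ 2 * Γ ^ 2 * n * (n : ℝ) ^ 3) / (k ^ 2 * Γ ^ 2 * n * L) +
      8 * (n : ℝ) ^ 5) * (k ^ 2 * Γ ^ 2 * n * Im φ τ) ≤
      k ^ 2 * Γ ^ 2 * n * (9 * (n : ℝ) ^ 7) * Im φ τ := by
    have e3 : (n : ℝ) ^ 4 * (k ^ 2 * Γ ^ 2 * n * (n : ℝ) ^ 3) / (k ^ 2 * Γ ^ 2 * n * L) =
        (n : ℝ) ^ 7 / L := by
      have hk : k ≠ 0 := by
        rintro rfl
        simp at hΓ
      have hΓ' : Γ ≠ 0 := by
        rintro rfl
        simp at hΓ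
      have hL' : L ≠ 0 := by positivity
      field_simp
    have h4 : (n : ℝ) ^ 7 / L ≤ (n : ℝ) ^ 7 := div_le_self (by positivity) hL
    have h5 : (n : ℝ) ^ 5 ≤ (n : ℝ) ^ 7 := pow_le_pow_right₀ hn1 (by norm_num)
    rw [e3]
    have h6 : (n : ℝ) ^ 7 / L + 8 * (n : ℝ) ^ 5 ≤ 9 * (n : ℝ) ^ 7 := by linarith
    calc ((n : ℝ) ^ 7 / L + 8 * (n : ℝ) ^ 5) * (k ^ 2 * Γ ^ 2 * n * Im φ τ) ≤
        9 * (n : ℝ) ^ 7 * (k ^ 2 * Γ ^ 2 * n * Im φ τ) :=
          mul_le_mul_of_nonneg_right h6 (mul_nonneg hc.le pη)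
      _ = _ := by ring
  linarith

/-- **(SV)** the columns, any second position -/
theorem TD.SV (D : TD S s a φ R Y Yb) {s' : ℝ} {a' : Fin 4 → ℝ} :
    Im φ (fun w => ∑ b, Wb S s a Yb b w * ∑ i, S.A s' (H712.lp a' w) i b ^ 2) ≤
      3 * Im φ (fun w => Ww S s a Y w * fr (S.A s' (H712.lp a' w))) +
      n * (DDn Y Yb + 2 * Im φ (fun w => ∑ b, Zb S s a Yb b w)) := by
  have hn : (0 : ℝ) < n := by exact_mod_cast D.n0
  have hb : ∀ (b : Fin n) (w : K4 (Pair n) → ℝ), ∑ i, S.A s' (H712.lp a' w) i b ^ 2 ≤ n := by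
    intro b w
    calc ∑ i, S.A s' (H712.lp a' w) i b ^ 2 ≤ ∑ _i : Fin n, (1 : ℝ) :=
          Finset.sum_le_sum fun i _ => by
            rw [← sq_abs]
            exact pow_le_one₀ (abs_nonneg _) (S.abs_A s' _ i b)
      _ = n := by simp
  have h := D.lin (g := fun b w => ∑ i, S.A s' (H712.lp a' w) i b ^ 2) (T := fun _ => 0)
    (G := n) (g8 := n * n) hn (fun b => EG.sum _ fun i _ => (eg_Cl i b).pow 2)
    (fun b w => Finset.sum_nonneg fun _ _ => sq_nonneg _) (EG.const 0) (fun _ => le_rfl)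
    (fun b w => by rw [add_zero]; exact hb b w) (fun w => by
      refine (Finset.sum_le_sum fun b _ => hb b w).trans (le_of_eq ?_)
      simp)
  have e1 : Im φ (fun _ => (0 : ℝ)) = 0 := by
    unfold Im
    simp
  have e2 : Im φ (fun w => Ww S s a Y w * ∑ b, ∑ i, S.A s' (H712.lp a' w) i b ^ 2) =
      Im φ (fun w => Ww S s a Y w * fr (S.A s' (H712.lp a' w))) :=
    Im_congr fun w => by
      unfold H332.fr
      rw [Finset.sum_comm]
  rw [e1, e2] at h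
  simp only [mul_zero, add_zero] at h
  exact h

/-- **(SK)** a function of the position (the same for all rows), any crude bound -/
theorem TD.SF (D : TD S s a φ R Y Yb) {f : (K4 (Pair n) → ℝ) → ℝ} {G : ℝ} (hG : 0 < G)
    (hf : EG f) (hf0 : ∀ w, 0 ≤ f w) (hfG : ∀ w, f w ≤ G) :
    Im φ (fun w => ∑ b, Wb S s a Yb b w * f w) ≤
      3 * (n * Im φ (fun w => Ww S s a Y w * f w)) +
      G * (DDn Y Yb + 2 * Im φ (fun w => ∑ b, Zb S s a Yb b w)) := by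
  have h := D.lin (g := fun _ => f) (T := fun _ => 0) (G := G) (g8 := n * G) hG
    (fun _ => hf) (fun _ w => hf0 w) (EG.const 0) (fun _ => le_rfl)
    (fun _ w => by rw [add_zero]; exact hfG w) (fun w => by
      rw [Finset.sum_const, Finset.card_univ, Fintype.card_fin, nsmul_eq_mul]
      exact mul_le_mul_of_nonneg_left (hfG w) (Nat.cast_nonneg n))
  have e1 : Im φ (fun _ => (0 : ℝ)) = 0 := by
    unfold Im
    simp
  have e2 : Im φ (fun w => Ww S s a Y w * ∑ _b : Fin n, f w) =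
      n * Im φ (fun w => Ww S s a Y w * f w) := by
    rw [← Im_const_mul]
    refine Im_congr fun w => ?_
    rw [Finset.sum_const, Finset.card_univ, Fintype.card_fin, nsmul_eq_mul]
    ring
  rw [e1, e2] at h
  simp only [mul_zero, add_zero] at h
  exact h

/-- **(SK), level form** -/
theorem TD.SFl (D : TD S s a φ R Y Yb) {f T : (K4 (Pair n) → ℝ) → ℝ} {G f8 : ℝ} (hG : 0 < G)
    (hf : EG f) (hf0 : ∀ w, 0 ≤ f w) (hT : EG T) (hT0 : ∀ w, 0 ≤ T w)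
    (hfG : ∀ w, f w ≤ G + T w) (hf8 : ∀ w, f w ≤ f8) :
    Im φ (fun w => ∑ b, Wb S s a Yb b w * f w) ≤
      3 * (n * Im φ (fun w => Ww S s a Y w * f w)) +
      G * (DDn Y Yb + 2 * Im φ (fun w => ∑ b, Zb S s a Yb b w)) +
      ((n : ℝ) ^ 4 * (n * f8) / G + 8 * (n : ℝ) ^ 5) * Im φ T := by
  have h := D.lin (g := fun _ => f) (T := T) (G := G) (g8 := n * f8) hG
    (fun _ => hf) (fun _ w => hf0 w) hT hT0
    (fun _ w => hfG w) (fun w => by
      rw [Finset.sum_const, Finset.card_univ, Fintype.card_fin, nsmul_eq_mul]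
      exact mul_le_mul_of_nonneg_left (hf8 w) (Nat.cast_nonneg n))
  have e2 : Im φ (fun w => Ww S s a Y w * ∑ _b : Fin n, f w) =
      n * Im φ (fun w => Ww S s a Y w * f w) := by
    rw [← Im_const_mul]
    refine Im_congr fun w => ?_
    rw [Finset.sum_const, Finset.card_univ, Fintype.card_fin, nsmul_eq_mul]
    ring
  rw [e2] at h
  exact h

end Vale.Agent.P146.H508.SN
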